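import Vale.Agent.P153.Wick.Stm

/-! P153, field part: the conformal map of a Jordan domain and its inverse. -/

open Set Filter Topology MeasureTheory Metric
open Vale.Agent.P071 (Test lap DD hh g0 Conf)

namespace Vale.Agent.P153.Wick

namespace Conf

variable {ψ : ℂ → ℂ}

theorem injB (h : IsJordanMap ψ) : InjOn ψ (ball 0 1) := h.2.1.mono ball_subset_closedBall

theorem not_const (h : IsJordanMap ψ) {z : ℂ} {r : ℝ} (hr : 0 < r) (hs : ball z r ⊆ ball 0 1) :
    ¬ ∃ a, ∀ x ∈ ball z r, ψ x = a := by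
  rintro ⟨a, ha⟩
  have h1 : z ∈ ball z r := mem_ball_self hr
  have h2 : z + ((r / 2 : ℝ) : ℂ) ∈ ball z r := by
    rw [mem_ball, dist_eq_norm, add_sub_cancel_left, Complex.norm_real,
      Real.norm_of_nonneg (by positivity)]
    linarith
  have h3 := injB h (hs h2) (hs h1) ((ha _ h2).trans (ha _ h1).symm)
  have h4 : ((r / 2 : ℝ) : ℂ) = 0 := by simpa using h3
  have h5 : r / 2 = 0 := by exact_mod_cast h4
  linarith

theorem anal (h : IsJordanMap ψ) : AnalyticOnNhd ℂ ψ (ball 0 1) :=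
  h.2.2.analyticOnNhd isOpen_ball

theorem isOpen_im (h : IsJordanMap ψ) : IsOpen (ψ '' ball 0 1) := by
  rcases (anal h).is_constant_or_isOpen (convex_ball (0 : ℂ) 1).isPreconnected with hc | ho
  · exact absurd hc (not_const h one_pos Subset.rfl)
  · exact ho _ Subset.rfl isOpen_ball

theorem cpt (h : IsJordanMap ψ) : IsCompact (ψ '' closedBall 0 1) :=
  (isCompact_closedBall (0 : ℂ) 1).image_of_continuousOn h.1

theorem bdd (h : IsJordanMap ψ) : Bornology.IsBounded (ψ '' ball 0 1) :=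
  (cpt h).isBounded.subset (image_mono ball_subset_closedBall)

theorem unif (h : IsJordanMap ψ) (e : ℝ) (he : 0 < e) : ∃ d : ℝ, 0 < d ∧
    ∀ x ∈ closedBall (0 : ℂ) 1, ∀ y ∈ closedBall (0 : ℂ) 1,
      (dist x y ≤ d → dist (ψ x) (ψ y) ≤ e) ∧ (dist (ψ x) (ψ y) ≤ d → dist x y ≤ e) := by
  obtain ⟨d₁, hd₁, h1⟩ := Metric.uniformContinuousOn_iff_le.mp
    ((isCompact_closedBall (0 : ℂ) 1).uniformContinuousOn_of_continuous h.1) e he
  have hK : IsCompact ((closedBall (0 : ℂ) 1 ×ˢ closedBall (0 : ℂ) 1) ∩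
      {p : ℂ × ℂ | e ≤ dist p.1 p.2}) :=
    ((isCompact_closedBall (0 : ℂ) 1).prod (isCompact_closedBall (0 : ℂ) 1)).inter_right
      (isClosed_le continuous_const (continuous_fst.dist continuous_snd))
  have hc : ContinuousOn (fun p : ℂ × ℂ => dist (ψ p.1) (ψ p.2))
      ((closedBall (0 : ℂ) 1 ×ˢ closedBall (0 : ℂ) 1) ∩ {p : ℂ × ℂ | e ≤ dist p.1 p.2}) :=
    continuous_dist.comp_continuousOn
      ((h.1.comp continuous_fst.continuousOn fun p hp => hp.1.1).prodMk
        (h.1.comp continuous_snd.continuousOn fun p hp => hp.1.2))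
  obtain ⟨d₂, hd₂, h2⟩ := hK.exists_forall_le' hc (a := 0) (by
    rintro p ⟨hp, hp'⟩
    rw [dist_pos]
    intro hq
    have := h.2.1 hp.1 hp.2 hq
    have hp'' : e ≤ dist p.1 p.2 := hp'
    rw [this, dist_self] at hp''
    linarith)
  refine ⟨min d₁ (d₂ / 2), lt_min hd₁ (by positivity), fun x hx y hy => ⟨fun hxy => ?_, fun hxy => ?_⟩⟩
  · exact h1 x hx y hy (hxy.trans (min_le_left _ _))
  · by_contra hlt
    have h3 : d₂ ≤ dist (ψ x) (ψ y) := h2 (x, y) ⟨⟨hx, hy⟩, (not_le.mp hlt).le⟩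
    have h4 := hxy.trans (min_le_right _ _)
    linarith

theorem inv_mem {w : ℂ} (hw : w ∈ ψ '' ball 0 1) : inv ψ w ∈ ball (0 : ℂ) 1 :=
  Function.invFunOn_mem hw

theorem inv_eq {w : ℂ} (hw : w ∈ ψ '' ball 0 1) : ψ (inv ψ w) = w :=
  Function.invFunOn_eq hw

theorem inv_left (h : IsJordanMap ψ) {z : ℂ} (hz : z ∈ ball (0 : ℂ) 1) : inv ψ (ψ z) = z :=
  (injB h).leftInvOn_invFunOn hz

theorem inv_cont (h : IsJordanMap ψ) {w : ℂ} (hw : w ∈ ψ '' ball 0 1) :
    ContinuousAt (inv ψ) w := by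
  rw [Metric.continuousAt_iff']
  intro ε hε
  obtain ⟨d, hd, h1⟩ := unif h (ε / 2) (by positivity)
  filter_upwards [(isOpen_im h).mem_nhds hw, closedBall_mem_nhds w hd] with y hy hy'
  have h2 := (h1 _ (ball_subset_closedBall (inv_mem hy)) _
    (ball_subset_closedBall (inv_mem hw))).2 (by rw [inv_eq hy, inv_eq hw]; exact hy')
  linarith

theorem inv_diff0 (h : IsJordanMap ψ) {w : ℂ} (hw : w ∈ ψ '' ball 0 1)
    (hd : deriv ψ (inv ψ w) ≠ 0) : DifferentiableAt ℂ (inv ψ) w := by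
  have h1 : HasDerivAt ψ (deriv ψ (inv ψ w)) (inv ψ w) :=
    (anal h _ (inv_mem hw)).differentiableAt.hasDerivAt
  refine (h1.of_local_left_inverse (inv_cont h hw) hd ?_).differentiableAt
  filter_upwards [(isOpen_im h).mem_nhds hw] with y hy using inv_eq hy

theorem inv_diff (h : IsJordanMap ψ) {w : ℂ} (hw : w ∈ ψ '' ball 0 1) :
    DifferentiableAt ℂ (inv ψ) w := by
  have hz := inv_mem hw
  rcases ((anal h).deriv _ hz).eventually_eq_zero_or_eventually_ne_zero with h0 | h0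
  · exfalso
    obtain ⟨r, hr, hs⟩ := Metric.mem_nhds_iff.mp (h0.and (isOpen_ball.mem_nhds hz))
    have hs' : ball (inv ψ w) r ⊆ ball 0 1 := fun x hx => (hs hx).2
    exact not_const h hr hs' (isOpen_ball.exists_is_const_of_deriv_eq_zero
      (convex_ball _ _).isPreconnected (h.2.2.mono hs') fun x hx => (hs hx).1)
  · refine (Complex.analyticAt_of_differentiable_on_punctured_nhds_of_continuousAt ?_
      (inv_cont h hw)).differentiableAt
    have hD : ∀ᶠ y in 𝓝[≠] w, y ∈ ψ '' ball 0 1 :=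
      mem_nhdsWithin_of_mem_nhds ((isOpen_im h).mem_nhds hw)
    have ht : Tendsto (inv ψ) (𝓝[≠] w) (𝓝[≠] (inv ψ w)) := by
      refine tendsto_nhdsWithin_of_tendsto_nhds_of_eventually_within _
        ((inv_cont h hw).tendsto.mono_left nhdsWithin_le_nhds) ?_
      filter_upwards [hD, self_mem_nhdsWithin] with y hy hyw hq
      apply hyw
      rw [mem_singleton_iff] at hq ⊢
      rw [← inv_eq hy, hq, inv_eq hw]
    filter_upwards [hD, ht.eventually h0] with y hy hy' using inv_diff0 h hy hy'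

theorem front (h : IsJordanMap ψ) : frontier (ψ '' ball 0 1) ⊆ ψ '' sphere 0 1 := by
  rw [(isOpen_im h).frontier_eq]
  rintro w ⟨hw, hw'⟩
  obtain ⟨x, hx, rfl⟩ :=
    closure_minimal (image_mono ball_subset_closedBall) (cpt h).isClosed hw
  refine ⟨x, ?_, rfl⟩
  rw [mem_sphere]
  refine le_antisymm hx (not_lt.mp fun hlt => hw' ⟨x, hlt, rfl⟩)

theorem green_eq (z w : ℂ) : green ψ z w = g0 (inv ψ z) (inv ψ w) := by
  have h : ∀ a b : ℂ, ‖1 - (starRingEnd ℂ) a * b‖ = ‖1 - a * (starRingEnd ℂ) b‖ := by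
    intro a b
    rw [← Complex.norm_conj]
    simp
  unfold green g0 inv
  rw [h]

end Conf

theorem s_conf : S_conf := by
  intro ψ h
  refine ⟨Conf.isOpen_im h, Conf.bdd h, ⟨h.2.2, fun w hw =>
    (Conf.inv_diff h hw).differentiableWithinAt, mapsTo_image _ _, fun w hw => Conf.inv_mem hw,
    fun z hz => Conf.inv_left h hz, fun w hw => Conf.inv_eq hw⟩, Conf.front h, ?_, Conf.unif h, ?_⟩
  · intro z hz
    have hne : ψ '' ball 0 1 ≠ univ := fun hu =>
      NormedSpace.unbounded_univ ℝ ℂ (hu ▸ Conf.bdd h)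
    obtain ⟨y, hy, hd⟩ := exists_mem_frontier_infDist_compl_eq_dist hz hne
    obtain ⟨ζ, hζ, rfl⟩ := Conf.front h hy
    exact ⟨ζ, hζ, hd.symm⟩
  · intro f
    unfold gffVar Qv
    simp only [Conf.green_eq]

end Vale.Agent.P153.Wick
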