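import Vale.Agent.P153.Wick.Stm

/-! P153, field part: truncation of the Green potential. -/

open Set Filter Topology MeasureTheory Metric
open Vale.Agent.P071

namespace Vale.Agent.P153.Wick

namespace R

/-- transport of test functions -/
lemma test_comp {U W : Set ℂ} (hU : IsOpen U) {F G : ℂ → ℂ} (hF : ContDiffOn ℝ oo F U)
    (hG : ContinuousOn G W) (hGm : MapsTo G W U) (hGF : ∀ z ∈ U, G (F z) = z) {a : ℂ → ℝ}
    (ha : Test W a) : Test U (U.indicator (a ∘ F)) := by
  have hK : IsCompact (G '' tsupport a) := ha.2.1.isCompact.image_of_continuousOn (hG.mono ha.2.2)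
  have hs : tsupport (U.indicator (a ∘ F)) ⊆ G '' tsupport a := by
    refine closure_minimal (fun z hz => ?_) hK.isClosed
    by_cases h : z ∈ U
    · refine ⟨F z, subset_tsupport _ fun h0 => hz ?_, hGF z h⟩
      rw [indicator_of_mem h]; exact h0
    · exact (hz (indicator_of_notMem h _)).elim
  have hs' : tsupport (U.indicator (a ∘ F)) ⊆ U :=
    hs.trans (image_subset_iff.2 fun x hx => hGm (ha.2.2 hx))
  refine ⟨contDiff_iff_contDiffAt.2 fun z => ?_, hK.of_isClosed_subset (isClosed_tsupport _) hs,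
    hs'⟩
  by_cases h : z ∈ U
  · refine (ha.1.contDiffAt.comp z (hF.contDiffAt (hU.mem_nhds h))).congr_of_eventuallyEq ?_
    filter_upwards [hU.mem_nhds h] with x hx using indicator_of_mem hx _
  · exact (contDiffAt_const (c := (0 : ℝ))).congr_of_eventuallyEq
      (notMem_tsupport_iff_eventuallyEq.1 fun h' => h (hs' h'))

lemma vol_shell {δ : ℝ} (h0 : 0 < δ) (h1 : δ ≤ 1 / 2) : volume.real (shell δ) ≤ 4 * δ := by
  have hsub : shell δ ⊆ closedBall 0 √(1 - δ) \ ball 0 √(1 - 2 * δ) := by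
    intro z hz
    have a1 := hz.1
    have a2 := hz.2
    unfold hh at a1 a2
    refine ⟨mem_closedBall_zero_iff.2 (Real.le_sqrt_of_sq_le (by linarith)), fun h => ?_⟩
    have := (Real.lt_sqrt (norm_nonneg z)).1 (mem_ball_zero_iff.1 h)
    linarith
  have hb : ball (0 : ℂ) √(1 - 2 * δ) ⊆ closedBall 0 √(1 - δ) :=
    ball_subset_closedBall.trans (closedBall_subset_closedBall (Real.sqrt_le_sqrt (by linarith)))
  refine (measureReal_mono hsub (measure_ne_top_of_subset sdiff_subset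
    measure_closedBall_lt_top.ne)).trans ?_
  rw [measureReal_sdiff hb measurableSet_ball measure_closedBall_lt_top.ne]
  simp only [Measure.real, Complex.volume_ball, Complex.volume_closedBall, ENNReal.toReal_mul,
    ENNReal.toReal_pow, ENNReal.toReal_ofReal (Real.sqrt_nonneg _), ENNReal.coe_toReal,
    NNReal.coe_real_pi]
  rw [Real.sq_sqrt (by linarith), Real.sq_sqrt (by linarith)]
  nlinarith [Real.pi_le_four]

lemma vol_slice {δ c : ℝ} : volume {x : ℝ | 1 / 2 ≤ |x| ∧ c ≤ x ^ 2 ∧ x ^ 2 ≤ c + δ} ≤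
    ENNReal.ofReal δ + ENNReal.ofReal δ := by
  have key : ∀ s : ℝ, s ^ 2 = 1 → volume {x : ℝ | 1 / 2 ≤ s * x ∧ c ≤ x ^ 2 ∧ x ^ 2 ≤ c + δ} ≤
      ENNReal.ofReal δ := by
    intro s hs
    refine (Real.volume_le_diam _).trans (ediam_le fun x hx y hy => ?_)
    rw [edist_dist]
    refine ENNReal.ofReal_le_ofReal ?_
    have e : |x ^ 2 - y ^ 2| = |x - y| * (s * x + s * y) := by
      have h1 : |s| = 1 := by rw [← sq_abs] at hs; nlinarith [abs_nonneg s]
      rw [← abs_of_nonneg (show 0 ≤ s * x + s * y by linarith [hx.1, hy.1]), ← mul_add, abs_mul,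
        h1, one_mul, ← abs_mul]
      congr 1; ring
    have h2 : |x ^ 2 - y ^ 2| ≤ δ :=
      abs_le.2 ⟨by linarith [hx.2.1, hy.2.2], by linarith [hx.2.2, hy.2.1]⟩
    rw [Real.dist_eq]
    nlinarith [abs_nonneg (x - y), hx.1, hy.1]
  refine le_trans (measure_mono ?_) ((measure_union_le _ _).trans
    (add_le_add (key 1 (by norm_num)) (key (-1) (by norm_num))))
  intro x hx
  rcases le_abs.1 hx.1 with h | h
  · exact Or.inl ⟨by linarith, hx.2⟩
  · exact Or.inr ⟨by linarith, hx.2⟩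

lemma vol_strip {δ t : ℝ} (h0 : 0 < δ) (ht : 0 < t) :
    volume.real (shell δ ∩ {z | 1 / 2 ≤ |z.re| ∧ |z.im| ≤ t}) ≤ 4 * t * δ := by
  obtain ⟨B, hB⟩ : ∃ B : Set (ℝ × ℝ), B = {p | (1 / 2 ≤ |p.1| ∧ 1 - 2 * δ - p.2 ^ 2 ≤ p.1 ^ 2 ∧
    p.1 ^ 2 ≤ 1 - 2 * δ - p.2 ^ 2 + δ) ∧ |p.2| ≤ t} := ⟨_, rfl⟩
  have hm : MeasurableSet B := by
    have c1 : IsClosed {p : ℝ × ℝ | 1 / 2 ≤ |p.1|} := isClosed_le (by fun_prop) (by fun_prop)
    have c2 : IsClosed {p : ℝ × ℝ | 1 - 2 * δ - p.2 ^ 2 ≤ p.1 ^ 2} :=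
      isClosed_le (by fun_prop) (by fun_prop)
    have c3 : IsClosed {p : ℝ × ℝ | p.1 ^ 2 ≤ 1 - 2 * δ - p.2 ^ 2 + δ} :=
      isClosed_le (by fun_prop) (by fun_prop)
    have c4 : IsClosed {p : ℝ × ℝ | |p.2| ≤ t} := isClosed_le (by fun_prop) (by fun_prop)
    rw [hB]
    exact ((c1.inter (c2.inter c3)).inter c4).measurableSet
  have hsub : shell δ ∩ {z | 1 / 2 ≤ |z.re| ∧ |z.im| ≤ t} ⊆ Complex.measurableEquivRealProd ⁻¹' B := by
    rintro z ⟨⟨a1, a2⟩, a3, a4⟩
    rw [hh_eq] at a1 a2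
    rw [hB]
    exact ⟨⟨a3, by simp only [Complex.measurableEquivRealProd_apply]; linarith,
      by simp only [Complex.measurableEquivRealProd_apply]; linarith⟩, a4⟩
  refine ENNReal.toReal_le_of_le_ofReal (by positivity) ((measure_mono hsub).trans ?_)
  rw [Complex.volume_preserving_equiv_real_prod.measure_preimage_equiv, Measure.volume_eq_prod,
    Measure.prod_apply_symm hm]
  calc ∫⁻ y, volume ((fun x => (x, y)) ⁻¹' B)
      ≤ ∫⁻ y, (Icc (-t) t).indicator (fun _ => ENNReal.ofReal δ + ENNReal.ofReal δ) y := by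
        refine lintegral_mono fun y => ?_
        by_cases hy : y ∈ Icc (-t) t
        · rw [indicator_of_mem hy]
          refine le_trans (measure_mono ?_) (vol_slice (c := 1 - 2 * δ - y ^ 2))
          intro x hx
          rw [hB] at hx
          exact hx.1
        · refine le_trans (le_of_eq ?_) (zero_le)
          refine measure_mono_null (fun x hx => ?_) measure_empty
          rw [hB] at hx
          exact hy (abs_le.1 hx.2)
    _ = _ := by
        rw [lintegral_indicator_const measurableSet_Icc, Real.volume_Icc,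
          ← ENNReal.ofReal_add h0.le h0.le, ← ENNReal.ofReal_mul (by positivity)]
        congr 1; ring

lemma vol_marks {δ τ : ℝ} (h0 : 0 < δ) (h1 : δ ≤ 1 / 2) (hτ : 0 < τ) :
    volume.real (shell δ ∩ {x | ‖x - 1‖ ≤ τ ∨ ‖x + 1‖ ≤ τ}) ≤ 8 * τ * δ := by
  have hfin := (isCompact_shell h0).measure_lt_top (μ := volume)
  by_cases h : τ ≤ 1 / 2
  · refine le_trans (measureReal_mono ?_ (measure_ne_top_of_subset inter_subset_left hfin.ne))
      ((vol_strip h0 hτ).trans (by nlinarith [mul_pos hτ h0]))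
    rintro x ⟨hx, h2 | h2⟩
    · have a1 := abs_le.1 ((Complex.abs_re_le_norm _).trans h2)
      have a2 := (Complex.abs_im_le_norm _).trans h2
      simp only [Complex.sub_re, Complex.one_re, Complex.sub_im, Complex.one_im, sub_zero] at a1 a2
      exact ⟨hx, le_abs.2 (Or.inl (by linarith [a1.1])), a2⟩
    · have a1 := abs_le.1 ((Complex.abs_re_le_norm _).trans h2)
      have a2 := (Complex.abs_im_le_norm _).trans h2
      simp only [Complex.add_re, Complex.one_re, Complex.add_im, Complex.one_im, add_zero] at a1 a2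
      exact ⟨hx, le_abs.2 (Or.inr (by linarith [a1.2])), a2⟩
  · refine ((measureReal_mono inter_subset_left hfin.ne).trans (vol_shell h0 h1)).trans ?_
    nlinarith

variable {D : Set ℂ} {ψ φ : ℂ → ℂ} {g : ℂ → ℝ}

/-- the transported density -/
noncomputable def gt (ψ : ℂ → ℂ) (g : ℂ → ℝ) (x : ℂ) : ℝ :=
  ‖deriv ψ x‖ ^ 2 * DD.indicator (g ∘ ψ) x

lemma gt_eq {x : ℂ} (hx : x ∈ DD) : gt ψ g x = ‖deriv ψ x‖ ^ 2 * g (ψ x) := by
  rw [gt, indicator_of_mem hx]; rfl

lemma gt_test (hc : Conf D ψ φ) (hg : Test D g) : Test DD (gt ψ g) :=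
  (test_comp isOpen_DD (Transport.contDiffOn_hol isOpen_DD hc.hf) hc.hφ.continuousOn hc.mapsφ
    hc.left hg).mul_left isOpen_DD
    ((Transport.contDiffOn_hol isOpen_DD (hc.hf.deriv isOpen_DD)).norm_sq ℝ)

lemma Q_eq (ho : IsOpen D) (hc : Conf D ψ φ) (hg : Test D g) :
    Qv D φ g = ∫ z in D, G0 (gt ψ g) (φ z) * g z := by
  obtain ⟨M, hM⟩ := (gt_test hc hg).bdd
  obtain ⟨B, hB0, hB⟩ := g0_int
  have hφ : AEMeasurable φ (volume.restrict D) :=
    hc.hφ.continuousOn.aemeasurable ho.measurableSet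
  have hgm : Measurable g := hg.continuous.measurable
  have hm : AEStronglyMeasurable (fun p : ℂ × ℂ => g p.1 * g0 (φ p.1) (φ p.2) * g p.2)
      ((volume.restrict D).prod (volume.restrict D)) :=
    (((hgm.comp measurable_fst).aemeasurable.mul (measurable_g0.comp_aemeasurable
      (hφ.comp_fst.prodMk hφ.comp_snd))).mul
      (hgm.comp measurable_snd).aemeasurable).aestronglyMeasurable
  have hint : ∀ z ∈ D, IntegrableOn (fun y => g0 (φ z) y * gt ψ g y) DD := fun z hz =>
    (hB _ (hc.mapsφ hz)).1.mul_bdd (gt_test hc hg).continuous.aestronglyMeasurable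
      (Eventually.of_forall hM)
  have hi : Integrable (fun p : ℂ × ℂ => g p.1 * g0 (φ p.1) (φ p.2) * g p.2)
      ((volume.restrict D).prod (volume.restrict D)) := by
    refine (integrable_prod_iff hm).2 ⟨?_, ?_⟩
    · filter_upwards [ae_restrict_mem ho.measurableSet] with z hz
      refine (hc.integrableOn_iff ho fun w => g z * g0 (φ z) (φ w) * g w).2 ?_
      refine IntegrableOn.congr_fun ((hint z hz).const_mul (g z)) (fun y hy => ?_) measurableSet_DD
      simp only [gt_eq hy, hc.left y hy]; ring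
    · refine (hg.integrable.abs.mul_const (M * B)).integrableOn.mono'
        hm.norm.integral_prod_right' ?_
      filter_upwards [ae_restrict_mem ho.measurableSet] with z hz
      have hz' := hc.mapsφ hz
      rw [Real.norm_eq_abs, abs_of_nonneg (integral_nonneg fun _ => norm_nonneg _),
        hc.integral_eq ho fun w => ‖g z * g0 (φ z) (φ w) * g w‖]
      have hM0 : 0 ≤ M := (abs_nonneg _).trans (hM 0)
      calc ∫ y in DD, ‖deriv ψ y‖ ^ 2 * ‖g z * g0 (φ z) (φ (ψ y)) * g (ψ y)‖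
          ≤ ∫ y in DD, |g z| * M * g0 (φ z) y := by
            refine integral_mono_of_nonneg (Eventually.of_forall fun y => by positivity)
              ((hB _ hz').1.const_mul _) ?_
            filter_upwards [ae_restrict_mem measurableSet_DD] with y hy
            have h1 := hM y
            have h2 := g0_nonneg hz' hy
            rw [gt_eq hy, abs_mul, abs_of_nonneg (sq_nonneg _)] at h1
            rw [hc.left y hy, Real.norm_eq_abs, abs_mul, abs_mul, abs_of_nonneg h2]
            have := mul_le_mul_of_nonneg_left h1 (mul_nonneg (abs_nonneg (g z)) h2)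
            linarith
        _ ≤ |g z| * (M * B) := by
            rw [integral_const_mul, ← mul_assoc]
            exact mul_le_mul_of_nonneg_left (hB _ hz').2 (by positivity)
  rw [Qv, Measure.volume_eq_prod, ← Measure.prod_restrict, integral_prod _ hi]
  refine setIntegral_congr_fun ho.measurableSet fun z hz => ?_
  simp only [G0]
  rw [hc.integral_eq ho fun w => g z * g0 (φ z) (φ w) * g w, ← integral_mul_const]
  refine setIntegral_congr_fun measurableSet_DD fun y hy => ?_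
  simp only [gt_eq hy, hc.left y hy]; ring

lemma int_le (hc : Conf D ψ φ) {r : ℂ → ℝ} {δ C : ℝ} (hδ : 0 < δ) {A : Set ℂ}
    (hA : MeasurableSet A) (h0 : ∀ x ∈ DD, x ∉ shell δ → r (ψ x) = 0)
    (h1 : ∀ x ∈ shell δ, ‖deriv ψ x‖ ^ 2 * |r (ψ x)| ≤ C) :
    ∫ z in {z | z ∈ D ∧ φ z ∈ A}, |r z| ≤ C * volume.real (shell δ ∩ A) := by
  have e : {z | z ∈ D ∧ φ z ∈ A} = ψ '' (DD ∩ A) := by
    ext z
    constructor
    · rintro ⟨hz, hz'⟩
      exact ⟨φ z, ⟨hc.mapsφ hz, hz'⟩, hc.right z hz⟩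
    · rintro ⟨x, ⟨hx, hx'⟩, rfl⟩
      exact ⟨hc.mapsf hx, by rw [hc.left x hx]; exact hx'⟩
  have h := integral_image_eq_integral_abs_det_fderiv_smul volume (measurableSet_DD.inter hA)
    (fun z hz => (Transport.hasF (Transport.diffAt hc hz.1)).hasFDerivWithinAt)
    ((Transport.injOn hc).mono inter_subset_left) fun z => |r z|
  simp only [Transport.det_hol, smul_eq_mul] at h
  rw [e, h, setIntegral_eq_of_subset_of_forall_sdiff_eq_zero (measurableSet_DD.inter hA)
    (inter_subset_inter_left A (shell_subset hδ)) fun x hx => by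
      rw [h0 x hx.1.1 fun hs => hx.2 ⟨hs, hx.1.2⟩, abs_zero, mul_zero]]
  refine (Real.le_norm_self _).trans (norm_setIntegral_le_of_norm_le_const
    ((measure_mono inter_subset_left).trans_lt (isCompact_shell hδ).measure_lt_top) fun x hx => ?_)
  rw [Real.norm_eq_abs, abs_of_nonneg (by positivity)]
  exact h1 x hx.1

end R

open R in
theorem s_R : S_R := by
  intro D ψ φ g ho hc hg
  have hgt := gt_test hc hg
  obtain ⟨hU, hlap, C, hC1, hC2⟩ := G0_spec hgt
  obtain ⟨K, hK0, hK⟩ := chi_bounds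
  have hC0 : 0 ≤ C := gdot_self_nonneg.trans (hC2 0 (mem_ball_self one_pos))
  obtain ⟨δ₀, hδ₀, hsupp⟩ := hgt.2.1.isCompact.exists_forall_le' continuous_hh.continuousOn
    (a := 0) fun x hx => hh_pos (hgt.2.2 hx)
  obtain ⟨C', hC'⟩ : ∃ C', C' = 2 * C * K + 2 * √C * K := ⟨_, rfl⟩
  have hC'0 : 0 ≤ C' := by rw [hC']; positivity
  refine ⟨8 * C' + 1, by positivity, fun e he => ?_⟩
  obtain ⟨δ, hδ, hδe, hδ1, hδ2⟩ : ∃ δ : ℝ, 0 < δ ∧ 2 * δ ≤ e ∧ 2 * δ ≤ δ₀ ∧ δ ≤ 1 / 2 :=
    ⟨min (e / 2) (min (δ₀ / 2) (1 / 2)), by positivity,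
      by linarith [min_le_left (e / 2) (min (δ₀ / 2) (1 / 2))],
      by linarith [min_le_right (e / 2) (min (δ₀ / 2) (1 / 2)), min_le_left (δ₀ / 2) (1 / 2)],
      (min_le_right _ _).trans (min_le_right _ _)⟩
  have hchi : ∀ x, gt ψ g x * chi δ x = gt ψ g x := fun x => by
    by_cases h : gt ψ g x = 0
    · rw [h, zero_mul]
    · rw [chi_eq_one hδ (hδ1.trans (hsupp x (subset_tsupport _ h))), mul_one]
  have ha : Test DD fun x => G0 (gt ψ g) x * chi δ x := (chi_test hδ).mul_left isOpen_DD hU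
  have hf := test_comp ho (Transport.contDiffOn_hol ho hc.hφ) hc.hf.continuousOn hc.mapsf
    hc.right ha
  obtain ⟨f, hfe⟩ : ∃ f, f = D.indicator ((fun x => G0 (gt ψ g) x * chi δ x) ∘ φ) := ⟨_, rfl⟩
  rw [← hfe] at hf
  have hr : Test D fun z => lap f z + g z := hf.lap.add hg
  have key : ∀ x ∈ DD, ‖deriv ψ x‖ ^ 2 * (lap f (ψ x) + g (ψ x)) =
      2 * gdot (G0 (gt ψ g)) (chi δ) x + G0 (gt ψ g) x * lap (chi δ) x := by
    intro x hx
    have h1 := ((hc.lap_comp ho hf.contDiffOn).2 x hx).1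
    have h2 : f ∘ ψ =ᶠ[𝓝 x] fun x => G0 (gt ψ g) x * chi δ x := by
      filter_upwards [isOpen_DD.mem_nhds hx] with y hy
      rw [hfe, Function.comp_apply, indicator_of_mem (hc.mapsf hy), Function.comp_apply,
        hc.left y hy]
    rw [lap_congr h2, lap_mul ((hU.contDiffAt (isOpen_DD.mem_nhds hx)).of_le two_le_oo)
      ((contDiff_chi δ).contDiffAt.of_le two_le_oo), hlap x hx, neg_mul, hchi, gt_eq hx] at h1
    linarith
  have h0 : ∀ x ∈ DD, x ∉ shell δ → lap f (ψ x) + g (ψ x) = 0 := by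
    intro x hx hs
    have h1 := key x hx
    simp only [lap_chi_eq_zero hδ hs, gdot, d1_eq, d2_eq, dd_chi_eq_zero hδ hs, mul_zero,
      add_zero] at h1
    exact (mul_eq_zero.1 h1).resolve_left
      (pow_ne_zero 2 (norm_ne_zero_iff.2 (Transport.deriv_ne hc ho hx)))
  have h1 : ∀ x ∈ shell δ, ‖deriv ψ x‖ ^ 2 * |lap f (ψ x) + g (ψ x)| ≤ C' / δ := by
    intro x hx
    have hx' := shell_subset hδ hx
    obtain ⟨k1, k2⟩ := hK δ hδ (by linarith) x
    have a1 : |gdot (G0 (gt ψ g)) (chi δ) x| ≤ √C * (K / δ) := by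
      refine abs_gdot_le.trans (mul_le_mul (Real.sqrt_le_sqrt (hC2 x hx')) ?_ (Real.sqrt_nonneg _)
        (Real.sqrt_nonneg _))
      exact Real.sqrt_le_iff.2 ⟨by positivity, by rw [div_pow]; exact k1⟩
    have a2 : |G0 (gt ψ g) x * lap (chi δ) x| ≤ C * (2 * δ) * (K / δ ^ 2) := by
      rw [abs_mul]
      exact mul_le_mul ((hC1 x hx').trans (mul_le_mul_of_nonneg_left hx.2 hC0)) k2 (abs_nonneg _)
        (by positivity)
    have e1 : C' / δ = 2 * (√C * (K / δ)) + C * (2 * δ) * (K / δ ^ 2) := by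
      rw [hC']; field_simp; ring
    rw [← abs_of_nonneg (sq_nonneg ‖deriv ψ x‖), ← abs_mul, key x hx', e1]
    refine (abs_add_le _ _).trans (add_le_add ?_ a2)
    rw [abs_mul, abs_two]
    linarith
  refine ⟨f, fun z => lap f z + g z, hf, hr, fun z => by ring, ?_, fun z hz => ?_, ?_,
    fun τ hτ _ => ?_⟩
  · rw [Q_eq ho hc hg, ← hg.setIntegral_eq]
    refine setIntegral_congr_fun ho.measurableSet fun z hz => ?_
    have h2 := hchi (φ z)
    have h3 := pow_ne_zero 2 (norm_ne_zero_iff.2 (Transport.deriv_ne hc ho (hc.mapsφ hz)))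
    rw [gt_eq (hc.mapsφ hz), hc.right z hz, mul_assoc] at h2
    have h4 := mul_left_cancel₀ h3 h2
    simp only [hfe, indicator_of_mem hz, Function.comp_apply]
    rw [mul_assoc, mul_comm (chi δ (φ z)), h4]
  · have hz' : z ∈ D := by
      by_contra h
      exact hz (hr.eq_zero h)
    by_contra h
    refine hz ?_
    have := h0 (φ z) (hc.mapsφ hz') fun hs => h (hs.2.trans hδe)
    rwa [hc.right z hz'] at this
  · have h2 := int_le (r := fun z => lap f z + g z) hc hδ MeasurableSet.univ h0 h1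
    simp only [mem_univ, and_true, ofPred_mem_eq, inter_univ] at h2
    rw [setIntegral_eq_integral_of_forall_compl_eq_zero fun z hz => by
      rw [hr.eq_zero hz, abs_zero]] at h2
    refine h2.trans ((mul_le_mul_of_nonneg_left (vol_shell hδ hδ2) (by positivity)).trans ?_)
    have : C' / δ * (4 * δ) = 4 * C' := by field_simp
    linarith
  · have hA : MeasurableSet {x : ℂ | ‖x - 1‖ ≤ τ ∨ ‖x + 1‖ ≤ τ} := by
      have c1 : IsClosed {x : ℂ | ‖x - 1‖ ≤ τ} := isClosed_le (by fun_prop) continuous_const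
      have c2 : IsClosed {x : ℂ | ‖x + 1‖ ≤ τ} := isClosed_le (by fun_prop) continuous_const
      exact (c1.union c2).measurableSet
    refine (int_le (r := fun z => lap f z + g z) hc hδ hA h0 h1).trans
      ((mul_le_mul_of_nonneg_left (vol_marks hδ hδ2 hτ) (by positivity)).trans ?_)
    have : C' / δ * (8 * τ * δ) = 8 * C' * τ := by field_simp
    linarith

end Vale.Agent.P153.Wick
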