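import Vale.Agent.P153.FKG.Basic
import Vale.Agent.P153.Planar.Basic
import Vale.Agent.P153.Spec.Defs
import Vale.Agent.P071.Green0
import Vale.Agent.P071.Transport

/-! P153, field part: interface statements. See `skel/P153/WICK.md`. -/

open Set Filter Topology MeasureTheory Metric
open Vale.Agent.P071 (Test lap DD hh g0 Conf)

namespace Vale.Agent.P153.Wick

noncomputable section

/-! ### The lattice inputs -/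

/-- Connected sets of sites. -/
def CS (A : Set V) : Prop := ∀ y ∈ A, ∀ y' ∈ A, Conn (fun _ _ => True) A y y'

/-- A finite free set with connected complement. -/
def Dom (F : Set V) : Prop := F.Finite ∧ CS Fᶜ

/-- Weights bounded by one, supported in a hexagon. -/
def B1 (a : V →₀ ℝ) (x : V) (N : ℕ) : Prop := (∀ y, |a y| ≤ 1) ∧ ∀ y, a y ≠ 0 → y ∈ hex x N

/-- Total weight. -/
def tot (a : V →₀ ℝ) : ℝ := a.sum fun _ c => c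

/-- Observables bounded by one depending on `A`. -/
def Obs (G : Cfg → ℝ) (A : Set V) : Prop := DepOn G A ∧ ∀ H, |G H| ≤ 1

/-- Fourth moments at the scale of the distance to the boundary. -/
def L_mb : Prop := ∃ C : ℝ, ∀ (F S : Set V) (x : V) (N : ℕ) (a : V →₀ ℝ), Dom F → 1 ≤ N →
  ¬ hex x N ⊆ F → B1 a x N → Ex (dob F S) (fun H => lin a H ^ 4) ≤ C * N ^ 8

/-- Fourth moments of zero sum statistics. -/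
def L_m0 : Prop := ∀ L : ℕ, ∃ (M : ℕ) (C : ℝ), ∀ (F S : Set V) (x : V) (N R : ℕ) (a : V →₀ ℝ),
  Dom F → 1 ≤ N → M * N ≤ R → hex x R ⊆ F → F ⊆ hex x (L * R) → B1 a x N → tot a = 0 →
  Ex (dob F S) (fun H => lin a H ^ 4) ≤ C * N ^ 8

/-- Mixing towards a translation invariant value. -/
def L_mix : Prop := ∃ κ : (V →₀ ℝ) → (V →₀ ℝ) → ℝ, ∀ (L : ℕ) (ε : ℝ), 0 < ε → ∃ M : ℕ,
  ∀ (F S : Set V) (x : V) (N R : ℕ) (a b : V →₀ ℝ) (G : Cfg → ℝ), Dom F → 1 ≤ N → M * N ≤ R →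
  hex x R ⊆ F → F ⊆ hex x (L * R) → B1 a 0 N → B1 b 0 N → tot a = 0 → tot b = 0 →
  Obs G (hex x (M * N))ᶜ →
  |Ex (dob F S) (fun H => lin a (H ∘ tr x) * lin b (H ∘ tr x) * G H) - κ a b * Ex (dob F S) G|
    ≤ ε * N ^ 4

/-- Asymptotic harmonicity. -/
def L_har : Prop := ∃ M : ℝ, ∀ δ : ℕ → ℝ, (∀ n, 0 < δ n) → Tendsto δ atTop (𝓝 0) →
  ∀ φ : ℂ → ℝ, Test (ball 0 1) φ → ∀ L ε : ℝ, 0 < ε → ∀ᶠ n in atTop,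
  ∀ (F S : Set V) (x : V) (R R' : ℕ) (a : V →₀ ℝ) (G : Cfg → ℝ), Dom F → M ≤ δ n * R →
  δ n * R' ≤ L → hex x R ⊆ F → F ⊆ hex x R' →
  (∀ y, a y = Vale.P153.Spec.lap (fun v => φ (δ n * emb v)) y) → Obs G (hex x R)ᶜ →
  |Ex (dob F S) fun H => lin a (H ∘ tr x) * G H| ≤ ε

/-- Boundary values near a wall `W` of constant height `c`. -/
def L_bv : Prop := ∀ (L : ℕ) (ε : ℝ), 0 < ε → ∃ M : ℕ, ∀ (F S W O : Set V) (x : V) (n N R : ℕ)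
  (c : ℝ) (a : V →₀ ℝ) (G : Cfg → ℝ), Dom F → 1 ≤ N → n ≤ N → M * N ≤ R → F ⊆ hex x (L * R) →
  hex x n ⊆ F → B1 a x n → (W = Fᶜ ∩ S ∧ c = 1 ∨ W = Fᶜ \ S ∧ c = 0) → CS W → CS (Fᶜ \ W) →
  Fᶜ ∩ hex x R ⊆ W → (W ∩ hex x N).Nonempty → ¬ W ⊆ hex x R →
  O ⊆ F → CS O → Disjoint O (hex x R) → Obs G O →
  |Ex (dob F S) fun H => (lin a H - c * tot a) * G H| ≤ ε * N ^ 2

/-- Lower bound for the variance. -/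
def L_var : Prop := ∃ M : ℕ, ∀ L : ℕ, ∃ c : ℝ, 0 < c ∧ ∀ (F S : Set V) (x : V) (N : ℕ)
  (a : V →₀ ℝ), Dom F → 1 ≤ N → hex x (M * N) ⊆ F → F ⊆ hex x (L * N) → (∀ y, 0 ≤ a y) →
  (∀ y, a y ≠ 0 → y ∈ hex x N) →
  c * tot a ^ 2 ≤ Ex (dob F S) (fun H => lin a H ^ 2) - Ex (dob F S) (lin a) ^ 2

/-- The theorem on the field. -/
def Field : Prop := ∀ (ψ : ℂ → ℂ) (L : ℕ → LDom) (δ : ℕ → ℝ) (ε : ℤ), IsJordanMap ψ →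
  Approx ψ L δ → (ε = 1 ∨ ε = -1) →
  (∀ n, ((L n).Hts ε).Finite ∧ ((L n).Hts ε).Nonempty) ∧
  ∃ c : ℕ → ℝ, (∀ n, 0 < c n) ∧ (∃ a b : ℝ, 0 < a ∧ ∀ n, a ≤ c n ∧ c n ≤ b) ∧
    ∀ f, IsTest ψ f → Tendsto (fun n => avg ((L n).Hts ε) fun h => Complex.exp (Complex.I *
      (((L n).field (δ n) f h - avg ((L n).Hts ε) ((L n).field (δ n) f)) / c n : ℝ))) atTop
      (𝓝 (Complex.exp (-(gffVar ψ f / 2 : ℝ))))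

/-! ### The abstract continuum layer -/

/-- Covariance. -/
def cov (S : Set Cfg) (X Z : Cfg → ℝ) : ℝ := Ex S (fun H => X H * Z H) - Ex S X * Ex S Z

/-- The Green quadratic form. -/
def Qv (D : Set ℂ) (φ : ℂ → ℂ) (g : ℂ → ℝ) : ℝ :=
  ∫ p in D ×ˢ D, g p.1 * g0 (φ p.1) (φ p.2) * g p.2

section W
variable (D : Set ℂ) (φ : ℂ → ℂ) (c : ℂ → ℝ) (S : ℕ → Set Cfg) (Y : ℕ → (ℂ → ℝ) → Cfg → ℝ)

def W_mb : Prop := ∃ C : ℝ, 0 < C ∧ ∀ (z : ℂ) (s A : ℝ) (f : ℂ → ℝ), 0 < s → 0 < A →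
  ¬ ball z s ⊆ D → Test (D ∩ ball z s) f → (∀ y, |f y| ≤ A) →
  ∀ᶠ n in atTop, Ex (S n) (fun H => Y n f H ^ 4) ≤ (C * (A * s ^ 2)) ^ 4

def W_m0 : Prop := ∀ K, IsCompact K → K ⊆ D → ∃ C η₀ : ℝ, 0 < C ∧ 0 < η₀ ∧ ∀ x ∈ K,
  ∀ (η A : ℝ) (f : ℂ → ℝ), 0 < η → η ≤ η₀ → 0 < A → Test (ball x η) f → ∫ z, f z = 0 →
  (∀ y, |f y| ≤ A) → ∀ᶠ n in atTop, Ex (S n) (fun H => Y n f H ^ 4) ≤ (C * (A * η ^ 2)) ^ 4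

def W_har : Prop := ∃ lam : ℝ, 1 ≤ lam ∧ ∀ (x : ℂ) (η : ℝ) (f g : ℂ → ℝ), 0 < η →
  closedBall x (lam * η) ⊆ D → Test (ball x η) f → Test (closedBall x (lam * η))ᶜ g →
  ∀ ε : ℝ, 0 < ε → ∀ᶠ n in atTop, ∀ Γ : ℝ → ℝ, (∀ t, |Γ t| ≤ 1) →
    |Ex (S n) fun H => Y n (lap f) H * Γ (Y n g H)| ≤ ε

def W_mix : Prop := ∃ κ : (ℂ → ℝ) → (ℂ → ℝ) → ℝ → ℝ → ℕ → ℝ, ∀ K, IsCompact K → K ⊆ D →
  ∀ ε : ℝ, 0 < ε →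
  ∃ θ ρ₀ : ℝ, 0 < θ ∧ 0 < ρ₀ ∧ ∀ (η ρ A B : ℝ) (a b g : ℂ → ℝ), 0 < η → η ≤ θ * ρ → ρ ≤ ρ₀ →
  0 < A → 0 < B → Test (ball 0 η) a → Test (ball 0 η) b → ∫ z, a z = 0 → ∫ z, b z = 0 →
  (∀ y, |a y| ≤ A) → (∀ y, |b y| ≤ B) → ∀ x ∈ K, Test (closedBall x ρ)ᶜ g →
  ∀ᶠ n in atTop, ∀ Γ : ℝ → ℝ, (∀ t, |Γ t| ≤ 1) →
    |Ex (S n) (fun H => Y n (fun z => a (z - x)) H * Y n (fun z => b (z - x)) H * Γ (Y n g H)) -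
      κ a b A B n * Ex (S n) fun H => Γ (Y n g H)| ≤ ε * (A * η ^ 2) * (B * η ^ 2)

def W_bv : Prop := ∀ g, Test D g → ∀ ε τ : ℝ, 0 < ε → 0 < τ → ∃ e : ℝ, 0 < e ∧ ∀ z ∈ D,
  hh (φ z) ≤ e → τ ≤ ‖φ z - 1‖ → τ ≤ ‖φ z + 1‖ → ∀ (A : ℝ) (r : ℂ → ℝ), 0 < A →
  Test (ball z (infDist z Dᶜ / 2)) r → (∀ y, |r y| ≤ A) →
  ∀ᶠ n in atTop, ∀ Γ : ℝ → ℝ, (∀ t, |Γ t| ≤ 1) →
    |Ex (S n) fun H => (Y n r H - c (φ z) * ∫ y, r y) * Γ (Y n g H)| ≤ ε * (A * infDist z Dᶜ ^ 2)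

def W_var : Prop := ∃ (f : ℂ → ℝ) (v : ℝ), Test D f ∧ (∀ z, 0 ≤ f z) ∧ 0 < v ∧
  ∀ᶠ n in atTop, v ≤ cov (S n) (Y n f) (Y n f)

end W

/-- A sequence of random linear functionals on test functions. -/
structure WI0 (D : Set ℂ) (S : ℕ → Set Cfg) (Y : ℕ → (ℂ → ℝ) → Cfg → ℝ) : Prop where
  op : IsOpen D
  bdd : Bornology.IsBounded D
  ne : D.Nonempty
  good : ∀ n, Good (S n)
  add : ∀ n f g, Test univ f → Test univ g → ∀ H, Y n (fun z => f z + g z) H = Y n f H + Y n g H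
  smul : ∀ n (t : ℝ) f, Test univ f → ∀ H, Y n (fun z => t * f z) H = t * Y n f H
  mb : W_mb D S Y
  m0 : W_m0 D S Y
  har : W_har D S Y
  mix : W_mix D S Y

/-- The same with the boundary behaviour in a simply connected domain. -/
structure WIn (D : Set ℂ) (ψ φ : ℂ → ℂ) (c : ℂ → ℝ) (S : ℕ → Set Cfg)
    (Y : ℕ → (ℂ → ℝ) → Cfg → ℝ) : Prop extends WI0 D S Y where
  conf : Conf D ψ φ
  bv : W_bv D φ c S Y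
  var : W_var D S Y

/-- `w` is bounded with bounded Lipschitz derivative `w₁`. -/
structure W2 (w w₁ : ℝ → ℝ) : Prop where
  b0 : ∀ t, |w t| ≤ 1
  b1 : ∀ t, |w₁ t| ≤ 1
  tay : ∀ s t, |w (s + t) - w s - t * w₁ s| ≤ t ^ 2
  lip : ∀ s t, |w₁ (s + t) - w₁ s| ≤ |t|

/-- The fixed bump functions. -/
structure Bumps (p k σ : ℂ → ℝ) : Prop where
  p_test : Test (ball 0 2) p
  p_nonneg : ∀ z, 0 ≤ p z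
  p_sum : ∀ (J : ℕ) (z : ℂ), |z.re| ≤ J → |z.im| ≤ J →
    ∑ j ∈ Finset.Icc (-J : ℤ) J ×ˢ Finset.Icc (-J : ℤ) J, p (z - ⟨j.1, j.2⟩) = 1
  p_int : 0 < ∫ z, p z
  k_test : Test (ball 0 3) k
  k_one : ∀ z ∈ ball (0 : ℂ) 2, k z = 1
  σ_test : Test (ball 0 3) σ
  σ_zero : ∀ z ∈ ball (0 : ℂ) 2, σ z = 0
  σ_int : ∫ z, σ z = 1

/-- Rescaled and translated function. -/
def sc (p : ℂ → ℝ) (x : ℂ) (s : ℝ) (z : ℂ) : ℝ := p ((z - x) / s)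

/-- The zero mean part of `g` near `x` at scale `s`. -/
def nearP (k σ g : ℂ → ℝ) (x : ℂ) (s : ℝ) (z : ℂ) : ℝ :=
  g z * sc k x s z - (∫ y, g y * sc k x s y) / s ^ 2 * sc σ x s z

/-- The model for `nearP`. -/
def qq (k σ : ℂ → ℝ) (z : ℂ) : ℝ := k z - (∫ y, k y) * σ z

def S_bump : Prop := ∃ p k σ, Bumps p k σ

/-- Calculus for the cells. -/
def S_fun : Prop := ∀ p k σ f g : ℂ → ℝ, Bumps p k σ → Test univ f → Test univ g →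
  ∃ C : ℝ, 0 < C ∧ ∀ (x : ℂ) (s : ℝ), 0 < s → s ≤ 1 →
    (Test (ball x (2 * s)) (sc p x s) ∧ Test (ball x (2 * s)) (fun z => f z * sc p x s z) ∧
      (∀ z, lap (sc p x s) z = lap (sc p 0 s) (z - x)) ∧ (∀ z, |lap (sc p x s) z| ≤ C / s ^ 2) ∧
      (∀ z, |lap (fun z => f z * sc p x s z) z| ≤ C / s ^ 2) ∧
      ∀ z, |lap (fun z => f z * sc p x s z) z - f x * lap (sc p x s) z| ≤ C / s) ∧
    Test (ball x (3 * s)) (nearP k σ g x s) ∧ Test (ball x (3 * s)) (sc (qq k σ) x s) ∧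
    Test (closedBall x s)ᶜ (fun z => g z - nearP k σ g x s z) ∧
    ∫ z, nearP k σ g x s z = 0 ∧ ∫ z, sc (qq k σ) x s z = 0 ∧
    (∀ z, |nearP k σ g x s z| ≤ C) ∧ (∀ z, |qq k σ z| ≤ C) ∧
    ∀ z, |nearP k σ g x s z - g x * sc (qq k σ) x s z| ≤ C * s

/-- Probabilistic algebra for one cell. -/
def S_alg : Prop := ∀ (S : Set Cfg) (X X₀ B B₀ B' T : Cfg → ℝ) (w w₁ : ℝ → ℝ)
  (u v κ C η ρ e₁ e₂ : ℝ), Good S → W2 w w₁ → 1 ≤ C → 0 < η → η ≤ 1 → 0 < ρ → |u| ≤ C → |v| ≤ C →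
  |κ| ≤ C * η ^ 2 → Ex S (fun H => X H ^ 4) ≤ C ^ 4 → Ex S (fun H => X₀ H ^ 4) ≤ C ^ 4 →
  Ex S (fun H => (X H - u * X₀ H) ^ 4) ≤ (C * η) ^ 4 → Ex S (fun H => B H ^ 4) ≤ (C * η ^ 2) ^ 4 →
  Ex S (fun H => (B H - v * B₀ H) ^ 4) ≤ (C * η ^ 3) ^ 4 →
  Ex S (fun H => B' H ^ 4) ≤ (C * ρ ^ 2) ^ 4 →
  |Ex S fun H => X H * w (T H - B H)| ≤ e₁ →
  |Ex S (fun H => X₀ H * B₀ H * w₁ (T H - B' H)) - κ * Ex S fun H => w₁ (T H - B' H)| ≤ e₂ →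
  |Ex S (fun H => X H * w (T H)) - u * v * κ * Ex S fun H => w₁ (T H)| ≤
    e₁ + C ^ 2 * e₂ + 6 * C ^ 4 * η ^ 2 * (η + ρ ^ 2)

/-- The estimate for one cell. -/
structure Cell (D : Set ℂ) (S : ℕ → Set Cfg) (Y : ℕ → (ℂ → ℝ) → Cfg → ℝ) (p : ℂ → ℝ)
    (κ : ℝ → ℕ → ℝ) : Prop where
  bd : ∃ C η₀ : ℝ, 0 < η₀ ∧ ∀ η, 0 < η → η ≤ η₀ → ∀ᶠ n in atTop, |κ η n| ≤ C * η ^ 2
  est : ∀ f g : ℂ → ℝ, Test univ f → Test univ g → ∀ K, IsCompact K → K ⊆ D → ∀ ε : ℝ, 0 < ε →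
    ∃ η₀ : ℝ, 0 < η₀ ∧ ∀ η, 0 < η → η ≤ η₀ → ∀ x ∈ K, ∀ w w₁, W2 w w₁ → ∀ᶠ n in atTop,
      |Ex (S n) (fun H => Y n (lap fun z => f z * sc p x η z) H * w (Y n g H)) -
        f x * g x * κ η n * Ex (S n) fun H => w₁ (Y n g H)| ≤ ε * η ^ 2

def S_cell : Prop := ∀ D S Y p k σ, WI0 D S Y → Bumps p k σ → ∃ κ, Cell D S Y p κ

/-- Gaussian integration by parts along `U`. -/
def IBP (D : Set ℂ) (S : ℕ → Set Cfg) (Y : ℕ → (ℂ → ℝ) → Cfg → ℝ) (U : Filter ℕ) (K : ℝ) : Prop :=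
  ∀ f g : ℂ → ℝ, Test D f → Test univ g → ∀ w w₁, W2 w w₁ →
    Tendsto (fun n => Ex (S n) (fun H => Y n (lap f) H * w (Y n g H)) +
      K * (∫ z, f z * g z) * Ex (S n) fun H => w₁ (Y n g H)) U (𝓝 0)

def S_ibp : Prop := ∀ D S Y p k σ κ, WI0 D S Y → Bumps p k σ → Cell D S Y p κ →
  ∀ U : Ultrafilter ℕ, (U : Filter ℕ) ≤ atTop → ∃ K, IBP D S Y U K

/-- Spreading a function modulo a Laplacian. -/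
def S_sm : Prop := ∃ C : ℝ, 0 < C ∧ ∀ (x : ℂ) (s : ℝ) (r : ℂ → ℝ), 0 < s → Test (ball x s) r →
  ∃ f r' : ℂ → ℝ, Test (ball x (2 * s)) f ∧ Test (ball x (2 * s)) r' ∧
    (∀ z, r z = r' z + lap f z) ∧ ∀ z, |r' z| ≤ C / s ^ 2 * ∫ y, |r y|

/-- The part of the domain near the two marks. -/
def Mk (D : Set ℂ) (φ : ℂ → ℂ) (τ : ℝ) : Set ℂ := {z | z ∈ D ∧ (‖φ z - 1‖ ≤ τ ∨ ‖φ z + 1‖ ≤ τ)}

/-- Truncation of the Green potential. -/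
def S_R : Prop := ∀ (D : Set ℂ) (ψ φ : ℂ → ℂ) (g : ℂ → ℝ), IsOpen D → Conf D ψ φ → Test D g →
  ∃ C : ℝ, 0 < C ∧ ∀ e : ℝ, 0 < e → ∃ f r : ℂ → ℝ, Test D f ∧ Test D r ∧
    (∀ z, lap f z = r z - g z) ∧ ∫ z, f z * g z = Qv D φ g ∧ (∀ z, r z ≠ 0 → hh (φ z) ≤ e) ∧
    ∫ z, |r z| ≤ C ∧ ∀ τ : ℝ, 0 < τ → e ≤ τ → ∫ z in Mk D φ τ, |r z| ≤ C * τ

def S_Q : Prop := ∀ (D : Set ℂ) (ψ φ : ℂ → ℂ) (g : ℂ → ℝ), IsOpen D → Conf D ψ φ →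
  ((∀ z, 0 ≤ g z) → 0 ≤ Qv D φ g) ∧ ∀ t : ℝ, Qv D φ (fun z => t * g z) = t ^ 2 * Qv D φ g

/-- The boundary term. -/
def Bdry (D : Set ℂ) (φ : ℂ → ℂ) (S : ℕ → Set Cfg) (Y : ℕ → (ℂ → ℝ) → Cfg → ℝ) (U : Filter ℕ) :
    Prop :=
  ∃ C : ℝ, 0 < C ∧ ∀ g, Test D g → ∀ ε τ : ℝ, 0 < ε → 0 < τ → ∃ e : ℝ, 0 < e ∧ ∀ r, Test D r →
    (∀ z, r z ≠ 0 → hh (φ z) ≤ e) → ∀ w w₁, W2 w w₁ → ∀ᶠ n in U,
      |cov (S n) (Y n r) fun H => w (Y n g H)| ≤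
        ε * (1 + ∫ z, |r z|) + C * ∫ z in Mk D φ τ, |r z|

def S_bdry : Prop := ∀ D ψ φ c S Y (U : Filter ℕ) K, WIn D ψ φ c S Y → U ≤ atTop →
  IBP D S Y U K → Bdry D φ S Y U

/-- The Stein equation along `U`. -/
def Stein (D : Set ℂ) (φ : ℂ → ℂ) (S : ℕ → Set Cfg) (Y : ℕ → (ℂ → ℝ) → Cfg → ℝ) (U : Filter ℕ)
    (K : ℝ) : Prop :=
  ∀ g, Test D g → ∀ w w₁, W2 w w₁ → Tendsto (fun n => cov (S n) (Y n g) (fun H => w (Y n g H)) -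
    K * Qv D φ g * Ex (S n) fun H => w₁ (Y n g H)) U (𝓝 0)

def S_stein : Prop := ∀ D ψ φ c S Y (U : Filter ℕ) K, WIn D ψ φ c S Y → IBP D S Y U K →
  Bdry D φ S Y U → Stein D φ S Y U K

/-- From the Stein equation to the characteristic function. -/
def S_ode : Prop := ∀ (S : ℕ → Set Cfg) (X : ℕ → Cfg → ℝ) (U : Ultrafilter ℕ) (v C : ℝ),
  (∀ n, Good (S n)) → (∀ᶠ n in U, Ex (S n) (fun H => X n H ^ 4) ≤ C) →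
  (∀ (t : ℝ) w w₁, W2 w w₁ → Tendsto (fun n => cov (S n) (fun H => t * X n H)
    (fun H => w (t * X n H)) - t ^ 2 * v * Ex (S n) fun H => w₁ (t * X n H)) U (𝓝 0)) →
  Tendsto (fun n => cov (S n) (X n) (X n)) U (𝓝 v) ∧
    ∀ (t : ℕ → ℝ) (t₀ : ℝ), Tendsto t U (𝓝 t₀) →
      Tendsto (fun n => avg (S n) fun H => Complex.exp (Complex.I *
        (t n * (X n H - Ex (S n) (X n)) : ℝ))) U (𝓝 (Complex.exp (-(t₀ ^ 2 * v / 2 : ℝ))))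

/-- The abstract theorem. -/
def S_wick : Prop := ∀ D ψ φ c S Y, WIn D ψ φ c S Y →
  ∃ d : ℕ → ℝ, (∃ a b : ℝ, 0 < a ∧ ∀ n, a ≤ d n ∧ d n ≤ b) ∧ ∀ f, Test D f →
    Tendsto (fun n => avg (S n) fun H => Complex.exp (Complex.I *
      ((Y n f H - Ex (S n) (Y n f)) / d n : ℝ))) atTop (𝓝 (Complex.exp (-(Qv D φ f / 2 : ℝ))))

/-! ### From the lattice to the continuum layer -/

open Classical in
/-- The weights of a test function at mesh `δ`. -/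
def wt (δ : ℝ) (f : ℂ → ℝ) : V →₀ ℝ :=
  if h : (Function.support fun x : V => ∫ z : ℂ, hat (z / δ - emb x) * f z).Finite then
    Finsupp.ofSupportFinite _ h else 0

/-- The tested heights. -/
def YY (δ : ℕ → ℝ) (n : ℕ) (f : ℂ → ℝ) (H : Cfg) : ℝ := lin (wt (δ n) f) H

def S_emb : Prop := (∀ x y, emb (x + y) = emb x + emb y) ∧ (∀ x y, emb (x - y) = emb x - emb y) ∧
  (∀ x, ‖emb x‖ ≤ nrm x ∧ (nrm x : ℝ) ≤ 6 / 5 * ‖emb x‖) ∧ (∀ z, ∃ x, ‖z - emb x‖ < 3 / 5) ∧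
  ∀ x y, ‖emb x - emb y‖ < 6 / 5 → x = y ∨ Adj x y

def S_hat : Prop := Continuous hat ∧ (∀ z, 0 ≤ hat z ∧ hat z ≤ 1) ∧ (∀ z, hat z ≠ 0 → ‖z‖ < 1) ∧
  ∀ z, ∑ᶠ x : V, hat (z - emb x) = 1

def S_wt : Prop := ∀ (δ : ℝ) (f : ℂ → ℝ), 0 < δ → Test univ f →
  (∀ x, wt δ f x = ∫ z : ℂ, hat (z / δ - emb x) * f z) ∧ tot (wt δ f) = ∫ z, f z ∧
  (∀ x, wt δ f x ≠ 0 → ∃ z, f z ≠ 0 ∧ ‖z - δ * emb x‖ < δ) ∧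
  (∀ A, (∀ z, |f z| ≤ A) → ∀ x, |wt δ f x| ≤ 4 * A * δ ^ 2) ∧
  ((∀ z, 0 ≤ f z) → ∀ x, 0 ≤ wt δ f x) ∧
  (∀ g, Test univ g → wt δ (fun z => f z + g z) = wt δ f + wt δ g) ∧
  (∀ t : ℝ, wt δ (fun z => t * f z) = t • wt δ f) ∧
  (∀ v H, lin (wt δ fun z => f (z - δ * emb v)) H = lin (wt δ f) (H ∘ tr v)) ∧
  (∀ x B, (∀ z, ‖z - δ * emb x‖ < δ → |f z - f (δ * emb x)| ≤ B) →
    |wt δ f x - (∫ z, hat z) * δ ^ 2 * f (δ * emb x)| ≤ 4 * B * δ ^ 2) ∧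
  ∀ (L : LDom) (h : V → ℤ), (∀ z, f z ≠ 0 → z / δ ∈ L.dom) → L.field δ f h = lin (wt δ f) h

/-- The lattice Laplacian approximates the Laplacian. -/
def S_dl : Prop := ∀ f : ℂ → ℝ, Test univ f → ∀ ε : ℝ, 0 < ε → ∃ δ₀ : ℝ, 0 < δ₀ ∧ ∀ δ : ℝ, 0 < δ →
  δ ≤ δ₀ → ∃ a : V →₀ ℝ, (∀ y, a y = Vale.P153.Spec.lap (fun v => f (δ * emb v)) y) ∧
    (∀ y, a y ≠ 0 → ∃ z, f z ≠ 0 ∧ ‖z - δ * emb y‖ ≤ 2 * δ) ∧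
    ∀ (y : V) (z : ℂ), ‖z - δ * emb y‖ ≤ 5 * δ →
      |a y + a (y - (0, 1)) - δ ^ 2 * lap f z| ≤ ε * δ ^ 2

def S_loc : Prop := (∀ F S : Set V, F.Finite → Good (dob F S)) ∧
  ∀ (F S S' : Set V) (f : Cfg → ℝ), (∀ y ∈ obd F, y ∈ S ↔ y ∈ S') → DepOn f F →
    Ex (dob F S) f = Ex (dob F S') f

/-- Free sets converging to `D` in the kernel sense. -/
structure Seq (D : Set ℂ) (F : ℕ → Set V) (δ : ℕ → ℝ) : Prop where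
  op : IsOpen D
  bdd : Bornology.IsBounded D
  ne : D.Nonempty
  pos : ∀ n, 0 < δ n
  lim : Tendsto δ atTop (𝓝 0)
  dom : ∀ n, Dom (F n)
  inn : ∀ K, IsCompact K → K ⊆ D → ∀ᶠ n in atTop, ∀ x, δ n * emb x ∈ K → x ∈ F n
  out : ∃ R : ℝ, ∀ᶠ n in atTop, ∀ x ∈ F n, ‖δ n * emb x‖ ≤ R
  bdy : ∀ z ∈ frontier D, ∀ e : ℝ, 0 < e → ∀ᶠ n in atTop, ∃ x, x ∉ F n ∧ ‖δ n * emb x - z‖ ≤ e

def G_mb : Prop := ∀ D F δ (S : ℕ → Set V), Seq D F δ → W_mb D (fun n => dob (F n) (S n)) (YY δ)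
def G_m0 : Prop := ∀ D F δ (S : ℕ → Set V), Seq D F δ → W_m0 D (fun n => dob (F n) (S n)) (YY δ)
def G_har : Prop := ∀ D F δ (S : ℕ → Set V), Seq D F δ → W_har D (fun n => dob (F n) (S n)) (YY δ)
def G_mix : Prop := ∀ D F δ (S : ℕ → Set V), Seq D F δ → W_mix D (fun n => dob (F n) (S n)) (YY δ)
def G_var : Prop := ∀ D F δ (S : ℕ → Set V), Seq D F δ → W_var D (fun n => dob (F n) (S n)) (YY δ)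

/-- The free sites of a lattice polygon. -/
def Fr (L : LDom) : Set V := {x | emb x ∈ L.dom}

/-- The two arcs. -/
def arcP (L : LDom) : Set V := L.β '' Iio L.k
def arcM (L : LDom) : Set V := L.β '' Ico L.k L.N

/-- The sites of height one. -/
def Sp (L : LDom) (ε : ℤ) : Set V := if ε = 1 then arcP L else arcM L

open Classical in
/-- The boundary values seen in the disc. -/
def cc (ε : ℤ) (x : ℂ) : ℝ := if 0 < x.im ↔ ε = 1 then 1 else 0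

/-- The inverse map. -/
def inv (ψ : ℂ → ℂ) : ℂ → ℂ := Function.invFunOn ψ (ball 0 1)

def S_ld1 : Prop := ∀ L : LDom, ContinuousOn L.bd (Icc 0 1) ∧
  (∀ i ≤ L.N, L.bd (i / L.N) = emb (L.β i)) ∧
  (∀ t ∈ Icc (0 : ℝ) 1, ∃ i < L.N, ‖L.bd t - emb (L.β i)‖ ≤ 1) ∧
  ∀ (z : ℂ) (r : ℝ), (∀ t ∈ Icc (0 : ℝ) 1, L.bd t ∈ closedBall z r) → L.dom ⊆ closedBall z r

def S_ld2 : Prop := ∀ L : LDom, Dom (Fr L) ∧ obd (Fr L) ⊆ arcP L ∪ arcM L ∧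
  arcP L ⊆ (Fr L)ᶜ ∧ arcM L ⊆ (Fr L)ᶜ ∧ CS (arcP L) ∧ CS (arcM L) ∧ Disjoint (arcP L) (arcM L)

def S_bij : Prop := ∀ (L : LDom) (ε : ℤ), (ε = 1 ∨ ε = -1) → ∃ e : Cfg → V → ℤ,
  BijOn e (dob (Fr L) (Sp L ε)) (L.Hts ε) ∧ ∀ H, ∀ x ∈ Fr L, e H x = 2 * H x - 1

def S_wall : Prop := ∀ F A B : Set V, Dom F → obd F ⊆ A ∪ B → A ⊆ Fᶜ → B ⊆ Fᶜ → CS A → CS B →
  B.Nonempty → Disjoint A B → ∃ W, A ⊆ W ∧ W ⊆ Fᶜ ∧ Disjoint W B ∧ CS W ∧ CS (Fᶜ \ W) ∧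
    ∀ x R, Disjoint (hex x R) B → (hex x R ∩ A).Nonempty → Fᶜ ∩ hex x R ⊆ W

def S_cs : Prop := ∀ (δ : ℝ) (K : Set ℂ), 0 < δ → IsPreconnected K →
  CS {x | ∃ z ∈ K, ‖z - δ * emb x‖ < 3 / 5 * δ}

def S_conf : Prop := ∀ ψ, IsJordanMap ψ → IsOpen (ψ '' ball 0 1) ∧
  Bornology.IsBounded (ψ '' ball 0 1) ∧ Conf (ψ '' ball 0 1) ψ (inv ψ) ∧
  frontier (ψ '' ball 0 1) ⊆ ψ '' sphere 0 1 ∧
  (∀ z ∈ ψ '' ball 0 1, ∃ ζ ∈ sphere (0 : ℂ) 1, dist z (ψ ζ) = infDist z (ψ '' ball 0 1)ᶜ) ∧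
  (∀ e : ℝ, 0 < e → ∃ d : ℝ, 0 < d ∧ ∀ x ∈ closedBall (0 : ℂ) 1, ∀ y ∈ closedBall (0 : ℂ) 1,
    (dist x y ≤ d → dist (ψ x) (ψ y) ≤ e) ∧ (dist (ψ x) (ψ y) ≤ d → dist x y ≤ e)) ∧
  ∀ f, gffVar ψ f = Qv (ψ '' ball 0 1) (inv ψ) f

/-- A closed curve near the boundary curve separates the compact set from infinity. -/
def S_wind : Prop := ∀ ψ, IsJordanMap ψ → ∀ K, IsCompact K → K ⊆ ψ '' ball 0 1 →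
  ∃ e : ℝ, 0 < e ∧ ∀ γ : unitInterval → ℂ, Continuous γ → γ 0 = γ 1 →
    (∀ t : unitInterval,
      dist (γ t) (ψ (Complex.exp (Real.pi * Complex.I * (1 - 2 * (t : ℝ))))) ≤ e) →
    ∀ z ∈ K, z ∉ range γ ∧ Bornology.IsBounded (connectedComponentIn (range γ)ᶜ z)

def S_arc : Prop := ∀ ψ L δ, IsJordanMap ψ → Approx ψ L δ →
  Tendsto (fun n => (δ n : ℂ) * emb ((L n).β 0)) atTop (𝓝 (ψ (-1))) ∧
  (∀ e : ℝ, 0 < e → ∀ᶠ n in atTop, ∀ ζ ∈ sphere (0 : ℂ) 1, ∃ i < (L n).N,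
    ‖δ n * emb ((L n).β i) - ψ ζ‖ ≤ e) ∧
  ∀ τ : ℝ, 0 < τ → ∃ ρ : ℝ, 0 < ρ ∧ ∀ᶠ n in atTop, ∀ ζ ∈ sphere (0 : ℂ) 1, τ ≤ ‖ζ - 1‖ →
    τ ≤ ‖ζ + 1‖ → ∀ i < (L n).N, ‖δ n * emb ((L n).β i) - ψ ζ‖ ≤ ρ → (i < (L n).k ↔ 0 < ζ.im)

def S_seq : Prop := ∀ ψ L δ, IsJordanMap ψ → Approx ψ L δ →
  Seq (ψ '' ball 0 1) (fun n => Fr (L n)) δ ∧
  ∀ K, IsCompact K → K ⊆ ψ '' ball 0 1 → ∀ᶠ n in atTop, ∀ z ∈ K, z / δ n ∈ (L n).dom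

def G_bv : Prop := ∀ ψ L δ (ε : ℤ), IsJordanMap ψ → Approx ψ L δ → (ε = 1 ∨ ε = -1) →
  W_bv (ψ '' ball 0 1) (inv ψ) (cc ε) (fun n => dob (Fr (L n)) (Sp (L n) ε)) (YY δ)

end

end Vale.Agent.P153.Wick
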