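import Vale.Agent.P153.Wick.Stm

/-! P153, field part: the embedding of the lattice in the plane. -/

open Set Filter Topology MeasureTheory Metric
open Vale.Agent.P071 (Test lap DD hh g0 Conf)

namespace Vale.Agent.P153.Wick

namespace Emb

theorem emb_add (x y : V) : emb (x + y) = emb x + emb y := by
  simp only [emb, Prod.fst_add, Prod.snd_add]
  push_cast
  ring

theorem emb_sub (x y : V) : emb (x - y) = emb x - emb y := by
  simp only [emb, Prod.fst_sub, Prod.snd_sub]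
  push_cast
  ring

theorem emb_re (x : V) : (emb x).re = x.1 + x.2 / 2 := by
  simp [emb]
  ring

theorem emb_im (x : V) : (emb x).im = x.2 * (√3 / 2) := by simp [emb]

theorem norm_sq_of {w : ℂ} {a b : ℝ} (h1 : w.re = a + b / 2) (h2 : w.im = b * (√3 / 2)) :
    ‖w‖ ^ 2 = a ^ 2 + a * b + b ^ 2 := by
  have h3 : √3 * √3 = 3 := Real.mul_self_sqrt (by norm_num)
  rw [Complex.sq_norm, Complex.normSq_apply, h1, h2]
  linear_combination b ^ 2 / 4 * h3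

theorem norm_sq (x : V) : ‖emb x‖ ^ 2 = (x.1 : ℝ) ^ 2 + x.1 * x.2 + (x.2 : ℝ) ^ 2 :=
  norm_sq_of (emb_re x) (emb_im x)

theorem quad_le {i j N : ℝ} (h1 : |i| ≤ N) (h2 : |j| ≤ N) (h3 : |i + j| ≤ N) :
    i ^ 2 + i * j + j ^ 2 ≤ N ^ 2 := by
  have a1 := sq_le_sq' (abs_le.1 h1).1 (abs_le.1 h1).2
  have a2 := sq_le_sq' (abs_le.1 h2).1 (abs_le.1 h2).2
  have a3 := sq_le_sq' (abs_le.1 h3).1 (abs_le.1 h3).2
  rcases le_total 0 i with a | a <;> rcases le_total 0 j with b | b <;>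
    rcases le_total 0 (i + j) with c | c <;> nlinarith

theorem norm_le (x : V) : ‖emb x‖ ≤ nrm x := by
  obtain ⟨a1, a2, a3, a4, a5, a6⟩ := (nrm_le_iff (x := x) (n := nrm x)).1 le_rfl
  refine le_of_sq_le_sq ?_ (Nat.cast_nonneg _)
  rw [norm_sq]
  exact quad_le (abs_le.2 ⟨by exact_mod_cast a1, by exact_mod_cast a2⟩)
    (abs_le.2 ⟨by exact_mod_cast a3, by exact_mod_cast a4⟩)
    (abs_le.2 ⟨by exact_mod_cast a5, by exact_mod_cast a6⟩)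

theorem le_norm (x : V) : (nrm x : ℝ) ≤ 6 / 5 * ‖emb x‖ := by
  have h : (nrm x : ℤ) = x.1 ∨ (nrm x : ℤ) = -x.1 ∨ (nrm x : ℤ) = x.2 ∨ (nrm x : ℤ) = -x.2 ∨
      (nrm x : ℤ) = x.1 + x.2 ∨ (nrm x : ℤ) = -(x.1 + x.2) := by
    unfold nrm
    omega
  refine le_of_sq_le_sq ?_ (by positivity)
  rw [mul_pow, norm_sq, ← Int.cast_natCast]
  rcases h with h | h | h | h | h | h <;> rw [h] <;> push_cast <;>
    nlinarith [sq_nonneg ((x.1 : ℝ) + 2 * x.2), sq_nonneg (2 * (x.1 : ℝ) + x.2),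
      sq_nonneg ((x.1 : ℝ) - x.2), sq_nonneg (x.1 : ℝ), sq_nonneg (x.2 : ℝ),
      sq_nonneg ((x.1 : ℝ) + x.2)]

theorem tri {s t : ℝ} (hs : 0 ≤ s) (ht : 0 ≤ t) (h : s + t ≤ 1) :
    s ^ 2 + s * t + t ^ 2 < 9 / 25 ∨ (s - 1) ^ 2 + (s - 1) * t + t ^ 2 < 9 / 25 ∨
      s ^ 2 + s * (t - 1) + (t - 1) ^ 2 < 9 / 25 := by
  by_contra hc
  simp only [not_or, not_lt] at hc
  obtain ⟨a, b, c⟩ := hc
  nlinarith [mul_nonneg (sub_nonneg.2 h) (sub_nonneg.2 a), mul_nonneg hs (sub_nonneg.2 b),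
    mul_nonneg ht (sub_nonneg.2 c), sq_nonneg (s - t), sq_nonneg (s + t - 2 / 3)]

theorem cover (z : ℂ) : ∃ x, ‖z - emb x‖ < 3 / 5 := by
  have h3 : √3 ≠ 0 := by positivity
  obtain ⟨v, hv⟩ : ∃ v : ℝ, z.im = v * (√3 / 2) := ⟨z.im / (√3 / 2), by field_simp⟩
  obtain ⟨u, hu⟩ : ∃ u : ℝ, z.re = u + v / 2 := ⟨z.re - v / 2, by ring⟩
  have key : ∀ i j : ℤ, (u - i) ^ 2 + (u - i) * (v - j) + (v - j) ^ 2 < 9 / 25 →
      ∃ x, ‖z - emb x‖ < 3 / 5 := fun i j h => by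
    refine ⟨(i, j), lt_of_pow_lt_pow_left₀ 2 (by norm_num) ?_⟩
    rw [norm_sq_of (a := u - i) (b := v - j)
      (by rw [Complex.sub_re, emb_re, hu]; ring) (by rw [Complex.sub_im, emb_im, hv]; ring)]
    linarith
  have a1 := Int.floor_le u
  have a2 := Int.lt_floor_add_one u
  have b1 := Int.floor_le v
  have b2 := Int.lt_floor_add_one v
  rcases le_total (u - ⌊u⌋ + (v - ⌊v⌋)) 1 with h | h
  · rcases tri (sub_nonneg.2 a1) (sub_nonneg.2 b1) h with h | h | h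
    · exact key _ _ h
    · exact key (⌊u⌋ + 1) ⌊v⌋ (by push_cast; linarith)
    · exact key ⌊u⌋ (⌊v⌋ + 1) (by push_cast; linarith)
  · rcases tri (sub_nonneg.2 a2.le) (sub_nonneg.2 b2.le) (by linarith) with h | h | h
    · exact key (⌊u⌋ + 1) (⌊v⌋ + 1) (by push_cast; linarith)
    · exact key ⌊u⌋ (⌊v⌋ + 1) (by push_cast; linarith)
    · exact key (⌊u⌋ + 1) ⌊v⌋ (by push_cast; linarith)

theorem near (x y : V) (h : ‖emb x - emb y‖ < 6 / 5) : x = y ∨ Adj x y := by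
  have h1 := le_norm (y - x)
  rw [emb_sub, norm_sub_rev] at h1
  have h2 : nrm (y - x) < 2 := by
    have : (nrm (y - x) : ℝ) < 2 := by linarith
    exact_mod_cast this
  by_cases h0 : nrm (y - x) = 0
  · exact Or.inl (sub_eq_zero.1 (nrm_eq_zero.1 h0)).symm
  · exact Or.inr (adj_iff_nrm.2 (by omega))

theorem scale {δ : ℝ} (hδ : 0 < δ) (w : ℂ) : ‖(δ : ℂ) * w‖ = δ * ‖w‖ := by
  rw [norm_mul, Complex.norm_real, Real.norm_of_nonneg hδ.le]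

theorem isOpen_un (A : Set V) (δ : ℝ) : IsOpen {z : ℂ | ∃ x ∈ A, ‖z - δ * emb x‖ < 3 / 5 * δ} := by
  have e : {z : ℂ | ∃ x ∈ A, ‖z - δ * emb x‖ < 3 / 5 * δ} =
      ⋃ x ∈ A, ball ((δ : ℂ) * emb x) (3 / 5 * δ) := by
    ext z
    simp [dist_eq_norm]
  rw [e]
  exact isOpen_biUnion fun _ _ => isOpen_ball

end Emb

theorem s_emb : S_emb :=
  ⟨Emb.emb_add, Emb.emb_sub, fun x => ⟨Emb.norm_le x, Emb.le_norm x⟩, Emb.cover, Emb.near⟩

theorem s_cs (he : S_emb) : S_cs := by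
  intro δ K hδ hK x₀ hx₀ y hy
  set S : Set V := {x | ∃ z ∈ K, ‖z - δ * emb x‖ < 3 / 5 * δ}
  by_contra hc
  have hδ' : (δ : ℂ) ≠ 0 := Complex.ofReal_ne_zero.2 hδ.ne'
  obtain ⟨z, hz, ⟨a, ha, h1⟩, b, hb, h2⟩ := hK _ _
    (Emb.isOpen_un {x | Conn (fun _ _ => True) S x₀ x} δ)
    (Emb.isOpen_un {x | ¬ Conn (fun _ _ => True) S x₀ x} δ)
    (fun z _ => by
      obtain ⟨x, hx⟩ := he.2.2.2.1 (z / δ)
      have h3 : ‖z - δ * emb x‖ < 3 / 5 * δ := by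
        rw [show z - δ * emb x = δ * (z / δ - emb x) by field_simp, Emb.scale hδ, mul_comm]
        exact mul_lt_mul_of_pos_right hx hδ
      by_cases h : Conn (fun _ _ => True) S x₀ x
      · exact Or.inl ⟨x, h, h3⟩
      · exact Or.inr ⟨x, h, h3⟩)
    (let ⟨z, hz, h⟩ := hx₀; ⟨z, hz, x₀, Conn.rfl, h⟩) (let ⟨z, hz, h⟩ := hy; ⟨z, hz, y, hc, h⟩)
  have h3 : δ * ‖emb a - emb b‖ < δ * (6 / 5) := by
    rw [← Emb.scale hδ, show (δ : ℂ) * (emb a - emb b) = (z - δ * emb b) - (z - δ * emb a) by ring]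
    linarith [norm_sub_le (z - δ * emb b) (z - δ * emb a)]
  rcases he.2.2.2.2 a b (lt_of_mul_lt_mul_left h3 hδ.le) with h | h
  · exact hb (h ▸ ha)
  · exact hb (Conn.tail ha h trivial ⟨z, hz, h1⟩ ⟨z, hz, h2⟩)

end Vale.Agent.P153.Wick
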