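import Vale.Agent.P153.Wick.Stm

/-! P153, field part: boundary values, from the lattice to the continuum layer. -/

open Set Filter Topology MeasureTheory Metric
open Vale.Agent.P071 (Test lap DD hh g0 Conf)

namespace Vale.Agent.P153.Wick

namespace Gbv

theorem lin_congr (a : V →₀ ℝ) {H H' : Cfg} (h : ∀ y, a y ≠ 0 → H y = H' y) :
    lin a H = lin a H' :=
  Finset.sum_congr rfl fun y hy => by
    simp only [h y (Finsupp.mem_support_iff.1 hy)]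

theorem lin_smul (t : ℝ) (a : V →₀ ℝ) (H : Cfg) : lin (t • a) H = t * lin a H := by
  rw [lin, lin, Finsupp.sum_smul_index' (by simp), Finsupp.mul_sum]
  simp only [smul_eq_mul, mul_assoc]

theorem tot_smul (t : ℝ) (a : V →₀ ℝ) : tot (t • a) = t * tot a := by
  rw [tot, tot, Finsupp.sum_smul_index' (by simp), Finsupp.mul_sum]
  simp only [smul_eq_mul]

theorem norm_emb_sub (he : S_emb) {δ : ℝ} (hδ : 0 < δ) (v y : V) :
    δ * ‖emb (y - v)‖ = ‖δ * emb y - δ * emb v‖ := by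
  rw [he.2.1, ← mul_sub, norm_mul, Complex.norm_real, Real.norm_eq_abs, abs_of_pos hδ]

theorem hex_le (he : S_emb) {δ : ℝ} (hδ : 0 < δ) {z : ℂ} {v y : V} {m : ℕ}
    (hv : ‖δ * emb v - z‖ ≤ δ) (hy : y ∈ hex v m) : ‖δ * emb y - z‖ ≤ δ * m + δ := by
  have h1 := norm_emb_sub he hδ v y
  have h2 : ‖emb (y - v)‖ ≤ m := (he.2.2.1 _).1.trans (by exact_mod_cast hy)
  have h3 := norm_sub_le_norm_sub_add_norm_sub (δ * emb y) (δ * emb v) z
  have h4 := mul_le_mul_of_nonneg_left h2 hδ.le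
  linarith

theorem le_hex (he : S_emb) {δ : ℝ} (hδ : 0 < δ) {z : ℂ} {v y : V} {m : ℕ}
    (hv : ‖δ * emb v - z‖ ≤ δ) (hy : 6 / 5 * (‖δ * emb y - z‖ + δ) ≤ δ * m) : y ∈ hex v m := by
  have h1 := norm_emb_sub he hδ v y
  have h2 := (he.2.2.1 (y - v)).2
  have h3 := norm_sub_le_norm_sub_add_norm_sub (δ * emb y) z (δ * emb v)
  rw [norm_sub_rev z] at h3
  have h4 := mul_le_mul_of_nonneg_left h2 hδ.le
  have h5 : δ * (nrm (y - v) : ℝ) ≤ δ * m := by nlinarith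
  exact_mod_cast le_of_mul_le_mul_left h5 hδ

theorem near (he : S_emb) {δ : ℝ} (hδ : 0 < δ) (z : ℂ) : ∃ v : V, ‖δ * emb v - z‖ ≤ δ := by
  obtain ⟨v, hv⟩ := he.2.2.2.1 (z / δ)
  refine ⟨v, ?_⟩
  have hc : (δ : ℂ) ≠ 0 := by exact_mod_cast hδ.ne'
  have : (δ : ℂ) * emb v - z = -(δ * (z / δ - emb v)) := by field_simp; ring
  rw [this, norm_neg, norm_mul, Complex.norm_real, Real.norm_eq_abs, abs_of_pos hδ]
  nlinarith

/-- The conclusion of `L_bv` for given constants. -/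
def BV (L M : ℕ) (ε : ℝ) : Prop := ∀ (F S W O : Set V) (x : V) (n N R : ℕ)
  (c : ℝ) (a : V →₀ ℝ) (G : Cfg → ℝ), Dom F → 1 ≤ N → n ≤ N → M * N ≤ R → F ⊆ hex x (L * R) →
  hex x n ⊆ F → B1 a x n → (W = Fᶜ ∩ S ∧ c = 1 ∨ W = Fᶜ \ S ∧ c = 0) → CS W → CS (Fᶜ \ W) →
  Fᶜ ∩ hex x R ⊆ W → (W ∩ hex x N).Nonempty → ¬ W ⊆ hex x R →
  O ⊆ F → CS O → Disjoint O (hex x R) → Obs G O →
  |Ex (dob F S) fun H => (lin a H - c * tot a) * G H| ≤ ε * N ^ 2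

/-- The estimate at one mesh. -/
theorem one (he : S_emb) (hw : S_wt) (hl : S_loc) (hwall : S_wall) (hcs : S_cs)
    {L M : ℕ} {ε δ s ρ R₁ A₀ c : ℝ} (hε : 0 < ε) (H : BV L M ε) {F S A B : Set V} {z : ℂ}
    {K : Set ℂ} {r g : ℂ → ℝ} {Γ : ℝ → ℝ} (hF : Dom F) (hAB : obd F ⊆ A ∪ B) (hA : A ⊆ Fᶜ)
    (hB : B ⊆ Fᶜ) (cA : CS A) (cB : CS B) (nB : B.Nonempty) (dAB : Disjoint A B)
    (hS : c = 1 ∧ S = A ∨ c = 0 ∧ S = B) (hδ : 0 < δ) (hδs : 30 * δ ≤ s)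
    (hsρ : 3 * (M + 1) * s ≤ ρ) (hR₁ : 0 ≤ R₁) (hL : 4 * (R₁ + ρ) ≤ L * ρ) (hA₀ : 0 < A₀)
    (hin : ∀ y, ‖δ * emb y - z‖ ≤ 4 / 5 * s → y ∈ F) (hout : ∀ y ∈ F, ‖δ * emb y - z‖ ≤ R₁)
    (fB : ∀ y ∈ B, 2 * ρ < ‖δ * emb y - z‖) (nA : ∃ y ∈ A, ‖δ * emb y - z‖ ≤ 3 / 2 * s)
    (fA : ∃ y ∈ A, 2 * ρ < ‖δ * emb y - z‖) (hK : IsPreconnected K)
    (hK1 : ∀ y, (∃ w ∈ K, ‖w - δ * emb y‖ < 3 / 5 * δ) → y ∈ F)
    (hK2 : ∀ w ∈ K, 3 * ρ < ‖w - z‖) (hg : ∀ y, wt δ g y ≠ 0 → δ * emb y ∈ K)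
    (hr : Test (ball z (s / 2)) r) (hrA : ∀ y, |r y| ≤ A₀) (hΓ : ∀ t, |Γ t| ≤ 1) :
    |Ex (dob F S) fun H => (lin (wt δ r) H - c * ∫ y, r y) * Γ (lin (wt δ g) H)| ≤
      36 * ε * (A₀ * s ^ 2) := by
  have hs : 0 < s := by linarith
  have hM : (0 : ℝ) ≤ M := Nat.cast_nonneg M
  have hsρ' : 3 * s ≤ ρ := by nlinarith
  obtain ⟨v, hv⟩ := near he hδ z
  obtain ⟨W, w1, w2, w3, w4, w5, w6⟩ := hwall F A B hF hAB hA hB cA cB nB dAB
  have hru : Test univ r := ⟨hr.1, hr.2.1, subset_univ _⟩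
  obtain ⟨-, r2, r3, r4, -⟩ := hw δ r hδ hru
  obtain ⟨n, n1, n2⟩ : ∃ n : ℕ, 7 / 10 * s ≤ δ * n ∧ δ * n ≤ 7 / 10 * s + δ := by
    refine ⟨⌈7 / 10 * s / δ⌉₊, ?_, ?_⟩
    · rw [mul_comm δ, ← div_le_iff₀ hδ]; exact Nat.le_ceil _
    · have := (Nat.ceil_lt_add_one (show 0 ≤ 7 / 10 * s / δ by positivity)).le
      calc δ * _ ≤ δ * (7 / 10 * s / δ + 1) := mul_le_mul_of_nonneg_left this hδ.le
        _ = _ := by field_simp
  obtain ⟨N, N1, N2⟩ : ∃ N : ℕ, 2 * s ≤ δ * N ∧ δ * N ≤ 2 * s + δ := by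
    refine ⟨⌈2 * s / δ⌉₊, ?_, ?_⟩
    · rw [mul_comm δ, ← div_le_iff₀ hδ]; exact Nat.le_ceil _
    · have := (Nat.ceil_lt_add_one (show 0 ≤ 2 * s / δ by positivity)).le
      calc δ * _ ≤ δ * (2 * s / δ + 1) := mul_le_mul_of_nonneg_left this hδ.le
        _ = _ := by field_simp
  obtain ⟨R, R1, R2⟩ : ∃ R : ℕ, ρ - δ ≤ δ * R ∧ δ * R ≤ ρ := by
    refine ⟨⌊ρ / δ⌋₊, ?_, ?_⟩
    · have := (Nat.lt_floor_add_one (ρ / δ)).le
      rw [div_le_iff₀ hδ] at this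
      linarith
    · rw [mul_comm δ, ← le_div_iff₀ hδ]; exact Nat.floor_le (div_nonneg (by linarith) hδ.le)
  have cast : ∀ {a b : ℕ}, δ * a ≤ δ * b → a ≤ b := fun h => by
    exact_mod_cast le_of_mul_le_mul_left h hδ
  have hN : 1 ≤ N := cast (by push_cast; linarith)
  have hnN : n ≤ N := cast (by linarith)
  have hNR : N ≤ R := cast (by linarith)
  have hMN : M * N ≤ R := cast (by
    push_cast
    have : M * (δ * N) ≤ M * (2 * s + δ) := mul_le_mul_of_nonneg_left N2 hM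
    have : M * δ ≤ M * s := mul_le_mul_of_nonneg_left (by linarith) hM
    nlinarith)
  have far : ∀ y, 2 * ρ < ‖δ * emb y - z‖ → y ∉ hex v R := fun y h h' => by
    have := hex_le he hδ hv h'
    linarith
  have hFh : F ⊆ hex v (L * R) := fun y hy => le_hex he hδ hv (by
    have := hout y hy
    have h1 : (L : ℝ) * (ρ / 2) ≤ L * (δ * R) :=
      mul_le_mul_of_nonneg_left (by linarith) (Nat.cast_nonneg L)
    push_cast
    nlinarith)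
  have hnF : hex v n ⊆ F := fun y hy => hin y (by
    have := hex_le he hδ hv hy
    linarith)
  have supp : ∀ y, wt δ r y ≠ 0 → y ∈ hex v n := fun y hy => by
    obtain ⟨w, h1, h2⟩ := r3 y hy
    have h3 : ‖w - z‖ < s / 2 := by
      simpa [dist_eq_norm] using hr.2.2 (subset_tsupport r h1)
    have h4 := norm_sub_le_norm_sub_add_norm_sub (δ * emb y) w z
    rw [norm_sub_rev _ w] at h4
    exact le_hex he hδ hv (by linarith)
  have ht : 0 < 4 * A₀ * δ ^ 2 := by positivity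
  have b1 : B1 ((4 * A₀ * δ ^ 2)⁻¹ • wt δ r) v n := by
    refine ⟨fun y => ?_, fun y hy => supp y fun h => hy (by simp [h])⟩
    rw [Finsupp.smul_apply, smul_eq_mul, abs_mul, abs_of_pos (inv_pos.2 ht), inv_mul_le_iff₀ ht,
      mul_one]
    exact r4 A₀ hrA y
  obtain ⟨y₁, y1, y2⟩ := nA
  have y3 : y₁ ∈ hex v N := le_hex he hδ hv (by linarith)
  have wR : Fᶜ ∩ hex v R ⊆ W := w6 v R (disjoint_right.2 fun y hy => far y (fB y hy))
    ⟨y₁, hex_mono hNR y3, y1⟩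
  have wout : ¬ W ⊆ hex v R := fun h =>
    let ⟨y, h1, h2⟩ := fA
    far y h2 (h (w1 h1))
  have gO : ∀ y, wt δ g y ≠ 0 → y ∈ {x | ∃ z ∈ K, ‖z - δ * emb x‖ < 3 / 5 * δ} := fun y hy =>
    ⟨_, hg y hy, by simpa using hδ⟩
  have dO : Disjoint {x | ∃ z ∈ K, ‖z - δ * emb x‖ < 3 / 5 * δ} (hex v R) := by
    refine disjoint_left.2 fun y ⟨w, h1, h2⟩ => far y ?_
    have := hK2 w h1
    have := norm_sub_le_norm_sub_add_norm_sub w (δ * emb y) z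
    linarith
  have obs : Obs (fun H => Γ (lin (wt δ g) H)) {x | ∃ z ∈ K, ‖z - δ * emb x‖ < 3 / 5 * δ} :=
    ⟨fun H H' h => by
      show Γ _ = Γ _
      rw [lin_congr _ fun y hy => h y (gO y hy)], fun H => hΓ _⟩
  obtain ⟨S', s1, s2⟩ : ∃ S', (∀ y ∈ obd F, y ∈ S ↔ y ∈ S') ∧
      (W = Fᶜ ∩ S' ∧ c = 1 ∨ W = Fᶜ \ S' ∧ c = 0) := by
    rcases hS with ⟨h1, rfl⟩ | ⟨h1, rfl⟩
    · exact ⟨W, fun y hy => ⟨fun h => w1 h, fun h =>
        (hAB hy).resolve_right (disjoint_left.1 w3 h)⟩,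
        Or.inl ⟨(inter_eq_right.2 w2).symm, h1⟩⟩
    · refine ⟨Fᶜ \ W, fun y hy => ⟨fun h => ⟨hB h, disjoint_right.1 w3 h⟩, fun h =>
        (hAB hy).resolve_left fun h' => h.2 (w1 h')⟩, Or.inr ⟨?_, h1⟩⟩
      rw [sdiff_sdiff_right_self, inter_eq_right.2 w2]
  have key := H F S' W _ v n N R c _ _ hF hN hnN hMN hFh hnF b1 s2 w4 w5 wR ⟨y₁, w1 y1, y3⟩ wout
    hK1 (hcs δ K hδ hK) dO obs
  have dep : DepOn (fun H => (lin (wt δ r) H - c * ∫ y, r y) * Γ (lin (wt δ g) H)) F :=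
    fun H H' h => by
      show (_ - _) * Γ _ = (_ - _) * Γ _
      rw [lin_congr _ fun y hy => h y (hnF (supp y hy)),
        lin_congr (wt δ g) fun y hy => h y (hK1 y (gO y hy))]
  rw [hl.2 F S S' _ s1 dep]
  have e : (Ex (dob F S') fun H => (lin (wt δ r) H - c * ∫ y, r y) * Γ (lin (wt δ g) H)) =
      4 * A₀ * δ ^ 2 * Ex (dob F S') fun H => (lin ((4 * A₀ * δ ^ 2)⁻¹ • wt δ r) H -
        c * tot ((4 * A₀ * δ ^ 2)⁻¹ • wt δ r)) * Γ (lin (wt δ g) H) := by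
    rw [← Ex_mul_left]
    refine Ex_congr fun H _ => ?_
    rw [lin_smul, tot_smul, r2]
    field_simp
  rw [e, abs_mul, abs_of_pos ht]
  have h9 : (δ * N) ^ 2 ≤ (3 * s) ^ 2 := pow_le_pow_left₀ (by positivity) (by linarith) 2
  calc _ ≤ 4 * A₀ * δ ^ 2 * (ε * N ^ 2) := mul_le_mul_of_nonneg_left key ht.le
    _ = 4 * A₀ * ε * (δ * N) ^ 2 := by ring
    _ ≤ 4 * A₀ * ε * (3 * s) ^ 2 := mul_le_mul_of_nonneg_left h9 (by positivity)
    _ = _ := by ring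

theorem radial (x : ℂ) (hx : ‖x‖ ≤ 1) : ∃ y ∈ sphere (0 : ℂ) 1, dist x y ≤ hh x := by
  refine ⟨Complex.exp (x.arg * Complex.I), by simp, ?_⟩
  have h := Complex.norm_mul_exp_arg_mul_I x
  have : x - Complex.exp (x.arg * Complex.I) =
      -(((1 - ‖x‖ : ℝ) : ℂ) * Complex.exp (x.arg * Complex.I)) := by
    push_cast
    linear_combination -h
  rw [dist_eq_norm, this, norm_neg, norm_mul, Complex.norm_real, Complex.norm_exp_ofReal_mul_I,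
    Real.norm_eq_abs, abs_of_nonneg (by linarith), hh]
  nlinarith [norm_nonneg x]

theorem sign {x ζ : ℂ} {t : ℝ} (ht : 0 < t) (hζ : ζ ∈ sphere (0 : ℂ) 1) (h1 : t ≤ ‖ζ - 1‖)
    (h2 : t ≤ ‖ζ + 1‖) (hx : dist x ζ ≤ t ^ 2 / 4) : 0 < x.im ↔ 0 < ζ.im := by
  have e0 : ζ.re ^ 2 + ζ.im ^ 2 = 1 := by
    have : ‖ζ‖ ^ 2 = 1 := by rw [mem_sphere_zero_iff_norm.1 hζ]; norm_num
    rw [Complex.sq_norm, Complex.normSq_apply] at this
    linarith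
  have e1 : t ^ 2 ≤ 2 - 2 * ζ.re := by
    have := pow_le_pow_left₀ ht.le h1 2
    rw [Complex.sq_norm, Complex.normSq_apply] at this
    simp only [Complex.sub_re, Complex.one_re, Complex.sub_im, Complex.one_im] at this
    nlinarith
  have e2 : t ^ 2 ≤ 2 + 2 * ζ.re := by
    have := pow_le_pow_left₀ ht.le h2 2
    rw [Complex.sq_norm, Complex.normSq_apply] at this
    simp only [Complex.add_re, Complex.one_re, Complex.add_im, Complex.one_im] at this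
    nlinarith
  have ht2 : 0 < t ^ 2 := by positivity
  have e3 : (t ^ 2 / 2) ^ 2 ≤ ζ.im ^ 2 := by
    have := mul_le_mul e1 e2 ht2.le (by linarith)
    nlinarith
  have e4 : t ^ 2 / 2 ≤ |ζ.im| := by
    rw [← sq_abs ζ.im] at e3
    exact (pow_le_pow_iff_left₀ (by positivity) (abs_nonneg _) two_ne_zero).1 e3
  have e5 : |x.im - ζ.im| ≤ t ^ 2 / 4 := by
    rw [← Complex.sub_im]
    exact (Complex.abs_im_le_norm _).trans (by rwa [dist_eq_norm] at hx)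
  have e6 := abs_le.1 e5
  rcases le_abs'.1 e4 with h | h <;> constructor <;> intro _ <;> linarith

theorem core {D : Set ℂ} {ψ φ : ℂ → ℂ} (hψ : IsJordanMap ψ) (hD : IsOpen D) (hc : Conf D ψ φ)
    {T : Set ℂ} (hT : IsCompact T) (hTD : T ⊆ D) : ∃ (K : Set ℂ) (η : ℝ), 0 < η ∧
      IsPreconnected K ∧ IsCompact (cthickening η K) ∧ cthickening η T ⊆ K ∧
      cthickening η K ⊆ D := by
  obtain ⟨η, hη, h1⟩ := hT.exists_cthickening_subset_open hD hTD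
  have h2 : IsCompact (φ '' cthickening η T) :=
    hT.cthickening.image_of_continuousOn (hc.hφ.continuousOn.mono h1)
  obtain ⟨r, hr, h3⟩ := exists_lt_subset_ball h2.isClosed
    (show φ '' cthickening η T ⊆ ball 0 1 from fun _ ⟨w, hw, e⟩ => e ▸ hc.mapsφ (h1 hw))
  have h4 : ContinuousOn ψ (closedBall 0 r) := hψ.1.mono (closedBall_subset_closedBall hr.le)
  have h5 : IsCompact (ψ '' closedBall 0 r) := (isCompact_closedBall 0 r).image_of_continuousOn h4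
  obtain ⟨η', hη', h6⟩ := h5.exists_cthickening_subset_open hD
    (fun _ ⟨w, hw, e⟩ => e ▸ hc.mapsf (closedBall_subset_ball hr hw))
  refine ⟨ψ '' closedBall 0 r, min η η', lt_min hη hη',
    (convex_closedBall 0 r).isPreconnected.image ψ h4, h5.cthickening, fun w hw => ?_,
    (cthickening_mono (min_le_right _ _) _).trans h6⟩
  have hw' := cthickening_mono (min_le_left _ _) _ hw
  exact ⟨φ w, ball_subset_closedBall (h3 ⟨w, hw', rfl⟩), hc.right w (h1 hw')⟩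

end Gbv

open Gbv in
theorem g_bv (he : S_emb) (hw : S_wt) (hl : S_loc) (h2 : S_ld2) (hwall : S_wall) (hcs : S_cs)
    (hc : S_conf) (ha : S_arc) (hs : S_seq) (H : L_bv) : G_bv := by
  intro ψ L δ ε hψ hap _ g hg ε' τ hε' hτ
  obtain ⟨hD, hDb, hcf, -, hnear, hun, -⟩ := hc ψ hψ
  obtain ⟨a1, a2, a3⟩ := ha ψ L δ hψ hap
  obtain ⟨hq, -⟩ := hs ψ L δ hψ hap
  have nD : ∀ ζ ∈ sphere (0 : ℂ) 1, ψ ζ ∉ ψ '' ball 0 1 := fun ζ hζ ⟨w, h1, h2⟩ => by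
    have := hψ.2.1 (ball_subset_closedBall h1) (sphere_subset_closedBall hζ) h2
    rw [this, mem_ball, mem_sphere.1 hζ] at h1
    exact lt_irrefl _ h1
  obtain ⟨K, η, hη, k1, k2, k3, k4⟩ := core hψ hD hcf hg.2.1 hg.2.2
  obtain ⟨ρa, hρa, a3⟩ := a3 (τ / 2) (by linarith)
  obtain ⟨d₀, hd₀, u0⟩ := hun (τ / 4) (by linarith)
  obtain ⟨ρ, hρ, ρ1, ρ2, ρ3⟩ : ∃ ρ : ℝ, 0 < ρ ∧ 4 * ρ ≤ η ∧ 3 * ρ ≤ ρa ∧ 4 * ρ ≤ d₀ :=
    ⟨min (η / 4) (min (ρa / 3) (d₀ / 4)), by positivity,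
      by linarith [min_le_left (η / 4) (min (ρa / 3) (d₀ / 4))],
      by linarith [min_le_right (η / 4) (min (ρa / 3) (d₀ / 4)), min_le_left (ρa / 3) (d₀ / 4)],
      by linarith [min_le_right (η / 4) (min (ρa / 3) (d₀ / 4)), min_le_right (ρa / 3) (d₀ / 4)]⟩
  obtain ⟨R₀, hR₀⟩ := hq.out
  obtain ⟨R', hR'⟩ := hDb.exists_norm_le
  obtain ⟨M, HM⟩ := H ⌈4 * (|R₀| + |R'| + ρ) / ρ⌉₊ (ε' / 36) (by positivity)
  obtain ⟨d₁, hd₁, u1⟩ := hun (min (τ / 2) ((τ / 2) ^ 2 / 4)) (by positivity)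
  obtain ⟨d₂, hd₂, u2⟩ := hun (min (ρ / (3 * (M + 1))) d₁) (by positivity)
  refine ⟨d₂, hd₂, fun z hz hh1 t1 t2 A r hA hr hrA => ?_⟩
  obtain ⟨ζ, hζ, hs⟩ := hnear z hz
  have hx := hcf.mapsφ hz
  have hzx := hcf.right z hz
  set x := inv ψ z
  set s := infDist z (ψ '' ball 0 1)ᶜ with hsd
  have hs0 : 0 < s := hs ▸ dist_pos.2 fun h => nD ζ hζ (h ▸ hz)
  have hs1 : s ≤ min (ρ / (3 * (M + 1))) d₁ := by
    obtain ⟨y, hy, h⟩ := radial x (mem_ball_zero_iff.1 hx).le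
    have := (u2 x (ball_subset_closedBall hx) y (sphere_subset_closedBall hy)).1 (h.trans hh1)
    rw [hzx] at this
    exact (infDist_le_dist_of_mem (nD y hy)).trans this
  have hsρ : 3 * (M + 1) * s ≤ ρ := by
    rw [mul_comm, ← le_div_iff₀ (by positivity)]
    exact hs1.trans (min_le_left _ _)
  have hsρ' : 3 * s ≤ ρ := by nlinarith [Nat.cast_nonneg (α := ℝ) M]
  have hxζ := (u1 x (ball_subset_closedBall hx) ζ (sphere_subset_closedBall hζ)).2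
    (by rw [hzx, hs]; exact hs1.trans (min_le_right _ _))
  have hx1 : ‖x - ζ‖ ≤ τ / 2 := by
    rw [← dist_eq_norm]; exact hxζ.trans (min_le_left _ _)
  have z1 : τ / 2 ≤ ‖ζ - 1‖ := by
    have := norm_sub_le_norm_sub_add_norm_sub x ζ 1
    linarith
  have z2 : τ / 2 ≤ ‖ζ + 1‖ := by
    have := norm_sub_le_norm_sub_add_norm_sub x ζ (-1)
    simp only [sub_neg_eq_add] at this
    linarith
  have sg := sign (half_pos hτ) hζ z1 z2 (hxζ.trans (min_le_right _ _))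
  have hs' : ‖ψ ζ - z‖ = s := by rw [← hs, dist_comm, dist_eq_norm]
  have sep : ∀ y ∈ sphere (0 : ℂ) 1, τ / 2 ≤ ‖ζ - y‖ → ∀ p : ℂ, dist p (ψ y) < ρ →
      2 * ρ < ‖p - z‖ := fun y hy h p hp => by
    have h3 : d₀ < dist (ψ ζ) (ψ y) := lt_of_not_ge fun h' => by
      have := (u0 ζ (sphere_subset_closedBall hζ) y (sphere_subset_closedBall hy)).2 h'
      rw [dist_eq_norm] at this
      linarith
    have h4 := dist_triangle4 (ψ ζ) z p (ψ y)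
    rw [dist_comm (ψ ζ) z, hs, dist_comm z p, dist_eq_norm p z] at h4
    linarith
  have hcb : closedBall z (4 / 5 * s) ⊆ ψ '' ball 0 1 :=
    (closedBall_subset_ball (by linarith)).trans ball_infDist_compl_subset
  have hgu : Test univ g := ⟨hg.1, hg.2.1, subset_univ _⟩
  filter_upwards [a3, a2 (s / 2) (by linarith), hR₀, hq.inn _ k2 k4,
    hq.inn _ (isCompact_closedBall z _) hcb, hq.lim.eventually (ge_mem_nhds (show 0 < s / 30 by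
      linarith)), Metric.tendsto_nhds.1 a1 ρ hρ, Metric.tendsto_nhds.1 hap.2.2.1 ρ hρ]
    with n b3 b2 bo bK bz bδ b0 bk Γ hΓ
  have hδ := hq.pos n
  obtain ⟨l1, l2, l3, l4, l5, l6, l7⟩ := h2 (L n)
  have side : ∀ i < (L n).N, ‖δ n * emb ((L n).β i) - z‖ ≤ 2 * ρ → (i < (L n).k ↔ 0 < ζ.im) :=
    fun i hi h => b3 ζ hζ z1 z2 i hi (by
      have := norm_sub_le_norm_sub_add_norm_sub (δ n * emb ((L n).β i)) z (ψ ζ)
      rw [norm_sub_rev z, hs'] at this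
      linarith)
  obtain ⟨i, hi, hi'⟩ := b2 ζ hζ
  have hi2 : ‖δ n * emb ((L n).β i) - z‖ ≤ 3 / 2 * s := by
    have := norm_sub_le_norm_sub_add_norm_sub (δ n * emb ((L n).β i)) (ψ ζ) z
    linarith
  have hi3 := side i hi (by linarith)
  have m0 : (L n).β 0 ∈ arcP (L n) := ⟨0, (L n).k_pos, rfl⟩
  have mk : (L n).β (L n).k ∈ arcM (L n) := ⟨_, ⟨le_rfl, (L n).k_lt⟩, rfl⟩
  have main : ∀ A' B : Set V, obd (Fr (L n)) ⊆ A' ∪ B → A' ⊆ (Fr (L n))ᶜ → B ⊆ (Fr (L n))ᶜ →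
      CS A' → CS B → B.Nonempty → Disjoint A' B →
      (cc ε x = 1 ∧ Sp (L n) ε = A' ∨ cc ε x = 0 ∧ Sp (L n) ε = B) →
      (∀ y ∈ B, 2 * ρ < ‖δ n * emb y - z‖) → (L n).β i ∈ A' →
      (∃ y ∈ A', 2 * ρ < ‖δ n * emb y - z‖) →
      |Ex (dob (Fr (L n)) (Sp (L n) ε)) fun H =>
        (YY δ n r H - cc ε x * ∫ y, r y) * Γ (YY δ n g H)| ≤ ε' * (A * s ^ 2) := by
    intro A' B c1 c2 c3 c4 c5 c6 c7 c8 c9 c10 c11
    refine (one he hw hl hwall hcs (R₁ := |R₀| + |R'|) (K := K) (by positivity) HM l1 c1 c2 c3 c4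
      c5 c6 c7 c8 hδ (by linarith) hsρ (by positivity) ?_ hA
      (fun y hy => bz y (by rwa [mem_closedBall, dist_eq_norm])) (fun y hy => ?_) c9
      ⟨_, c10, hi2⟩ c11 k1 (fun y ⟨w, h1, h3⟩ => bK y ?_) (fun w h1 => ?_) (fun y hy => ?_)
      hr hrA hΓ).trans (le_of_eq (by ring))
    · rw [← div_le_iff₀ hρ]; exact Nat.le_ceil _
    · have := norm_sub_le (δ n * emb y) z
      linarith [bo y hy, hR' z hz, le_abs_self R₀, le_abs_self R']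
    · refine mem_cthickening_of_dist_le _ w η K h1 ?_
      rw [dist_comm, dist_eq_norm]
      linarith
    · have h3 : η < dist (ψ ζ) w := lt_of_not_ge fun h =>
        nD ζ hζ (k4 (mem_cthickening_of_dist_le _ w η K h1 h))
      have h4 := dist_triangle (ψ ζ) z w
      rw [dist_comm (ψ ζ) z, hs, dist_comm z w, dist_eq_norm w z] at h4
      linarith
    · obtain ⟨w, h1, h3⟩ := (hw (δ n) g hδ hgu).2.2.1 y hy
      refine k3 (mem_cthickening_of_dist_le _ w η _ (subset_tsupport g h1) ?_)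
      rw [dist_comm, dist_eq_norm]
      linarith
  by_cases hζi : 0 < ζ.im
  · refine main _ _ l2 l3 l4 l5 l6 ⟨_, mk⟩ l7 ?_ ?_ ⟨i, hi3.2 hζi, rfl⟩
      ⟨_, m0, sep (-1) (by simp) (by rwa [sub_neg_eq_add]) _ b0⟩
    · by_cases h : ε = 1 <;> simp [cc, Sp, h, sg, hζi]
    · rintro _ ⟨j, hj, rfl⟩
      exact lt_of_not_ge fun h => not_lt.2 hj.1 ((side j hj.2 h).2 hζi)
  · refine main _ _ (union_comm _ _ ▸ l2) l4 l3 l6 l5 ⟨_, m0⟩ l7.symm ?_ ?_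
      ⟨i, ⟨not_lt.1 fun h => hζi (hi3.1 h), hi⟩, rfl⟩ ⟨_, mk, sep 1 (by simp) z1 _ bk⟩
    · by_cases h : ε = 1 <;> simp [cc, Sp, h, sg, hζi]
    · rintro _ ⟨j, hj, rfl⟩
      exact lt_of_not_ge fun h => hζi ((side j (lt_trans hj (L n).k_lt) h).1 hj)

end Vale.Agent.P153.Wick
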