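import Vale.Agent.P153.Wick.Stm

/-! P153, field part: the nodal function. -/

open Set Filter Topology MeasureTheory Metric
open Vale.Agent.P071 (Test lap DD hh g0 Conf)

namespace Vale.Agent.P153.Wick

namespace Hat

/-- the nodal function in lattice coordinates -/
noncomputable def h2 (u v : ℝ) : ℝ := max 0 (1 - max (max |u| |v|) |u + v|)

theorem hat_eq (z : ℂ) : hat z = h2 (z.re - z.im / √3) (2 * z.im / √3) := by
  unfold hat h2
  rw [show z.re - z.im / √3 + 2 * z.im / √3 = z.re + z.im / √3 by ring]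

theorem hat_sub (z : ℂ) (x : V) :
    hat (z - emb x) = h2 (z.re - z.im / √3 - x.1) (2 * z.im / √3 - x.2) := by
  have h : √3 ≠ 0 := by positivity
  have e1 : (z - emb x).re = z.re - (x.1 + x.2 / 2) := by simp [emb]; ring
  have e2 : (z - emb x).im = z.im - x.2 * (√3 / 2) := by simp [emb]
  rw [hat_eq, e1, e2]
  congr 1 <;> field_simp <;> ring

theorem h2_ne {u v : ℝ} (h : h2 u v ≠ 0) : |u| < 1 ∧ |v| < 1 ∧ |u + v| < 1 := by
  have : max (max |u| |v|) |u + v| < 1 := by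
    by_contra hc
    exact h (max_eq_left (by linarith [not_lt.1 hc]))
  simpa only [max_lt_iff, and_assoc] using this

theorem v1 {s t : ℝ} (s0 : 0 ≤ s) (t0 : 0 ≤ t) : h2 s t = max 0 (1 - s - t) := by
  rw [h2, abs_of_nonneg s0, abs_of_nonneg t0, abs_of_nonneg (add_nonneg s0 t0),
    max_eq_right (max_le (by linarith) (by linarith)), sub_sub]

theorem v2 {s t : ℝ} (s0 : 0 ≤ s) (s1 : s < 1) (t0 : 0 ≤ t) (t1 : t < 1) :
    h2 s (t - 1) = min (1 - s) t := by
  rw [h2, abs_of_nonneg s0, abs_of_nonpos (by linarith : t - 1 ≤ 0),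
    max_eq_left (abs_le.2 ⟨by linarith [le_max_right s (-(t - 1))],
      by linarith [le_max_left s (-(t - 1))]⟩)]
  simp only [max_def, min_def]
  split_ifs <;> linarith

theorem h2_comm (u v : ℝ) : h2 u v = h2 v u := by
  rw [h2, h2, max_comm |u|, add_comm u]

theorem h2_neg (u v : ℝ) : h2 (-u) (-v) = h2 u v := by
  rw [h2, h2, ← neg_add, abs_neg, abs_neg, abs_neg]

theorem four {s t : ℝ} (s0 : 0 ≤ s) (s1 : s < 1) (t0 : 0 ≤ t) (t1 : t < 1) :
    h2 s t + h2 s (t - 1) + (h2 (s - 1) t + h2 (s - 1) (t - 1)) = 1 := by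
  rw [v1 s0 t0, v2 s0 s1 t0 t1, h2_comm (s - 1) t, v2 t0 t1 s0 s1, ← h2_neg,
    v1 (by linarith) (by linarith)]
  simp only [max_def, min_def]
  split_ifs <;> linarith

theorem near {u : ℝ} {a : ℤ} (h : |u - a| < 1) : a ∈ ({⌊u⌋, ⌊u⌋ + 1} : Finset ℤ) := by
  rw [abs_lt] at h
  have h1 := Int.floor_le u
  have h2 := Int.lt_floor_add_one u
  have h3 : (⌊u⌋ : ℝ) < a + 1 := by linarith [h.2]
  have h4 : (a : ℝ) < ⌊u⌋ + 2 := by linarith [h.1]
  have h5 : ⌊u⌋ < a + 1 := by exact_mod_cast h3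
  have h6 : a < ⌊u⌋ + 2 := by exact_mod_cast h4
  simp only [Finset.mem_insert, Finset.mem_singleton]
  omega

theorem pou (u v : ℝ) : ∑ᶠ x : V, h2 (u - x.1) (v - x.2) = 1 := by
  rw [finsum_eq_sum_of_support_subset
    (s := ({⌊u⌋, ⌊u⌋ + 1} : Finset ℤ) ×ˢ ({⌊v⌋, ⌊v⌋ + 1} : Finset ℤ)) _ fun x hx =>
      Finset.mem_coe.2 (Finset.mem_product.2 ⟨near (h2_ne hx).1, near (h2_ne hx).2.1⟩),
    Finset.sum_product, Finset.sum_pair (by omega), Finset.sum_pair (by omega),
    Finset.sum_pair (by omega)]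
  have := four (s := u - ⌊u⌋) (t := v - ⌊v⌋) (by linarith [Int.floor_le u])
    (by linarith [Int.lt_floor_add_one u]) (by linarith [Int.floor_le v])
    (by linarith [Int.lt_floor_add_one v])
  push_cast
  simpa only [sub_sub] using this

theorem quad {u v : ℝ} (h1 : |u| < 1) (h2 : |v| < 1) (h3 : |u + v| < 1) :
    u ^ 2 + u * v + v ^ 2 < 1 := by
  have a1 := (sq_lt_one_iff_abs_lt_one u).2 h1
  have a2 := (sq_lt_one_iff_abs_lt_one v).2 h2
  have a3 := (sq_lt_one_iff_abs_lt_one (u + v)).2 h3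
  rcases le_total 0 u with b1 | b1 <;> rcases le_total 0 v with b2 | b2 <;>
    rcases le_total 0 (u + v) with b3 | b3 <;> nlinarith

end Hat

theorem s_hat : S_hat := by
  refine ⟨?_, fun z => ⟨le_max_left _ _, max_le zero_le_one ?_⟩, fun z hz => ?_, fun z => ?_⟩
  · unfold hat
    fun_prop
  · have := (abs_nonneg (z.re + z.im / √3)).trans
      (le_max_right (max |z.re - z.im / √3| |2 * z.im / √3|) _)
    linarith
  · rw [Hat.hat_eq] at hz
    obtain ⟨h1, h2, h3⟩ := Hat.h2_ne hz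
    have h := Hat.quad h1 h2 h3
    have e : (z.im / √3) ^ 2 * 3 = z.im ^ 2 := by
      rw [div_pow, Real.sq_sqrt (by norm_num)]
      ring
    rw [← sq_lt_one_iff₀ (norm_nonneg z), Complex.sq_norm, Complex.normSq_apply]
    rw [mul_div_assoc] at h
    nlinarith
  · simp only [Hat.hat_sub]
    exact Hat.pou _ _

end Vale.Agent.P153.Wick
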