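import Vale.Agent.P153.Wick.Stm

/-! Locality of the two-valued boundary condition and construction of walls. -/

open Set Filter Topology MeasureTheory Metric
open Vale.Agent.P071 (Test lap DD hh g0 Conf)

namespace Vale.Agent.P153.Wick

noncomputable section

namespace Loc

open Classical in
/-- change of the values outside `F` -/
def ch (F S : Set V) (H : Cfg) : Cfg := fun y => if y ∈ F then H y else if y ∈ S then 1 else 0

theorem ch_eq {F S : Set V} {H : Cfg} (h : H ∈ dob F S) : ch F S H = H := by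
  funext y
  unfold ch
  split_ifs with h1 h2
  · rfl
  · exact ((h.2 y h1).1 h2).symm
  · exact ((h.2 y h1).2 h2).symm

theorem ch_ch (F S S' : Set V) (H : Cfg) : ch F S (ch F S' H) = ch F S H := by
  funext y
  by_cases h : y ∈ F <;> simp [ch, h]

theorem ch_mem {F S S' : Set V} (h : ∀ y ∈ obd F, y ∈ S ↔ y ∈ S') :
    MapsTo (ch F S') (dob F S) (dob F S') := by
  classical
  intro H hH
  have key : ∀ x y, Adj x y → x ∈ F → ch F S' H y = H y := fun x y hxy hx => by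
    rw [← congrFun (ch_eq hH) y]
    by_cases hy : y ∈ F
    · simp [ch, hy]
    · simp only [ch, if_neg hy]
      exact if_congr (h y ⟨hy, x, hx, hxy.symm⟩).symm rfl rfl
  refine ⟨fun x y hxy => ?_, fun x hx => ⟨fun h => by simp [ch, hx, h], fun h => by simp [ch, hx, h]⟩⟩
  by_cases hx : x ∈ F
  · rw [key x y hxy hx, ch, if_pos hx]
    exact hH.1 x y hxy
  by_cases hy : y ∈ F
  · rw [key y x hxy.symm hy, ch, if_pos hy]
    exact hH.1 x y hxy
  simp only [ch, if_neg hx, if_neg hy]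
  split_ifs <;> simp

theorem good {F : Set V} (S : Set V) (hF : F.Finite) : Good (dob F S) := by
  classical
  refine ⟨?_, fun y => if y ∈ S then 1 else 0, fun x y _ => ?_,
    fun x _ => ⟨fun h => if_pos h, fun h => if_neg h⟩⟩
  · obtain ⟨z, hz⟩ := hF.infinite_compl.nonempty
    have := hF.to_subtype
    refine Finite.of_finite_image (f := fun H (x : F) => H x) ((Finite.pi' fun x : F =>
      finite_Icc (-(nrm (z - x) : ℤ)) (1 + nrm (z - x))).subset ?_) fun H hH H' hH' e => ?_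
    · rintro _ ⟨H, hH, rfl⟩ x
      have h1 := abs_le.1 (lip_nrm hH.1 x z)
      have h2 := hH.2 z hz
      by_cases h : z ∈ S
      · exact ⟨by linarith [h2.1 h], by linarith [h2.1 h]⟩
      · exact ⟨by linarith [h2.2 h], by linarith [h2.2 h]⟩
    · rw [← ch_eq hH, ← ch_eq hH']
      funext y
      by_cases hy : y ∈ F
      · simpa [ch, hy] using congrFun e ⟨y, hy⟩
      · simp [ch, hy]
  · simp only
    split_ifs <;> simp

end Loc

theorem s_loc : S_loc := by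
  refine ⟨fun F S => Loc.good S, fun F S S' f h hf => ?_⟩
  rw [← Ex_bij (InvOn.bijOn (f' := Loc.ch F S)
    ⟨fun H hH => (Loc.ch_ch ..).trans (Loc.ch_eq hH), fun H hH => (Loc.ch_ch ..).trans (Loc.ch_eq hH)⟩
    (Loc.ch_mem h) (Loc.ch_mem fun y hy => (h y hy).symm))]
  exact Ex_congr fun H _ => hf _ _ fun x hx => (if_pos hx).symm

theorem s_wall : S_wall := by
  intro F A B hF hob hA hB cA cB ⟨b, hb⟩ hd
  set W := {y | ∃ a ∈ A, Conn (fun _ _ => True) (Fᶜ \ B) a y}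
  have h1 : A ⊆ W := fun a ha => ⟨a, ha, Conn.rfl⟩
  have h2 : W ⊆ Fᶜ \ B := fun y ⟨a, ha, h⟩ => h.mem ⟨hA ha, disjoint_left.1 hd ha⟩
  have h3 : B ⊆ Fᶜ \ W := fun y hy => ⟨hB hy, fun h => (h2 h).2 hy⟩
  have h4 : ∀ y ∈ Fᶜ \ W, ∃ c ∈ B, Conn (fun _ _ => True) (Fᶜ \ W) y c := fun y hy => by
    by_cases h : y ∈ B
    · exact ⟨y, h, Conn.rfl⟩
    obtain ⟨u, v, a1, a2, -, a3, -, -, a4, -⟩ :=
      (hF.2 y hy.1 b (hB hb)).exit (B := Bᶜ) h (not_not.2 hb)
    have h5 : ∀ z, Conn (fun _ _ => True) (Fᶜ ∩ Bᶜ) y z → z ∉ W := fun z hz ⟨a, ha, h⟩ =>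
      hy.2 ⟨a, ha, h.trans (hz.symm fun _ _ => id)⟩
    exact ⟨v, not_not.1 a4, (a1.cluster.monoA (A' := Fᶜ \ W) fun z hz =>
      ⟨hz.1.1, h5 z hz.2⟩).tail a2 trivial ⟨a3, h5 u a1⟩ (h3 (not_not.1 a4))⟩
  refine ⟨W, h1, fun y hy => (h2 hy).1, disjoint_left.2 fun y hy => (h2 hy).2, ?_,
    fun y hy y' hy' => ?_, fun x R hx ⟨a, a1, a2⟩ y hy => ?_⟩
  · rintro y ⟨a, ha, h⟩ y' ⟨a', ha', h'⟩
    exact ((h.cluster.monoA (A' := W) fun z hz => ⟨a, ha, hz.2⟩).symm fun _ _ => id).trans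
      (((cA a ha a' ha').monoA h1).trans (h'.cluster.monoA fun z hz => ⟨a', ha', hz.2⟩))
  · obtain ⟨c, hc, h⟩ := h4 y hy
    obtain ⟨c', hc', h'⟩ := h4 y' hy'
    exact h.trans (((cB c hc c' hc').monoA h3).trans (h'.symm fun _ _ => id))
  · by_contra hn
    obtain ⟨u, v, -, b1, -, b2, b3, -, b4, -⟩ := (((conn_hex hy.2).symm fun _ _ => id).trans
      (conn_hex a1)).exit (B := Fᶜ \ W) ⟨hy.1, hn⟩ fun h => h.2 (h1 a2)
    have h5 := disjoint_left.1 hx b2
    by_cases hv : v ∈ F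
    · exact (hob ⟨b3.1, v, hv, b1⟩).elim (fun h => b3.2 (h1 h)) h5
    · have h6 : v ∈ W := not_not.1 fun h => b4 ⟨hv, h⟩
      obtain ⟨c, hc, h⟩ := id h6
      exact b3.2 ⟨c, hc, h.tail b1.symm trivial (h2 h6) ⟨b3.1, h5⟩⟩

end

end Vale.Agent.P153.Wick
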