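import Vale.Agent.P153.Wick.Stm

open Set Filter Topology MeasureTheory Metric
open Vale.Agent.P071 (Test lap DD hh g0 Conf)

namespace Vale.Agent.P153.Wick

namespace Wt

variable {δ : ℝ} {f : ℂ → ℝ}

theorem near (h2 : S_hat) (hδ : 0 < δ) {z : ℂ} {x : V} (h : hat (z / δ - emb x) ≠ 0) :
    ‖z - δ * emb x‖ < δ := by
  have h1 := h2.2.2.1 _ h
  have hδ' : (δ : ℂ) ≠ 0 := by exact_mod_cast hδ.ne'
  have e : z - δ * emb x = δ * (z / δ - emb x) := by field_simp
  rw [e, norm_mul, Complex.norm_real, Real.norm_of_nonneg hδ.le]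
  nlinarith

theorem exT (h1 : S_emb) (h2 : S_hat) (hδ : 0 < δ) (hf : HasCompactSupport f) :
    ∃ T : Finset V, ∀ z x, f z ≠ 0 → hat (z / δ - emb x) ≠ 0 → x ∈ T := by
  obtain ⟨R, hR⟩ := hf.isCompact.isBounded.exists_norm_le
  obtain ⟨N, hN⟩ := exists_nat_ge (6 / 5 * (R / δ + 1))
  refine ⟨(hex_finite 0 N).toFinset, fun z x hz hx => ?_⟩
  rw [Set.Finite.mem_toFinset]
  have a1 := hR z (subset_tsupport f hz)
  have a2 := near h2 hδ hx
  have a3 : ‖(δ : ℂ) * emb x‖ ≤ ‖z‖ + ‖z - δ * emb x‖ := by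
    have : (δ : ℂ) * emb x = z - (z - δ * emb x) := by ring
    calc ‖(δ : ℂ) * emb x‖ = ‖z - (z - δ * emb x)‖ := congrArg _ this
      _ ≤ _ := norm_sub_le _ _
  rw [norm_mul, Complex.norm_real, Real.norm_of_nonneg hδ.le] at a3
  have a4 : ‖emb x‖ ≤ R / δ + 1 := by
    rw [div_add_one hδ.ne', le_div_iff₀ hδ]
    linarith
  have a5 := (h1.2.2.1 x).2
  have a6 : (nrm x : ℝ) ≤ N := by linarith
  change nrm (x - 0) ≤ N
  rw [sub_zero]
  exact_mod_cast a6

theorem cont (h2 : S_hat) (x : V) : Continuous fun z : ℂ => hat (z / δ - emb x) :=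
  h2.1.comp ((continuous_id.div_const _).sub continuous_const)

theorem integ (h2 : S_hat) (hc : Continuous f) (hf : HasCompactSupport f) (x : V) :
    Integrable fun z : ℂ => hat (z / δ - emb x) * f z :=
  ((cont h2 x).mul hc).integrable_of_hasCompactSupport hf.mul_left

theorem zero_off {T : Finset V} (hT : ∀ z x, f z ≠ 0 → hat (z / δ - emb x) ≠ 0 → x ∈ T) {x : V}
    (hx : x ∉ T) : ∫ z : ℂ, hat (z / δ - emb x) * f z = 0 := by
  have : (fun z : ℂ => hat (z / δ - emb x) * f z) = fun _ => 0 := by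
    funext z
    by_contra hne
    exact hx (hT z x (right_ne_zero_of_mul hne) (left_ne_zero_of_mul hne))
  rw [this, integral_zero]

theorem app (h1 : S_emb) (h2 : S_hat) (hδ : 0 < δ) (hf : HasCompactSupport f) (x : V) :
    wt δ f x = ∫ z : ℂ, hat (z / δ - emb x) * f z := by
  obtain ⟨T, hT⟩ := exT h1 h2 hδ hf
  have hfin : (Function.support fun x : V => ∫ z : ℂ, hat (z / δ - emb x) * f z).Finite :=
    T.finite_toSet.subset fun x hx => by
      by_contra hn
      exact hx (zero_off hT hn)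
  unfold wt
  rw [dif_pos hfin]
  rfl

theorem sumf (h1 : S_emb) (h2 : S_hat) (hδ : 0 < δ) (hc : Continuous f)
    (hf : HasCompactSupport f) (h : V → ℝ) :
    ∫ z : ℂ, (∑ᶠ x : V, h x * hat (z / δ - emb x)) * f z = (wt δ f).sum fun x c => c * h x := by
  obtain ⟨T, hT⟩ := exT h1 h2 hδ hf
  have e1 : ∀ z : ℂ, (∑ᶠ x : V, h x * hat (z / δ - emb x)) * f z =
      ∑ x ∈ T, hat (z / δ - emb x) * f z * h x := by
    intro z
    by_cases hz : f z = 0
    · simp [hz]
    · rw [finsum_eq_sum_of_support_subset (s := T) _ fun x hx =>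
        hT z x hz (right_ne_zero_of_mul hx), Finset.sum_mul]
      exact Finset.sum_congr rfl fun x _ => by ring
  have e2 : (wt δ f).support ⊆ T := fun x hx => by
    by_contra hn
    rw [Finsupp.mem_support_iff, app h1 h2 hδ hf] at hx
    exact hx (zero_off hT hn)
  simp only [e1]
  rw [integral_finsetSum _ fun x _ => (integ h2 hc hf x).mul_const _,
    Finsupp.sum_of_support_subset _ e2 (fun x c => c * h x) fun x _ => zero_mul _]
  exact Finset.sum_congr rfl fun x _ => by rw [integral_mul_const, app h1 h2 hδ hf]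

theorem bound (h2 : S_hat) (hδ : 0 < δ) (x : V) (u : ℂ → ℝ) {B : ℝ}
    (hu : ∀ z, ‖z - δ * emb x‖ < δ → |u z| ≤ B) :
    |∫ z : ℂ, hat (z / δ - emb x) * u z| ≤ 4 * B * δ ^ 2 := by
  have hB : 0 ≤ B := (abs_nonneg _).trans (hu (δ * emb x) (by simpa using hδ))
  have e1 : ∫ z in ball ((δ : ℂ) * emb x) δ, hat (z / δ - emb x) * u z =
      ∫ z : ℂ, hat (z / δ - emb x) * u z := by
    refine setIntegral_eq_integral_of_forall_compl_eq_zero fun z hz => ?_
    by_contra hne
    exact hz (mem_ball_iff_norm.2 (near h2 hδ (left_ne_zero_of_mul hne)))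
  have e2 : ‖∫ z in ball ((δ : ℂ) * emb x) δ, hat (z / δ - emb x) * u z‖ ≤
      B * volume.real (ball ((δ : ℂ) * emb x) δ) := by
    refine norm_setIntegral_le_of_norm_le_const measure_ball_lt_top fun z hz => ?_
    rw [Real.norm_eq_abs, abs_mul, abs_of_nonneg (h2.2.1 _).1]
    have := hu z (mem_ball_iff_norm.1 hz)
    have := (h2.2.1 (z / δ - emb x)).2
    have := (h2.2.1 (z / δ - emb x)).1
    have := abs_nonneg (u z)
    nlinarith
  have e3 : volume.real (ball ((δ : ℂ) * emb x) δ) = δ ^ 2 * Real.pi := by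
    rw [Measure.real, Complex.volume_ball, ENNReal.toReal_mul, ENNReal.toReal_pow,
      ENNReal.toReal_ofReal hδ.le]
    rfl
  rw [e1, e3, Real.norm_eq_abs] at e2
  have e4 : B * (δ ^ 2 * Real.pi) ≤ B * (δ ^ 2 * 4) :=
    mul_le_mul_of_nonneg_left (mul_le_mul_of_nonneg_left Real.pi_le_four (sq_nonneg _)) hB
  linarith

theorem ihat (h2 : S_hat) (hδ : 0 < δ) (x : V) :
    Integrable fun z : ℂ => hat (z / δ - emb x) := by
  refine (cont h2 x).integrable_of_hasCompactSupport
    (HasCompactSupport.intro (isCompact_closedBall ((δ : ℂ) * emb x) δ) fun z hz => ?_)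
  by_contra hne
  exact hz (mem_closedBall_iff_norm.2 (near h2 hδ hne).le)

theorem scal (δ : ℝ) (x : V) :
    ∫ z : ℂ, hat (z / δ - emb x) = (∫ z, hat z) * δ ^ 2 := by
  have e1 : (fun z : ℂ => hat (z / δ - emb x)) =
      fun z : ℂ => (fun w => hat (w - emb x)) (δ⁻¹ • z) := by
    funext z
    have : z / δ = δ⁻¹ • z := by
      rw [Complex.real_smul, Complex.ofReal_inv, div_eq_inv_mul]
    rw [this]
  rw [e1, Measure.integral_comp_inv_smul volume (fun w => hat (w - emb x)) δ,
    integral_sub_right_eq_self hat, Complex.finrank_real_complex, abs_of_nonneg (sq_nonneg δ),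
    smul_eq_mul, mul_comm]

end Wt

theorem s_wt (he : S_emb) (hh : S_hat) : S_wt := by
  intro δ f hδ hf
  have hc : Continuous f := hf.continuous
  have hk : HasCompactSupport f := hf.2.1
  have hδ' : (δ : ℂ) ≠ 0 := by exact_mod_cast hδ.ne'
  refine ⟨Wt.app he hh hδ hk, ?_, ?_, ?_, ?_, ?_, ?_, ?_, ?_, ?_⟩
  · have h := Wt.sumf he hh hδ hc hk fun _ => 1
    simp only [one_mul, mul_one, hh.2.2.2] at h
    exact h.symm
  · intro x hx
    by_contra hn
    apply hx
    rw [Wt.app he hh hδ hk]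
    have : (fun z : ℂ => hat (z / δ - emb x) * f z) = fun _ => 0 := by
      funext z
      by_contra hne
      exact hn ⟨z, right_ne_zero_of_mul hne, Wt.near hh hδ (left_ne_zero_of_mul hne)⟩
    rw [this, integral_zero]
  · intro A hA x
    rw [Wt.app he hh hδ hk]
    exact Wt.bound hh hδ x f fun z _ => hA z
  · intro h0 x
    rw [Wt.app he hh hδ hk]
    exact integral_nonneg fun z => mul_nonneg (hh.2.1 _).1 (h0 z)
  · intro g hg
    ext x
    rw [Finsupp.add_apply, Wt.app he hh hδ hk, Wt.app he hh hδ hg.2.1,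
      Wt.app he hh hδ (hf.add hg).2.1,
      ← integral_add (Wt.integ hh hc hk x) (Wt.integ hh hg.continuous hg.2.1 x)]
    simp only [mul_add]
  · intro t
    ext x
    rw [Finsupp.smul_apply, Wt.app he hh hδ hk, Wt.app he hh hδ (hf.const_mul t).2.1,
      smul_eq_mul, ← integral_const_mul]
    simp only [mul_left_comm]
  · intro v H
    have hk' : HasCompactSupport fun z => f (z - δ * emb v) :=
      hk.comp_homeomorph (Homeomorph.subRight ((δ : ℂ) * emb v))
    have e : (wt δ fun z => f (z - δ * emb v)) = Finsupp.equivMapDomain (tr v) (wt δ f) := by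
      ext x
      have e1 : (tr v).symm x = x - v := by
        rw [Equiv.symm_apply_eq]
        exact (sub_add_cancel x v).symm
      rw [Finsupp.equivMapDomain_apply, e1, Wt.app he hh hδ hk, Wt.app he hh hδ hk',
        ← integral_sub_right_eq_self (fun z : ℂ => hat (z / δ - emb (x - v)) * f z) (δ * emb v)]
      refine integral_congr_ae (Eventually.of_forall fun z => ?_)
      have e2 : (z - δ * emb v) / δ - emb (x - v) = z / δ - emb x := by
        rw [he.2.1]
        field_simp
        ring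
      simp only [e2]
    rw [e]
    unfold lin
    rw [Finsupp.sum_equivMapDomain]
    rfl
  · intro x B hB
    rw [Wt.app he hh hδ hk, ← Wt.scal δ x, ← integral_mul_const,
      ← integral_sub (Wt.integ hh hc hk x) ((Wt.ihat hh hδ x).mul_const _)]
    simp only [← mul_sub]
    exact Wt.bound hh hδ x (fun z => f z - f (δ * emb x)) hB
  · intro L h hL
    unfold LDom.field
    rw [setIntegral_eq_integral_of_forall_compl_eq_zero fun z hz => by
      have : f z = 0 := by
        by_contra hne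
        exact hz (hL z hne)
      rw [this, mul_zero]]
    exact Wt.sumf he hh hδ hc hk fun x => h x

end Vale.Agent.P153.Wick
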