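import Vale.Agent.P153.Wick.Stm

/-! P153, field part: the boundary curve of a lattice domain. -/

open Set Filter Topology MeasureTheory Metric
open Vale.Agent.P071 (Test lap DD hh g0 Conf)

namespace Vale.Agent.P153.Wick

namespace Ld1

/-- the polygonal line at unit speed -/
noncomputable def pl (p : ℕ → ℂ) (u : ℝ) : ℂ :=
  p ⌊u⌋₊ + ((Int.fract u : ℝ) : ℂ) * (p (⌊u⌋₊ + 1) - p ⌊u⌋₊)

theorem pl_nat (p : ℕ → ℂ) (i : ℕ) : pl p i = p i := by simp [pl]

theorem pl_eq (p : ℕ → ℂ) (i : ℕ) {u : ℝ} (hu : u ∈ Icc (i : ℝ) (i + 1)) :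
    pl p u = p i + ((u - i : ℝ) : ℂ) * (p (i + 1) - p i) := by
  rcases hu.2.eq_or_lt with h | h
  · have e : u = ((i + 1 : ℕ) : ℝ) := by rw [h, Nat.cast_succ]
    rw [e, pl_nat]
    simp
  · have h0 : (0 : ℝ) ≤ u := (Nat.cast_nonneg i).trans hu.1
    have e1 : ⌊u⌋₊ = i := (Nat.floor_eq_iff h0).2 ⟨hu.1, h⟩
    have e2 : Int.fract u = u - i := by
      rw [Int.fract, ← natCast_floor_eq_intCast_floor h0, e1]
    rw [pl, e1, e2]

theorem pl_cont (p : ℕ → ℂ) (n : ℕ) : ContinuousOn (pl p) (Icc 0 n) := by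
  induction n with
  | zero => simp
  | succ n ih =>
    have h1 : ContinuousOn (pl p) (Icc (n : ℝ) (n + 1)) :=
      ContinuousOn.congr (f := fun u : ℝ => p n + ((u - n : ℝ) : ℂ) * (p (n + 1) - p n))
        (by fun_prop) fun u hu => pl_eq p n hu
    rw [Nat.cast_succ, ← Icc_union_Icc_eq_Icc (Nat.cast_nonneg n) (le_add_of_nonneg_right zero_le_one)]
    exact ih.union_of_isClosed h1 isClosed_Icc isClosed_Icc

theorem piece {n : ℕ} (hn : 0 < n) {u : ℝ} (hu : u ∈ Icc (0 : ℝ) n) :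
    ∃ i < n, u ∈ Icc (i : ℝ) (i + 1) := by
  rcases hu.2.eq_or_lt with h | h
  · obtain ⟨m, rfl⟩ := Nat.exists_eq_add_one_of_ne_zero hn.ne'
    refine ⟨m, Nat.lt_succ_self m, ?_⟩
    rw [h, Nat.cast_succ]
    exact ⟨by linarith, le_rfl⟩
  · exact ⟨⌊u⌋₊, (Nat.floor_lt hu.1).2 h, Nat.floor_le hu.1, (Nat.lt_floor_add_one u).le⟩

theorem norm_adj {a b : V} (h : Adj a b) : ‖emb b - emb a‖ = 1 := by
  have h3 : (√3 : ℝ) * √3 = 3 := Real.mul_self_sqrt (by norm_num)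
  have e : Complex.normSq (emb b - emb a) =
      ((b.1 : ℝ) - a.1) ^ 2 + ((b.1 : ℝ) - a.1) * (b.2 - a.2) + ((b.2 : ℝ) - a.2) ^ 2 := by
    simp only [Complex.normSq_apply, emb, Complex.sub_re, Complex.add_re, Complex.mul_re,
      Complex.sub_im, Complex.add_im, Complex.mul_im, Complex.intCast_re, Complex.intCast_im]
    linear_combination (((b.2 : ℝ) - a.2) ^ 2 / 4) * h3
  have e2 : Complex.normSq (emb b - emb a) = 1 := by
    rw [e]
    rcases adj_iff.1 h with h | h | h | h | h | h <;> rw [h.1, h.2] <;> push_cast <;> ring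
  rw [Complex.norm_def, e2, Real.sqrt_one]

theorem ray {C : Set ℂ} {z z' : ℂ} {r : ℝ} (hr : 0 ≤ r) (hC : C ⊆ closedBall z r)
    (hb : Bornology.IsBounded (connectedComponentIn Cᶜ z')) : z' ∈ closedBall z r := by
  by_contra hz
  rw [mem_closedBall, dist_eq_norm, not_le] at hz
  have h0 : 0 < ‖z' - z‖ := hr.trans_lt hz
  have hn : ∀ s : ℝ, 1 ≤ s → dist (z + (s : ℂ) * (z' - z)) z = s * ‖z' - z‖ := by
    intro s hs
    rw [dist_eq_norm, add_sub_cancel_left, norm_mul, Complex.norm_real, Real.norm_eq_abs,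
      abs_of_nonneg (zero_le_one.trans hs)]
  have hp : IsPreconnected ((fun s : ℝ => z + (s : ℂ) * (z' - z)) '' Ici 1) :=
    isPreconnected_Ici.image _ (by fun_prop)
  have hs := hp.subset_connectedComponentIn (x := z') (F := Cᶜ) ⟨1, self_mem_Ici, by simp⟩ (by
    rintro _ ⟨s, hs, rfl⟩ h
    have h1 := hC h
    rw [mem_closedBall, hn s hs] at h1
    have h2 : 1 ≤ s := hs
    nlinarith)
  obtain ⟨R, hR⟩ := (hb.subset hs).subset_closedBall z
  have h1 : (1 : ℝ) ≤ |R| / ‖z' - z‖ + 1 := le_add_of_nonneg_left (by positivity)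
  have h2 := hR ⟨_, h1, rfl⟩
  rw [mem_closedBall, hn _ h1, add_mul, div_mul_cancel₀ _ h0.ne'] at h2
  linarith [le_abs_self R]

end Ld1

open Ld1 in
theorem s_ld1 : S_ld1 := by
  intro L
  have hN : 0 < L.N := lt_of_lt_of_le (by norm_num) L.three
  have hN' : (0 : ℝ) < L.N := Nat.cast_pos.2 hN
  have e : L.bd = fun t => pl (fun i => emb (L.β i)) (L.N * t) := rfl
  have hm : ∀ t ∈ Icc (0 : ℝ) 1, (L.N : ℝ) * t ∈ Icc (0 : ℝ) L.N := fun t ht =>
    ⟨mul_nonneg hN'.le ht.1, mul_le_of_le_one_right hN'.le ht.2⟩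
  refine ⟨?_, fun i _ => ?_, fun t ht => ?_, fun z r h z' hz' => ?_⟩
  · rw [e]
    exact (pl_cont _ L.N).comp (by fun_prop) hm
  · rw [e]
    simp only
    rw [mul_div_cancel₀ _ hN'.ne', pl_nat]
  · obtain ⟨i, hi, hu⟩ := piece hN (hm t ht)
    refine ⟨i, hi, ?_⟩
    rw [e]
    simp only
    rw [pl_eq _ i hu, add_sub_cancel_left, norm_mul, norm_adj (L.adj i hi), mul_one,
      Complex.norm_real, Real.norm_eq_abs, abs_le]
    exact ⟨by linarith [hu.1], by linarith [hu.2]⟩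
  · refine ray (dist_nonneg.trans (h 0 ⟨le_rfl, zero_le_one⟩)) ?_ hz'.2
    rintro _ ⟨t, ht, rfl⟩
    exact h t ht

end Vale.Agent.P153.Wick
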