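import Vale.Agent.P153.Wick.Stm

/-! P153, field part: the free sites of a lattice polygon. -/

open Set Filter Topology MeasureTheory Metric

namespace Vale.Agent.P153.Wick

namespace Ld2

theorem intA {m p q : ℤ} {s t : ℝ} (hs : s ∈ Ioo (0 : ℝ) 1) (ht : t ∈ Ioo (0 : ℝ) 1)
    (hp : |p| ≤ 1) (hq : |q| ≤ 1) (h : (m : ℝ) = s * p - t * q) :
    (p = q ∧ m = 0) ∨ (q = -p ∧ m = p) := by
  obtain ⟨hs0, hs1⟩ := hs
  obtain ⟨ht0, ht1⟩ := ht
  have key : ∀ a : ℤ, (a : ℝ) - 1 < m → (m : ℝ) < a + 1 → m = a := by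
    intro a h1 h2
    have h1' : a - 1 < m := by exact_mod_cast h1
    have h2' : m < a + 1 := by exact_mod_cast h2
    omega
  have no : ∀ a : ℤ, (a : ℝ) < m → (m : ℝ) < a + 1 → False := by
    intro a h1 h2
    have h1' : a < m := by exact_mod_cast h1
    have h2' : m < a + 1 := by exact_mod_cast h2
    omega
  rw [abs_le] at hp hq
  obtain ⟨hp0, hp1⟩ := hp
  obtain ⟨hq0, hq1⟩ := hq
  interval_cases p <;> interval_cases q <;> push_cast at h
  · exact Or.inl ⟨rfl, key 0 (by push_cast; linarith) (by push_cast; linarith)⟩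
  · exact (no (-1) (by push_cast; linarith) (by push_cast; linarith)).elim
  · exact Or.inr ⟨rfl, key (-1) (by push_cast; linarith) (by push_cast; linarith)⟩
  · exact (no 0 (by push_cast; linarith) (by push_cast; linarith)).elim
  · exact Or.inl ⟨rfl, key 0 (by push_cast; linarith) (by push_cast; linarith)⟩
  · exact (no (-1) (by push_cast; linarith) (by push_cast; linarith)).elim
  · exact Or.inr ⟨rfl, key 1 (by push_cast; linarith) (by push_cast; linarith)⟩
  · exact (no 0 (by push_cast; linarith) (by push_cast; linarith)).elim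
  · exact Or.inl ⟨rfl, key 0 (by push_cast; linarith) (by push_cast; linarith)⟩

theorem intB {m q : ℤ} {t : ℝ} (ht : t ∈ Ioo (0 : ℝ) 1) (hq : |q| ≤ 1) (h : (m : ℝ) = t * q) :
    q = 0 := by
  have := intA (m := -m) (p := 0) (q := q) ht ht (by simp) hq (by push_cast; linarith)
  omega

theorem cases01 {s : ℝ} (hs : s ∈ Icc (0 : ℝ) 1) : s = 0 ∨ s = 1 ∨ s ∈ Ioo (0 : ℝ) 1 := by
  rcases hs.1.eq_or_lt with h | h
  · exact Or.inl h.symm
  rcases hs.2.eq_or_lt with h' | h'
  · exact Or.inr (Or.inl h')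
  · exact Or.inr (Or.inr ⟨h, h'⟩)

theorem vert {x b b' : V} (hb : Adj b b') {t : ℝ} (ht : t ∈ Icc (0 : ℝ) 1)
    (h1 : (x.1 : ℝ) = b.1 + t * (b'.1 - b.1)) (h2 : (x.2 : ℝ) = b.2 + t * (b'.2 - b.2)) :
    x = b ∨ x = b' := by
  rcases cases01 ht with rfl | rfl | ht
  · left
    ext
    · exact_mod_cast (by linarith : (x.1 : ℝ) = b.1)
    · exact_mod_cast (by linarith : (x.2 : ℝ) = b.2)
  · right
    ext
    · exact_mod_cast (by linarith : (x.1 : ℝ) = b'.1)
    · exact_mod_cast (by linarith : (x.2 : ℝ) = b'.2)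
  · exfalso
    have a1 := intB (m := x.1 - b.1) (q := b'.1 - b.1) ht (lip_fst _ _ hb.symm)
      (by push_cast; linarith)
    have a2 := intB (m := x.2 - b.2) (q := b'.2 - b.2) ht (lip_snd _ _ hb.symm)
      (by push_cast; linarith)
    rw [adj_iff] at hb
    omega

theorem cross {x y b b' : V} (hxy : Adj x y) (hb : Adj b b') {s t : ℝ} (hs : s ∈ Icc (0 : ℝ) 1)
    (ht : t ∈ Icc (0 : ℝ) 1) (h1 : (x.1 : ℝ) + s * (y.1 - x.1) = b.1 + t * (b'.1 - b.1))
    (h2 : (x.2 : ℝ) + s * (y.2 - x.2) = b.2 + t * (b'.2 - b.2)) :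
    x = b ∨ x = b' ∨ y = b ∨ y = b' := by
  rcases cases01 hs with rfl | rfl | hs'
  · rcases vert (x := x) hb ht (by linarith) (by linarith) with h | h <;> tauto
  · rcases vert (x := y) hb ht (by linarith) (by linarith) with h | h <;> tauto
  rcases cases01 ht with rfl | rfl | ht'
  · rcases vert (x := b) hxy hs (by linarith) (by linarith) with h | h <;> simp [h]
  · rcases vert (x := b') hxy hs (by linarith) (by linarith) with h | h <;> simp [h]
  have a1 := intA (m := b.1 - x.1) (p := y.1 - x.1) (q := b'.1 - b.1) hs' ht'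
    (lip_fst _ _ hxy.symm) (lip_fst _ _ hb.symm) (by push_cast; linarith)
  have a2 := intA (m := b.2 - x.2) (p := y.2 - x.2) (q := b'.2 - b.2) hs' ht'
    (lip_snd _ _ hxy.symm) (lip_snd _ _ hb.symm) (by push_cast; linarith)
  have a3 := intA (m := b.1 + b.2 - (x.1 + x.2)) (p := y.1 + y.2 - (x.1 + x.2))
    (q := b'.1 + b'.2 - (b.1 + b.2)) hs' ht'
    (lip_sum _ _ hxy.symm) (lip_sum _ _ hb.symm) (by push_cast; linarith)
  rw [adj_iff] at hxy hb
  simp only [Prod.ext_iff]
  omega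

theorem coord {x y b b' : V} {s t : ℝ}
    (h : emb x + (s : ℂ) * (emb y - emb x) = emb b + (t : ℂ) * (emb b' - emb b)) :
    (x.1 : ℝ) + s * (y.1 - x.1) = b.1 + t * (b'.1 - b.1) ∧
      (x.2 : ℝ) + s * (y.2 - x.2) = b.2 + t * (b'.2 - b.2) := by
  have hr := congrArg Complex.re h
  have hi := congrArg Complex.im h
  simp [emb] at hr hi
  have h3 : (0 : ℝ) < √3 / 2 := by positivity
  have e2 : (x.2 : ℝ) + s * (y.2 - x.2) = b.2 + t * (b'.2 - b.2) := by
    apply mul_right_cancel₀ h3.ne'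
    linarith
  exact ⟨by linarith, e2⟩

variable (L : LDom)

theorem curve {z : ℂ} (hz : z ∈ L.bd '' Icc 0 1) : ∃ i < L.N, ∃ t ∈ Icc (0 : ℝ) 1,
    z = emb (L.β i) + (t : ℂ) * (emb (L.β (i + 1)) - emb (L.β i)) := by
  obtain ⟨u, ⟨hu0, hu1⟩, rfl⟩ := hz
  have hN : 0 < L.N := by have := L.three; omega
  rcases hu1.eq_or_lt with rfl | hu1
  · refine ⟨0, hN, 0, ⟨le_rfl, zero_le_one⟩, ?_⟩
    simp [LDom.bd, poly, L.closed]
  · refine ⟨⌊(L.N : ℝ) * u⌋₊, ?_, Int.fract ((L.N : ℝ) * u),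
      ⟨Int.fract_nonneg _, (Int.fract_lt_one _).le⟩, rfl⟩
    have hN' : (0 : ℝ) < L.N := by exact_mod_cast hN
    rw [Nat.floor_lt (by positivity)]
    nlinarith

theorem succ_mem {i : ℕ} (hi : i ≤ L.N) : L.β i ∈ L.β '' Iio L.N := by
  rcases hi.eq_or_lt with rfl | h
  · exact ⟨0, by have := L.three; simp only [mem_Iio]; omega, L.closed.symm⟩
  · exact ⟨i, h, rfl⟩

theorem notFr (h1 : S_ld1) {x : V} (hx : x ∈ L.β '' Iio L.N) : x ∉ Fr L := by
  obtain ⟨i, hi, rfl⟩ := hx
  intro h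
  have hN : (0 : ℝ) < L.N := by have := L.three; exact_mod_cast (by omega : 0 < L.N)
  refine h.1 ⟨i / L.N, ⟨by positivity, ?_⟩, (h1 L).2.1 i (le_of_lt hi)⟩
  rw [div_le_one hN]
  exact_mod_cast le_of_lt hi

theorem step {x y : V} (hxy : Adj x y) (hx : x ∉ L.β '' Iio L.N) (hy : y ∉ L.β '' Iio L.N)
    (h : x ∈ Fr L) : y ∈ Fr L := by
  have hsub : segment ℝ (emb x) (emb y) ⊆ (L.bd '' Icc 0 1)ᶜ := by
    intro z hz hc
    rw [segment_eq_image'] at hz
    obtain ⟨s, hs, rfl⟩ := hz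
    obtain ⟨i, hi, t, ht, e⟩ := curve L hc
    have e' : emb x + (s : ℂ) * (emb y - emb x) =
        emb (L.β i) + (t : ℂ) * (emb (L.β (i + 1)) - emb (L.β i)) := by
      rw [← e]; simp
    obtain ⟨c1, c2⟩ := coord e'
    have m0 := succ_mem L hi.le
    have m1 := succ_mem L (i := i + 1) hi
    rcases cross hxy (L.adj i hi) hs ht c1 c2 with r | r | r | r
    · exact hx (r ▸ m0)
    · exact hx (r ▸ m1)
    · exact hy (r ▸ m0)
    · exact hy (r ▸ m1)
  have hc : emb y ∈ connectedComponentIn (L.bd '' Icc 0 1)ᶜ (emb x) :=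
    (convex_segment _ _).isPreconnected.subset_connectedComponentIn (left_mem_segment _ _ _) hsub
      (right_mem_segment _ _ _)
  refine ⟨hsub (right_mem_segment _ _ _), ?_⟩
  rw [← connectedComponentIn_eq hc]
  exact h.2

theorem fin (he : S_emb) (h1 : S_ld1) : (Fr L).Finite := by
  obtain ⟨n, hn⟩ := exists_hex_of_finite ((finite_Iio L.N).image L.β) 0
  have hd := (h1 L).2.2.2 0 (n + 1) (by
    intro t ht
    obtain ⟨i, hi, h⟩ := (h1 L).2.2.1 t ht
    have a : nrm (L.β i) ≤ n := by simpa [mem_hex] using hn ⟨i, hi, rfl⟩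
    have a' : (nrm (L.β i) : ℝ) ≤ n := by exact_mod_cast a
    have b := (he.2.2.1 (L.β i)).1
    rw [mem_closedBall, dist_zero_right]
    have := norm_add_le (L.bd t - emb (L.β i)) (emb (L.β i))
    rw [sub_add_cancel] at this
    linarith)
  refine (hex_finite 0 (2 * n + 2)).subset fun x hx => ?_
  have a := hd hx
  rw [mem_closedBall, dist_zero_right] at a
  have b := (he.2.2.1 x).2
  rw [mem_hex, sub_zero]
  have : (nrm x : ℝ) ≤ (2 * n + 2 : ℕ) := by
    push_cast
    have : (0 : ℝ) ≤ n := by positivity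
    linarith
  exact_mod_cast this

theorem tsymm {A : Set V} {a b : V} (h : Conn (fun _ _ => True) A a b) :
    Conn (fun _ _ => True) A b a := h.symm fun _ _ h => h

theorem arc {a b : ℕ} (hb : b ≤ L.N) : CS (L.β '' Ico a b) := by
  have key : ∀ i j, a ≤ i → i ≤ j → j < b →
      Conn (fun _ _ => True) (L.β '' Ico a b) (L.β i) (L.β j) := by
    intro i j hi hij hj
    induction j, hij using Nat.le_induction with
    | base => exact Conn.rfl
    | succ j hij ih =>
      exact (ih (by omega)).tail (L.adj j (by omega)) trivial ⟨j, ⟨by omega, by omega⟩, rfl⟩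
        ⟨j + 1, ⟨by omega, hj⟩, rfl⟩
  rintro _ ⟨i, hi, rfl⟩ _ ⟨j, hj, rfl⟩
  rcases le_total i j with h | h
  · exact key i j hi.1 h hj.2
  · exact tsymm (key j i hj.1 h hi.2)

theorem adjR (y : V) : Adj y (y.1 + 1, y.2) := by rw [adj_iff]; simp

theorem compl (he : S_emb) (h1 : S_ld1) : CS (Fr L)ᶜ := by
  have hN : 0 < L.N := by have := L.three; omega
  obtain ⟨b, hb, hmax⟩ := Set.exists_max_image (L.β '' Iio L.N) Prod.fst
    ((finite_Iio L.N).image L.β) ⟨_, 0, hN, rfl⟩
  have far : ∀ y : V, b.1 < y.1 → y ∉ Fr L := by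
    intro y hy hF
    have all : ∀ k : ℕ, (y.1 + k, y.2) ∈ Fr L := by
      intro k
      induction k with
      | zero => simpa using hF
      | succ k ih =>
        have := step L (adjR (y.1 + k, y.2)) (fun h => by have := hmax _ h; simp at this; omega)
          (fun h => by have := hmax _ h; simp at this; omega) ih
        simpa [add_assoc] using this
    refine Set.infinite_of_injective_forall_mem (f := fun k : ℕ => (y.1 + k, y.2)) ?_ all
      (fin L he h1)
    intro k l h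
    simpa using h
  have cfar : ∀ y : V, b.1 < y.1 → Conn (fun _ _ => True) (Fr L)ᶜ y (b.1 + 1, b.2) := by
    intro y hy
    have r : Conn (fun _ _ => True) (Fr L)ᶜ (b.1 + 1, y.2) (y.1, y.2) :=
      conn_row (by omega) (fun k hk _ => far _ (by simp; omega)) fun _ _ _ => trivial
    refine (tsymm r).trans ?_
    rcases le_total y.2 b.2 with h | h
    · exact conn_col h (fun k _ _ => far _ (by simp)) fun _ _ _ => trivial
    · exact tsymm (conn_col h (fun k _ _ => far _ (by simp)) fun _ _ _ => trivial)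
  have hI : Iio L.N = Ico 0 L.N := by ext; simp
  have cB : ∀ y ∈ L.β '' Iio L.N, Conn (fun _ _ => True) (Fr L)ᶜ y (b.1 + 1, b.2) := by
    intro y hy
    have := arc L (a := 0) le_rfl y (hI ▸ hy) b (hI ▸ hb)
    rw [← hI] at this
    exact (this.monoA fun z hz => notFr L h1 hz).tail (adjR b) trivial (notFr L h1 hb)
      (far _ (by simp))
  have all : ∀ (k : ℕ) (y : V), y ∉ Fr L → b.1 < y.1 + k →
      Conn (fun _ _ => True) (Fr L)ᶜ y (b.1 + 1, b.2) := by
    intro k
    induction k with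
    | zero => exact fun y _ h => cfar y (by simpa using h)
    | succ k ih =>
      intro y hy h
      by_cases hB : y ∈ L.β '' Iio L.N
      · exact cB y hB
      have hy' : (y.1 + 1, y.2) ∉ Fr L := fun h' =>
        hy (step L (adjR y).symm (fun h'' => notFr L h1 h'' h') hB h')
      exact Conn.head (adjR y) trivial hy hy' (ih _ hy' (by push_cast at h; simp; omega))
  intro y hy y' hy'
  exact (all (b.1 - y.1 + 1).toNat y hy (by omega)).trans
    (tsymm (all (b.1 - y'.1 + 1).toNat y' hy' (by omega)))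

end Ld2

theorem s_ld2 (he : S_emb) (h1 : S_ld1) : S_ld2 := by
  intro L
  have hk := L.k_lt
  have hP : arcP L ⊆ L.β '' Iio L.N := image_mono fun i hi => lt_trans hi hk
  have hM : arcM L ⊆ L.β '' Iio L.N := image_mono fun i hi => hi.2
  refine ⟨⟨Ld2.fin L he h1, Ld2.compl L he h1⟩, ?_, fun x hx => Ld2.notFr L h1 (hP hx),
    fun x hx => Ld2.notFr L h1 (hM hx), ?_, Ld2.arc L le_rfl, ?_⟩
  · rintro y ⟨hy, x, hx, hxy⟩
    by_contra hc
    refine hy (Ld2.step L hxy.symm (fun h => Ld2.notFr L h1 h hx) ?_ hx)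
    rintro ⟨i, hi, rfl⟩
    rcases lt_or_ge i L.k with h | h
    · exact hc (Or.inl ⟨i, h, rfl⟩)
    · exact hc (Or.inr ⟨i, ⟨h, hi⟩, rfl⟩)
  · have hI : Iio L.k = Ico 0 L.k := by ext; simp
    rw [arcP, hI]
    exact Ld2.arc L hk.le
  · rw [Set.disjoint_left]
    rintro _ ⟨i, hi, rfl⟩ ⟨j, hj, e⟩
    have := L.inj hj.2 (lt_trans hi hk : i < L.N) e
    have := hj.1
    have : i < L.k := hi
    omega

end Vale.Agent.P153.Wick
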