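import Vale.Agent.P153.Wick.Stm

/-! P153, field part: the heights of a lattice polygon as a two-valued boundary condition. -/

open Set Filter Topology MeasureTheory Metric
open Vale.Agent.P071 (Test lap DD hh g0 Conf)

namespace Vale.Agent.P153.Wick

namespace Bij

/-- Odd heights on `W`, plus one on `A`, minus one on `B`. -/
def T (W A B : Set V) : Set (V → ℤ) :=
  {h | (∀ x ∈ W, Odd (h x)) ∧ (∀ x, x ∉ W → h x = 0) ∧ (∀ x ∈ A, h x = 1) ∧ (∀ x ∈ B, h x = -1) ∧
    ∀ x ∈ W, ∀ y ∈ W, Adj x y → |h x - h y| = 0 ∨ |h x - h y| = 2}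

open Classical in
theorem main {F A B W : Set V} (hW : ∀ x, x ∈ W ↔ x ∈ F ∨ x ∈ A ∨ x ∈ B) (ho : obd F ⊆ A ∪ B)
    (hA : A ⊆ Fᶜ) (hB : B ⊆ Fᶜ) (hd : Disjoint A B) :
    BijOn (fun (H : Cfg) x => if x ∈ W then 2 * H x - 1 else 0) (dob F A) (T W A B) := by
  refine ⟨?_, ?_, ?_⟩
  · rintro H ⟨h1, h2⟩
    refine ⟨fun x hx => ?_, fun x hx => if_neg hx, fun x hx => ?_, fun x hx => ?_,
      fun x hx y hy hxy => ?_⟩
    · simp only [if_pos hx]
      exact ⟨H x - 1, by ring⟩
    · simp only [if_pos ((hW x).2 (Or.inr (Or.inl hx))), (h2 x (hA hx)).1 hx]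
      rfl
    · simp only [if_pos ((hW x).2 (Or.inr (Or.inr hx))),
        (h2 x (hB hx)).2 (Set.disjoint_right.1 hd hx)]
      rfl
    · simp only [if_pos hx, if_pos hy]
      have := abs_le.1 (h1 x y hxy)
      rw [abs_eq_zero, abs_eq (by norm_num)]
      omega
  · rintro H ⟨-, h2⟩ H' ⟨-, h2'⟩ e
    funext x
    have ex := congrFun e x
    by_cases hx : x ∈ W
    · simp only [if_pos hx] at ex
      omega
    · have n1 : x ∉ F := fun h => hx ((hW x).2 (Or.inl h))
      have n2 : x ∉ A := fun h => hx ((hW x).2 (Or.inr (Or.inl h)))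
      rw [(h2 x n1).2 n2, (h2' x n1).2 n2]
  · rintro h ⟨h1, h2, h3, h4, h5⟩
    have out : ∀ x, x ∉ F → (x ∈ A → (if x ∈ W then (h x + 1) / 2 else 0) = 1) ∧
        (x ∉ A → (if x ∈ W then (h x + 1) / 2 else 0) = 0) := by
      intro x hx
      refine ⟨fun a => ?_, fun a => ?_⟩
      · rw [if_pos ((hW x).2 (Or.inr (Or.inl a))), h3 x a]
        rfl
      · split_ifs with w
        · rw [h4 x ((((hW x).1 w).resolve_left hx).resolve_left a)]
          rfl
        · rfl
    have nb : ∀ x ∈ F, ∀ y, Adj x y → y ∈ W := by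
      intro x hx y hxy
      by_cases hy : y ∈ F
      · exact (hW y).2 (Or.inl hy)
      · exact (hW y).2 (Or.inr (ho ⟨hy, x, hx, hxy.symm⟩))
    refine ⟨fun x => if x ∈ W then (h x + 1) / 2 else 0, ⟨fun x y hxy => ?_, out⟩, ?_⟩
    · by_cases w : x ∈ W ∧ y ∈ W
      · simp only [if_pos w.1, if_pos w.2]
        have a1 := Int.odd_iff.1 (h1 x w.1)
        have a2 := Int.odd_iff.1 (h1 y w.2)
        have a3 := h5 x w.1 y w.2 hxy
        rw [abs_eq_zero, abs_eq (by norm_num)] at a3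
        rw [abs_le]
        omega
      · have nx : x ∉ F := fun a => w ⟨(hW x).2 (Or.inl a), nb x a y hxy⟩
        have ny : y ∉ F := fun a => w ⟨nb y a x hxy.symm, (hW y).2 (Or.inl a)⟩
        have two : ∀ z, z ∉ F → (if z ∈ W then (h z + 1) / 2 else 0) = 1 ∨
            (if z ∈ W then (h z + 1) / 2 else 0) = 0 := fun z hz =>
          (_root_.em (z ∈ A)).imp (out z hz).1 (out z hz).2
        show |(if x ∈ W then (h x + 1) / 2 else 0) - if y ∈ W then (h y + 1) / 2 else 0| ≤ 1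
        rcases two x nx with a | a <;> rcases two y ny with b | b <;> rw [a, b] <;> norm_num
    · funext x
      by_cases w : x ∈ W
      · simp only [if_pos w]
        have a1 := Int.odd_iff.1 (h1 x w)
        omega
      · simp only [if_neg w, h2 x w]

theorem vert (L : LDom) (x : V) : x ∈ L.vert ↔ x ∈ Fr L ∨ x ∈ arcP L ∨ x ∈ arcM L := by
  refine or_congr Iff.rfl ⟨?_, ?_⟩
  · rintro ⟨i, hi, rfl⟩
    rcases lt_or_ge i L.k with h | h
    · exact Or.inl ⟨i, h, rfl⟩
    · exact Or.inr ⟨i, ⟨h, hi⟩, rfl⟩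
  · rintro (⟨i, hi, rfl⟩ | ⟨i, hi, rfl⟩)
    · exact ⟨i, lt_trans hi L.k_lt, rfl⟩
    · exact ⟨i, hi.2, rfl⟩

end Bij

theorem s_bij (h2 : S_ld2) : S_bij := by
  classical
  intro L ε hε
  obtain ⟨-, ho, hP, hM, -, -, hd⟩ := h2 L
  refine ⟨fun H x => if x ∈ L.vert then 2 * H x - 1 else 0, ?_,
    fun H x hx => if_pos ((Bij.vert L x).2 (Or.inl hx))⟩
  rcases hε with rfl | rfl
  · have e : L.Hts 1 = Bij.T L.vert (arcP L) (arcM L) := by
      ext h
      simp only [LDom.Hts, Bij.T, arcP, arcM, mem_ofPred_eq, forall_mem_image, mem_Iio, mem_Ico,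
        and_imp]
    rw [e, Sp, if_pos rfl]
    exact Bij.main (Bij.vert L) ho hP hM hd
  · have e : L.Hts (-1) = Bij.T L.vert (arcM L) (arcP L) := by
      ext h
      simp only [LDom.Hts, Bij.T, arcP, arcM, mem_ofPred_eq, forall_mem_image, mem_Iio, mem_Ico,
        and_imp, neg_neg]
      tauto
    rw [e, Sp, if_neg (by norm_num)]
    exact Bij.main (fun x => (Bij.vert L x).trans (by tauto)) (ho.trans (union_comm _ _).subset)
      hM hP hd.symm

end Vale.Agent.P153.Wick
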