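import Vale.Agent.P153.Wick.Stm

/-! P153, field part: the two arcs seen in the disc. -/

open Set Filter Topology MeasureTheory Metric
open Vale.Agent.P071 (Test lap DD hh g0 Conf)

namespace Vale.Agent.P153.Wick

noncomputable section

namespace Arc

/-- The parametrisation of the circle. -/
def cir (t : ℝ) : ℂ := Complex.exp (Real.pi * Complex.I * (1 - 2 * t))

theorem cir_eq (t : ℝ) : cir t = Complex.exp ((Real.pi * (1 - 2 * t) : ℝ) * Complex.I) := by
  unfold cir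
  congr 1
  push_cast
  ring

theorem cir_re (t : ℝ) : (cir t).re = Real.cos (Real.pi * (1 - 2 * t)) := by
  rw [cir_eq, Complex.exp_ofReal_mul_I_re]

theorem cir_im (t : ℝ) : (cir t).im = Real.sin (Real.pi * (1 - 2 * t)) := by
  rw [cir_eq, Complex.exp_ofReal_mul_I_im]

theorem cir_mem (t : ℝ) : cir t ∈ closedBall (0 : ℂ) 1 := by
  rw [mem_closedBall_zero_iff, cir_eq, Complex.norm_exp_ofReal_mul_I]

theorem cir_zero : cir 0 = -1 := by simp [cir]

theorem cir_surj {ζ : ℂ} (h : ζ ∈ sphere (0 : ℂ) 1) : ∃ t : unitInterval, cir t = ζ := by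
  have h1 := Real.pi_pos
  have h2 := Complex.neg_pi_lt_arg ζ
  have h3 := Complex.arg_le_pi ζ
  have h4 : Complex.arg ζ / Real.pi ≤ 1 := (div_le_one h1).2 h3
  have h5 : -1 ≤ Complex.arg ζ / Real.pi := by
    rw [le_div_iff₀ h1]
    linarith
  refine ⟨⟨(1 - Complex.arg ζ / Real.pi) / 2, by linarith, by linarith⟩, ?_⟩
  have h6 : Real.pi * (1 - 2 * ((1 - Complex.arg ζ / Real.pi) / 2)) = Complex.arg ζ := by
    field_simp
    ring
  have h7 := Complex.norm_mul_exp_arg_mul_I ζ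
  rw [mem_sphere_zero_iff_norm.1 h, Complex.ofReal_one, one_mul] at h7
  rw [cir_eq, h6, h7]

theorem angle {a b : ℝ} (ha : |a| ≤ Real.pi) (hb : |b| ≤ Real.pi) (h : Real.cos a < Real.cos b)
    (h' : Real.sin a ≠ 0) : b < a ↔ 0 < Real.sin a := by
  have h1 : |b| < |a| := by
    by_contra h2
    have h3 := Real.cos_le_cos_of_nonneg_of_le_pi (abs_nonneg a) hb (not_lt.1 h2)
    rw [Real.cos_abs, Real.cos_abs] at h3
    linarith
  have h2 := abs_lt.1 h1
  rcases le_total 0 a with h3 | h3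
  · rw [abs_of_nonneg h3] at h2 ha
    exact iff_of_true h2.2
      (lt_of_le_of_ne (Real.sin_nonneg_of_nonneg_of_le_pi h3 ha) (Ne.symm h'))
  · rw [abs_of_nonpos h3] at h2 ha
    exact iff_of_false (by linarith [h2.1])
      (not_lt.2 (Real.sin_nonpos_of_nonpos_of_neg_pi_le h3 (by linarith)))

theorem abs_angle (t : unitInterval) : |Real.pi * (1 - 2 * (t : ℝ))| ≤ Real.pi := by
  have h1 := Real.pi_pos
  have h2 := t.2.1
  have h3 := t.2.2
  rw [abs_le]
  constructor <;> nlinarith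

theorem key {τ : ℝ} (hτ : 0 < τ) {ζ : ℂ} (h : ζ ∈ sphere (0 : ℂ) 1) (h1 : τ ≤ ‖ζ - 1‖)
    (h2 : τ ≤ ‖ζ + 1‖) {s t : unitInterval} (hs : dist (cir s) ζ ≤ τ ^ 2 / 8)
    (ht : dist (cir t) 1 ≤ τ ^ 2 / 8) : s < t ↔ 0 < ζ.im := by
  have a0 : ζ.re ^ 2 + ζ.im ^ 2 = 1 := by
    have := Complex.sq_norm ζ
    rw [mem_sphere_zero_iff_norm.1 h, Complex.normSq_apply] at this
    nlinarith
  have a1 : τ ^ 2 ≤ 2 - 2 * ζ.re := by
    have k1 := pow_le_pow_left₀ hτ.le h1 2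
    rw [Complex.sq_norm, Complex.normSq_apply] at k1
    simp only [Complex.sub_re, Complex.one_re, Complex.sub_im, Complex.one_im] at k1
    nlinarith
  have a2 : τ ^ 2 ≤ 2 + 2 * ζ.re := by
    have k1 := pow_le_pow_left₀ hτ.le h2 2
    rw [Complex.sq_norm, Complex.normSq_apply] at k1
    simp only [Complex.add_re, Complex.one_re, Complex.add_im, Complex.one_im] at k1
    nlinarith
  have a3 : 0 < τ ^ 2 := by positivity
  have a4 : τ ^ 2 / 2 ≤ |ζ.im| := by
    refine abs_le_of_sq_le_sq' ?_ (abs_nonneg _) |>.2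
    rw [sq_abs]
    have := mul_le_mul a1 a2 a3.le (a3.le.trans a1)
    nlinarith
  rw [dist_eq_norm] at hs ht
  have b1 := abs_le.1 ((Complex.abs_re_le_norm _).trans hs)
  have b2 := abs_le.1 ((Complex.abs_im_le_norm _).trans hs)
  have b3 := abs_le.1 ((Complex.abs_re_le_norm _).trans ht)
  rw [Complex.sub_re, cir_re] at b1 b3
  rw [Complex.sub_im, cir_im] at b2
  rw [Complex.one_re] at b3
  have c1 : 0 < Real.sin (Real.pi * (1 - 2 * (s : ℝ))) ↔ 0 < ζ.im := by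
    rcases le_total 0 ζ.im with k | k
    · rw [abs_of_nonneg k] at a4
      exact iff_of_true (by linarith [b2.1]) (by linarith)
    · rw [abs_of_nonpos k] at a4
      exact iff_of_false (by linarith [b2.2]) (by linarith)
  have c2 : Real.sin (Real.pi * (1 - 2 * (s : ℝ))) ≠ 0 := by
    intro k
    rw [k] at b2
    have := abs_le.2 (show -(τ ^ 2 / 8) ≤ ζ.im ∧ ζ.im ≤ τ ^ 2 / 8 from
      ⟨by linarith [b2.2], by linarith [b2.1]⟩)
    linarith
  rw [← c1, ← angle (abs_angle s) (abs_angle t) (by linarith [b1.2, b3.1]) c2,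
    mul_lt_mul_iff_right₀ Real.pi_pos, ← Subtype.coe_lt_coe]
  constructor <;> intro k <;> linarith

/-- The time of the vertex `i`. -/
def tm (L : LDom) (i : ℕ) (hi : i ≤ L.N) : unitInterval :=
  ⟨i / L.N, by positivity, div_le_one_of_le₀ (by exact_mod_cast hi) (Nat.cast_nonneg _)⟩

theorem tm_lt (L : LDom) {i j : ℕ} (hi : i ≤ L.N) (hj : j ≤ L.N) :
    tm L i hi < tm L j hj ↔ i < j := by
  have h1 : (0 : ℝ) < L.N := by exact_mod_cast L.k_pos.trans L.k_lt
  rw [← Subtype.coe_lt_coe]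
  change (i : ℝ) / L.N < j / L.N ↔ _
  rw [div_lt_div_iff_of_pos_right h1, Nat.cast_lt]

end Arc

open Arc in
theorem s_arc (h1 : S_ld1) (hc : S_conf) : S_arc := by
  intro ψ L δ hψ ⟨a1, a2, a3, a4⟩
  have a5 : ∀ e : ℝ, 0 < e → ∀ᶠ n in atTop, ∃ ρ : unitInterval ≃o unitInterval,
      ∀ t : unitInterval, dist ((δ n : ℂ) * (L n).bd (ρ t)) (ψ (cir t)) ≤ e := a4
  refine ⟨Metric.tendsto_nhds.2 fun e he => ?_, fun e he => ?_, fun τ hτ => ?_⟩
  · filter_upwards [a5 (e / 2) (half_pos he)] with n ⟨ρ, hρ⟩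
    have b1 := hρ 0
    have b2 : ρ 0 = 0 := ρ.map_bot
    have b3 := (h1 (L n)).2.1 0 (Nat.zero_le _)
    rw [Nat.cast_zero, zero_div] at b3
    rw [b2, Icc.coe_zero, b3, cir_zero] at b1
    exact b1.trans_lt (half_lt_self he)
  · filter_upwards [a5 (e / 2) (half_pos he), a2.eventually (eventually_le_nhds (half_pos he))]
      with n ⟨ρ, hρ⟩ hδ ζ hζ
    obtain ⟨t, rfl⟩ := cir_surj hζ
    obtain ⟨i, hi, b1⟩ := (h1 (L n)).2.2.1 (ρ t) (ρ t).2
    refine ⟨i, hi, ?_⟩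
    have b2 := hρ t
    rw [dist_eq_norm] at b2
    have b3 : (δ n : ℂ) * emb ((L n).β i) - ψ (cir t) =
        ((δ n : ℂ) * (L n).bd (ρ t) - ψ (cir t)) - δ n * ((L n).bd (ρ t) - emb ((L n).β i)) := by
      ring
    have b4 : ‖(δ n : ℂ) * ((L n).bd (ρ t) - emb ((L n).β i))‖ ≤ e / 2 := by
      rw [norm_mul, Complex.norm_real, Real.norm_of_nonneg (a1 n).le]
      exact (mul_le_of_le_one_right (a1 n).le b1).trans hδ
    rw [b3]
    exact (norm_sub_le _ _).trans (by linarith)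
  · obtain ⟨d, hd, b0⟩ := (hc ψ hψ).2.2.2.2.2.1 (τ ^ 2 / 8) (by positivity)
    refine ⟨d / 2, half_pos hd, ?_⟩
    filter_upwards [a5 (d / 2) (half_pos hd), Metric.tendsto_nhds.1 a3 (d / 2) (half_pos hd)]
      with n ⟨ρ, hρ⟩ hk ζ hζ k1 k2 i hi k3
    have b1 : ∀ j (hj : j ≤ (L n).N),
        dist ((δ n : ℂ) * emb ((L n).β j)) (ψ (cir (ρ.symm (tm (L n) j hj)))) ≤ d / 2 :=
      fun j hj => by
        have b2 := hρ (ρ.symm (tm (L n) j hj))
        rw [ρ.apply_symm_apply] at b2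
        rw [← (h1 (L n)).2.1 j hj]
        exact b2
    rw [← dist_eq_norm] at k3
    have b2 := (b0 _ (cir_mem (ρ.symm (tm (L n) i hi.le))) ζ (sphere_subset_closedBall hζ)).2
      ((dist_triangle_left _ _ _).trans ((add_le_add (b1 i hi.le) k3).trans (add_halves d).le))
    have b3 := (b0 _ (cir_mem (ρ.symm (tm (L n) (L n).k (L n).k_lt.le))) 1 (by simp)).2
      ((dist_triangle_left _ _ _).trans
        ((add_le_add (b1 _ (L n).k_lt.le) hk.le).trans (add_halves d).le))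
    rw [← key hτ hζ k1 k2 b2 b3, ρ.symm.lt_iff_lt, tm_lt]

end

end Vale.Agent.P153.Wick
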