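import Vale.Agent.P153.Wick.Stm

/-! P153, field part: the boundary term. -/

open Set Filter Topology MeasureTheory Metric
open Vale.Agent.P071 (Test lap DD hh g0 Conf)

namespace Vale.Agent.P153.Wick

namespace Bdry

variable {T : Set Cfg} {X X' W : Cfg → ℝ}

theorem mono {A B : Set ℂ} {f : ℂ → ℝ} (h : Test A f) (hAB : A ⊆ B) : Test B f :=
  ⟨h.1, h.2.1, h.2.2.trans hAB⟩

theorem cov_add : cov T (fun H => X H + X' H) W = cov T X W + cov T X' W := by
  simp only [cov, add_mul, Ex_add]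
  ring

theorem cov_zero : cov T (fun _ => 0) W = 0 := by simp [cov, Ex_zero]

theorem cov_le {a : ℝ} (hW : ∀ H, |W H| ≤ 1) (h1 : |Ex T fun H => X H * W H| ≤ a)
    (h2 : |Ex T X| ≤ a) : |cov T X W| ≤ 2 * a := by
  have h3 : |Ex T W| ≤ 1 := abs_Ex_le_of zero_le_one fun H _ => hW H
  have h4 := mul_le_mul h2 h3 (abs_nonneg _) ((abs_nonneg _).trans h2)
  refine (abs_sub _ _).trans ?_
  rw [abs_mul]
  linarith

theorem cov_const (hT : Good T) (c : ℝ) : cov T (fun H => X H - c) W = cov T X W := by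
  simp only [cov, sub_mul, Ex_sub, Ex_mul_left, Ex_const hT]
  ring

theorem cov_mom {a : ℝ} (ha : 0 ≤ a) (hW : ∀ H, |W H| ≤ 1) (h : Ex T (fun H => X H ^ 4) ≤ a ^ 4) :
    |cov T X W| ≤ 2 * a := by
  have h1 := Ex_sq_le T fun H => |X H|
  have h2 := Ex_sq_le T fun H => X H ^ 2
  simp only [sq_abs, ← pow_mul] at h1 h2
  have h3 : (Ex T fun H => |X H|) ≤ a := by
    refine le_of_pow_le_pow_left₀ (n := 2 * 2) (by norm_num) ha ?_
    rw [pow_mul]
    exact ((pow_le_pow_left₀ (sq_nonneg _) h1 2).trans h2).trans h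
  refine cov_le hW ((abs_Ex_le _ _).trans ((Ex_mono fun H _ => ?_).trans h3))
    ((abs_Ex_le _ _).trans h3)
  rw [abs_mul]
  exact mul_le_of_le_one_right (abs_nonneg _) (hW H)

variable {D : Set ℂ} {S : ℕ → Set Cfg} {Y : ℕ → (ℂ → ℝ) → Cfg → ℝ} {U : Filter ℕ} {K : ℝ}

theorem test_zero : Test univ fun _ => 0 :=
  ⟨contDiff_const, HasCompactSupport.zero, subset_univ _⟩

theorem Y_zero (h : WI0 D S Y) (n : ℕ) : Y n (fun _ => 0) = fun _ => 0 := by
  funext H
  simpa using h.smul n 0 _ test_zero H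

theorem cov_sum (h : WI0 D S Y) (n : ℕ) {ι : Type} (s : Finset ι) (f : ι → ℂ → ℝ)
    (hf : ∀ i, Test univ (f i)) : Test univ (fun z => ∑ i ∈ s, f i z) ∧
      |cov (S n) (Y n fun z => ∑ i ∈ s, f i z) W| ≤ ∑ i ∈ s, |cov (S n) (Y n (f i)) W| := by
  classical
  induction s using Finset.induction_on with
  | empty => simp [test_zero, Y_zero h, cov_zero]
  | insert i s hi ih =>
    simp only [Finset.sum_insert hi]
    refine ⟨(hf i).add ih.1, ?_⟩
    rw [funext (h.add n _ _ (hf i) ih.1), cov_add]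
    exact (abs_add_le _ _).trans (add_le_add le_rfl ih.2)

theorem cov_lap (hI : IBP D S Y U K) {f g : ℂ → ℝ} (hf : Test D f) (hg : Test univ g)
    (h0 : ∀ z, f z * g z = 0) {w w₁ : ℝ → ℝ} (hw : W2 w w₁) {δ : ℝ} (hδ : 0 < δ) :
    ∀ᶠ n in U, |cov (S n) (Y n (lap f)) fun H => w (Y n g H)| ≤ 2 * δ := by
  have h1 := hI f g hf hg w w₁ hw
  have h2 := hI f g hf hg (fun _ => 1) (fun _ => 0)
    ⟨by simp, by simp, fun _ _ => by simp [sq_nonneg], by simp⟩
  simp only [h0, integral_zero, mul_zero, zero_mul, add_zero, mul_one] at h1 h2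
  filter_upwards [h1.abs.eventually_le_const (by simpa), h2.abs.eventually_le_const (by simpa)]
    with n a1 a2 using cov_le (fun H => hw.b0 _) a1 a2

/-- One piece, given a bound for spread functions. -/
theorem piece (h : WI0 D S Y) (hI : IBP D S Y U K) {Cs : ℝ} (hCs : 0 < Cs)
    {z : ℂ} {r g : ℂ → ℝ} (hz : 0 < infDist z Dᶜ)
    (hs : ∃ f r' : ℂ → ℝ, Test (ball z (2 * (infDist z Dᶜ / 4))) f ∧
      Test (ball z (2 * (infDist z Dᶜ / 4))) r' ∧ (∀ y, r y = r' y + lap f y) ∧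
      ∀ y, |r' y| ≤ Cs / (infDist z Dᶜ / 4) ^ 2 * ∫ y, |r y|)
    (hg : Test univ g) (h0 : ∀ y ∈ ball z (infDist z Dᶜ / 2), g y = 0) {w w₁ : ℝ → ℝ}
    (hw : W2 w w₁) {κ : ℝ} (hκ : 0 < κ)
    (hb : ∀ (A : ℝ) (r' : ℂ → ℝ), 0 < A → Test (ball z (infDist z Dᶜ / 2)) r' → (∀ y, |r' y| ≤ A) →
      ∀ᶠ n in U, |cov (S n) (Y n r') fun H => w (Y n g H)| ≤ κ * (A * infDist z Dᶜ ^ 2))
    {δ : ℝ} (hδ : 0 < δ) :
    ∀ᶠ n in U, |cov (S n) (Y n r) fun H => w (Y n g H)| ≤ δ + 16 * Cs * κ * ∫ y, |r y| := by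
  obtain ⟨f, r', a1, a2, a3, a4⟩ := hs
  rw [show 2 * (infDist z Dᶜ / 4) = infDist z Dᶜ / 2 by ring] at a1 a2
  have hD : ball z (infDist z Dᶜ / 2) ⊆ D :=
    (ball_subset_ball (by linarith)).trans (ball_infDist_subset_compl.trans (compl_compl D).le)
  have hI0 : 0 ≤ ∫ y, |r y| := integral_nonneg fun _ => abs_nonneg _
  set η := δ / (2 + 16 * Cs * κ) with hη
  have η0 : 0 < η := by positivity
  filter_upwards [cov_lap hI (mono a1 hD) hg (fun y => by
      by_cases hy : y ∈ ball z (infDist z Dᶜ / 2)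
      · rw [h0 y hy, mul_zero]
      · rw [a1.eq_zero hy, zero_mul]) hw η0,
    hb (Cs / (infDist z Dᶜ / 4) ^ 2 * ((∫ y, |r y|) + η)) r' (by positivity) a2
      fun y => (a4 y).trans (by gcongr; linarith)] with n b1 b2
  rw [funext a3, funext (h.add n _ _ (mono a2 (subset_univ _)) (mono a1.lap (subset_univ _))),
    cov_add, ← funext a3]
  refine (abs_add_le _ _).trans ((add_le_add b2 b1).trans_eq ?_)
  have : δ = η * (2 + 16 * Cs * κ) := (div_mul_cancel₀ _ (by positivity)).symm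
  rw [this]
  field_simp
  ring

end Bdry

open Bdry in
theorem s_bdry (hb : S_bump) (hf : S_fun) (hs : S_sm) : S_bdry := by
  intro D ψ φ c S Y U K h hU hI
  obtain ⟨p, k, σ, hB⟩ := hb
  obtain ⟨Cs, hCs, hs⟩ := hs
  obtain ⟨Cm, hCm, hm⟩ := h.mb
  have hne : Dᶜ.Nonempty := nonempty_compl.2 fun e =>
    NormedSpace.unbounded_univ ℝ ℂ (e ▸ h.bdd)
  have ρ0 : ∀ z, 0 < infDist z Dᶜ ↔ z ∈ D := fun z => by
    rw [← h.op.isClosed_compl.notMem_iff_infDist_pos hne, notMem_compl_iff]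
  have ρc : ∀ A : Set ℂ, IsCompact A → A ⊆ D → ∃ d, 0 < d ∧ ∀ z ∈ A, d ≤ infDist z Dᶜ :=
    fun A a1 a2 => a1.exists_forall_le' (continuous_infDist_pt _).continuousOn
      fun z hz => (ρ0 z).2 (a2 hz)
  refine ⟨16 * Cs * (8 * Cm), by positivity, fun g hg ε τ hε hτ => ?_⟩
  obtain ⟨e₁, e1, hbv⟩ := h.bv g hg (ε / (32 * Cs)) (τ / 2) (by positivity) (by positivity)
  obtain ⟨d₀, d0, hd₀⟩ := ρc _ hg.2.1 hg.2.2
  have k1 : {z | d₀ / 2 ≤ infDist z Dᶜ} ⊆ D := fun z hz => (ρ0 z).1 (lt_of_lt_of_le (by linarith) hz)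
  obtain ⟨e₂, e2, he₂⟩ := (isCompact_of_isClosed_isBounded
    (isClosed_le continuous_const (continuous_infDist_pt _)) (h.bdd.subset k1)).exists_forall_le'
      (P071.continuous_hh.comp_continuousOn (h.conf.hφ.continuousOn.mono k1))
      fun z hz => P071.hh_pos (h.conf.mapsφ (k1 hz))
  refine ⟨min e₁ (e₂ / 2), by positivity, fun r hr hre w w₁ hw => ?_⟩
  obtain ⟨d₁, d1, hd₁⟩ := ρc _ hr.2.1 hr.2.2
  obtain ⟨d₂, d2, hd₂⟩ := Metric.uniformContinuousOn_iff.1
    (hr.2.1.isCompact.uniformContinuousOn_of_continuous (h.conf.hφ.continuousOn.mono hr.2.2))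
    (τ / 2) (by positivity)
  obtain ⟨t, t0, t1, t2, t3⟩ : ∃ t : ℝ, 0 < t ∧ t ≤ 1 ∧ 16 * t ≤ d₁ ∧ 4 * t ≤ d₂ := by
    refine ⟨min 1 (min (d₁ / 16) (d₂ / 4)), by positivity, min_le_left _ _, ?_, ?_⟩
    · linarith [(min_le_right 1 _).trans (min_le_left (d₁ / 16) (d₂ / 4))]
    · linarith [(min_le_right 1 _).trans (min_le_right (d₁ / 16) (d₂ / 4))]
  obtain ⟨R, hR⟩ := h.bdd.exists_norm_le
  obtain ⟨J, hJ⟩ := exists_nat_ge (R / t)
  obtain ⟨_, -, hf'⟩ := hf p k σ r r hB (mono hr (subset_univ _)) (mono hr (subset_univ _))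
  set I := Finset.Icc (-J : ℤ) J ×ˢ Finset.Icc (-J : ℤ) J
  let q : ℤ × ℤ → ℂ → ℝ := fun j z => r z * sc p (t * (⟨j.1, j.2⟩ : ℂ)) t z
  have q1 : ∀ j, Test (ball (t * (⟨j.1, j.2⟩ : ℂ)) (2 * t)) (q j) := fun j =>
    (hf' _ t t0 t1).1.2.1
  have q2 : ∀ z, r z ≠ 0 → ∑ j ∈ I, sc p (t * (⟨j.1, j.2⟩ : ℂ)) t z = 1 := fun z hz => by
    have a1 : ‖z / t‖ ≤ J := by
      rw [norm_div, Complex.norm_real, Real.norm_of_nonneg t0.le]
      exact (div_le_div_of_nonneg_right (hR z (hr.2.2 (subset_tsupport _ hz))) t0.le).trans hJ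
    rw [← hB.p_sum J (z / t) ((Complex.abs_re_le_norm _).trans a1)
      ((Complex.abs_im_le_norm _).trans a1)]
    refine Finset.sum_congr rfl fun j _ => ?_
    rw [sc, sub_div, mul_div_cancel_left₀ _ (Complex.ofReal_ne_zero.2 t0.ne')]
  have q3 : ∀ z, ∑ j ∈ I, q j z = r z := fun z => by
    by_cases hz : r z = 0
    · simp [q, hz]
    · rw [← Finset.mul_sum, q2 z hz, mul_one]
  have q4 : ∀ μ : Measure ℂ, μ ≤ volume → ∑ j ∈ I, ∫ z, |q j z| ∂μ = ∫ z, |r z| ∂μ := fun μ hμ => by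
    rw [← integral_finsetSum _ fun j _ => ((q1 j).integrable.mono_measure hμ).abs]
    refine integral_congr_ae (.of_forall fun z => ?_)
    by_cases hz : r z = 0
    · simp [q, hz]
    · simp only [q, abs_mul, sc, abs_of_nonneg (hB.p_nonneg _)]
      rw [← Finset.mul_sum, show ∑ j ∈ I, p _ = 1 from q2 z hz, mul_one]
  have key : ∀ j, ∀ᶠ n in U, |cov (S n) (Y n (q j)) fun H => w (Y n g H)| ≤
      ε / (I.card + 1) + (ε * ∫ z, |q j z|) + 16 * Cs * (8 * Cm) * ∫ z in Mk D φ τ, |q j z| := by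
    intro j
    have i1 : 0 ≤ ∫ z, |q j z| := integral_nonneg fun _ => abs_nonneg _
    have i2 : 0 ≤ ∫ z in Mk D φ τ, |q j z| := integral_nonneg fun _ => abs_nonneg _
    by_cases hq : ∃ z, q j z ≠ 0
    swap
    · push Not at hq
      refine .of_forall fun n => ?_
      rw [funext hq, Y_zero h.toWI0, cov_zero, abs_zero]
      positivity
    obtain ⟨z, hz⟩ := hq
    have a1 : z ∈ tsupport r := subset_tsupport _ (left_ne_zero_of_mul hz)
    have a2 := hre z (left_ne_zero_of_mul hz)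
    have a3 := hd₁ z a1
    have a4 := (ρ0 z).2 (hr.2.2 a1)
    have a5 : ball (t * (⟨j.1, j.2⟩ : ℂ)) (2 * t) ⊆ ball z (4 * t) := ball_subset_ball' (by
      have := mem_ball'.1 ((q1 j).2.2 (subset_tsupport _ hz))
      linarith)
    have a6 := hs z _ _ (show 0 < infDist z Dᶜ / 4 by positivity)
      (mono (q1 j) (a5.trans (ball_subset_ball (by linarith))))
    have a7 : ∀ y ∈ ball z (infDist z Dᶜ / 2), g y = 0 := fun y hy => by
      by_contra hy'
      have b1 := hd₀ y (subset_tsupport _ hy')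
      have b2 := infDist_le_infDist_add_dist (x := y) (y := z) (s := Dᶜ)
      have b3 := mem_ball.1 hy
      have b4 : e₂ ≤ hh (φ z) := he₂ z (show d₀ / 2 ≤ infDist z Dᶜ by linarith)
      linarith [min_le_right e₁ (e₂ / 2)]
    have a8 : 0 < ε / (I.card + 1) := by positivity
    by_cases hfar : τ / 2 ≤ ‖φ z - 1‖ ∧ τ / 2 ≤ ‖φ z + 1‖
    · filter_upwards [piece h.toWI0 hI hCs a4 a6 (mono hg (subset_univ _)) a7 hw
        (κ := 2 * (ε / (32 * Cs))) (by positivity) (fun A r' b1 b2 b3 => by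
          filter_upwards [hU (hbv z (hr.2.2 a1) (a2.trans (min_le_left _ _)) hfar.1 hfar.2 A r'
            b1 b2 b3)] with n hn
          rw [← cov_const (h.good n) (c (φ z) * ∫ y, r' y), mul_assoc]
          exact cov_le (fun H => hw.b0 _) (hn w hw.b0)
            (by simpa only [mul_one] using hn (fun _ => 1) (by simp))) a8] with n hn
      rw [show 16 * Cs * (2 * (ε / (32 * Cs))) = ε by field_simp; norm_num] at hn
      exact hn.trans (le_add_of_nonneg_right (by positivity))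
    · filter_upwards [piece h.toWI0 hI hCs a4 a6 (mono hg (subset_univ _)) a7 hw
        (κ := 8 * Cm) (by positivity) (fun A r' b1 b2 b3 => by
          filter_upwards [hU (hm z (2 * infDist z Dᶜ) A r' (by positivity) b1 (fun hh => by
            obtain ⟨y, hy, hy'⟩ := (infDist_lt_iff hne).1
              (show infDist z Dᶜ < 2 * infDist z Dᶜ by linarith)
            exact hy (hh (mem_ball'.2 hy'))) (mono b2 (subset_inter
              ((ball_subset_ball (by linarith)).trans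
                (ball_infDist_subset_compl.trans (compl_compl D).le))
              (ball_subset_ball (by linarith)))) b3)] with n hn
          exact (cov_mom (by positivity) (fun H => hw.b0 _) hn).trans_eq (by ring)) a8] with n hn
      rw [setIntegral_eq_integral_of_forall_compl_eq_zero fun y hy => ?_]
      · exact hn.trans (add_le_add (le_add_of_nonneg_right (by positivity)) le_rfl)
      by_contra hy'
      have b1 : q j y ≠ 0 := fun e => hy' (by rw [e, abs_zero])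
      have b2 : y ∈ tsupport r := subset_tsupport _ (left_ne_zero_of_mul b1)
      have b3 := hd₂ y b2 z a1
        ((mem_ball.1 (a5 ((q1 j).2.2 (subset_tsupport _ b1)))).trans_le t3)
      rw [dist_eq_norm] at b3
      have b4 := norm_add_le (φ y - φ z) (φ z - 1)
      have b5 := norm_add_le (φ y - φ z) (φ z + 1)
      rw [sub_add_sub_cancel] at b4
      rw [← add_assoc, sub_add_cancel] at b5
      refine hy ⟨hr.2.2 b2, ?_⟩
      rcases not_and_or.1 hfar with b | b
      · exact Or.inl (by linarith)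
      · exact Or.inr (by linarith)
  filter_upwards [(Filter.eventually_all_finset I).2 fun j _ => key j] with n hn
  have a1 := (cov_sum (W := fun H => w (Y n g H)) h.toWI0 n I q
    fun j => mono (q1 j) (subset_univ _)).2
  rw [funext q3] at a1
  refine (a1.trans (Finset.sum_le_sum hn)).trans ?_
  rw [Finset.sum_add_distrib, Finset.sum_add_distrib, ← Finset.mul_sum, ← Finset.mul_sum,
    q4 _ le_rfl, q4 _ Measure.restrict_le_self, Finset.sum_const, nsmul_eq_mul, mul_add ε, mul_one]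
  have a2 : (I.card : ℝ) * (ε / (I.card + 1)) ≤ ε := by
    rw [mul_div_assoc', div_le_iff₀ (by positivity)]
    nlinarith
  linarith

end Vale.Agent.P153.Wick
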