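import Vale.Agent.P153.Wick.Stm

/-! P153, field part: bump functions and the quadratic form. -/

open Set Filter Topology MeasureTheory Metric
open Vale.Agent.P071 (Test lap DD hh g0 Conf)

namespace Vale.Agent.P153.Wick

noncomputable section

namespace Bump

open Real

/-- One dimensional partition function. -/
def b (t : ℝ) : ℝ := smoothTransition (t + 1) - smoothTransition t

theorem b_nonneg (t : ℝ) : 0 ≤ b t := sub_nonneg.2 (smoothTransition.monotone (by linarith))

theorem b_smooth : ContDiff ℝ (⊤ : ℕ∞) b :=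
  (smoothTransition.contDiff.comp (contDiff_id.add contDiff_const)).sub smoothTransition.contDiff

theorem b_supp {t : ℝ} (h : b t ≠ 0) : t ^ 2 ≤ 1 := by
  refine (sq_le_one_iff_abs_le_one t).2 (abs_le.2 ⟨not_lt.1 fun k => h ?_, not_lt.1 fun k => h ?_⟩)
  · rw [b, smoothTransition.zero_of_nonpos (by linarith),
      smoothTransition.zero_of_nonpos (by linarith), sub_self]
  · rw [b, smoothTransition.one_of_one_le (by linarith), smoothTransition.one_of_one_le k.le,
      sub_self]

theorem b_sum (J : ℕ) {t : ℝ} (h : |t| ≤ J) :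
    ∑ j ∈ Finset.Icc (-J : ℤ) J, b (t - j) = 1 := by
  obtain ⟨h1, h2⟩ := abs_le.1 h
  have e := Finset.sum_range_sub' (fun i : ℕ => smoothTransition (t + J + 1 - i)) (2 * J + 1)
  rw [smoothTransition.one_of_one_le (by push_cast; linarith),
    smoothTransition.zero_of_nonpos (by push_cast; linarith), sub_zero] at e
  rw [Int.Icc_eq_finset_map, Finset.sum_map, show ((J : ℤ) + 1 - -J).toNat = 2 * J + 1 by omega,
    ← e]
  refine Finset.sum_congr rfl fun i _ => ?_
  simp only [b, Function.Embedding.trans_apply, Nat.castEmbedding_apply, addLeftEmbedding_apply]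
  push_cast
  congr 2 <;> ring

/-- Two dimensional partition function. -/
def p (z : ℂ) : ℝ := b z.re * b z.im

theorem p_supp : tsupport p ⊆ closedBall 0 (3 / 2) := by
  refine closure_minimal (fun z hz => ?_) isClosed_closedBall
  have h1 := b_supp (left_ne_zero_of_mul hz)
  have h2 := b_supp (right_ne_zero_of_mul hz)
  rw [mem_closedBall_zero_iff]
  refine le_of_sq_le_sq ?_ (by norm_num)
  rw [Complex.sq_norm, Complex.normSq_apply]
  nlinarith

theorem p_test : Test (ball 0 2) p :=
  ⟨(b_smooth.comp Complex.reCLM.contDiff).mul (b_smooth.comp Complex.imCLM.contDiff),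
    (isCompact_closedBall _ _).of_isClosed_subset (isClosed_tsupport p) p_supp,
    p_supp.trans (closedBall_subset_ball (by norm_num))⟩

/-- The cutoff. -/
def k : ContDiffBump (0 : ℂ) := ⟨2, 5 / 2, by norm_num, by norm_num⟩

/-- The small bump. -/
def s : ContDiffBump ((5 / 2 : ℝ) : ℂ) := ⟨1 / 8, 1 / 4, by norm_num, by norm_num⟩

end Bump

open Bump in
theorem s_bump : S_bump := by
  have hc : ‖((5 / 2 : ℝ) : ℂ)‖ = 5 / 2 := by rw [Complex.norm_real, Real.norm_of_nonneg (by norm_num)]
  refine ⟨p, k, s.normed volume, p_test, fun z => mul_nonneg (b_nonneg _) (b_nonneg _),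
    fun J z h1 h2 => ?_, p_test.1.continuous.integral_pos_of_hasCompactSupport_nonneg_nonzero
      p_test.2.1 (fun z => mul_nonneg (b_nonneg _) (b_nonneg _)) (x := 0) (by simp [p, b]),
    ⟨k.contDiff, k.hasCompactSupport, ?_⟩, fun z hz => k.one_of_mem_closedBall
      (ball_subset_closedBall hz), ⟨s.contDiff_normed, s.hasCompactSupport_normed, ?_⟩,
    fun z hz => ?_, s.integral_normed⟩
  · have := Finset.sum_mul_sum (Finset.Icc (-J : ℤ) J) (Finset.Icc (-J : ℤ) J)
      (fun j => b (z.re - j)) fun j => b (z.im - j)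
    rw [b_sum J h1, b_sum J h2, mul_one] at this
    rw [Finset.sum_product]
    exact this.symm
  · rw [k.tsupport_eq]
    exact closedBall_subset_ball (by norm_num [k])
  · rw [s.tsupport_normed_eq]
    exact closedBall_subset_ball' (by rw [dist_zero_right, hc]; norm_num [s])
  · by_contra h
    have h1 : z ∈ Function.support (s.normed volume) := h
    rw [s.support_normed_eq] at h1
    exact (ball_disjoint_ball (by rw [dist_zero_left, hc]; norm_num [s])).notMem_of_mem_left hz h1

theorem s_Q : S_Q := fun D ψ φ g hD h => by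
  refine ⟨fun hg => setIntegral_nonneg (hD.prod hD).measurableSet fun p hp =>
    mul_nonneg (mul_nonneg (hg _) (P071.g0_nonneg (h.mapsφ hp.1) (h.mapsφ hp.2))) (hg _),
    fun t => ?_⟩
  rw [Qv, Qv, ← integral_const_mul]
  congr 1
  funext p
  ring

end

end Vale.Agent.P153.Wick
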