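import Vale.Agent.P153.Wick.Stm

/-! P153, field part: the estimate for one cell. -/

open Set Filter Topology MeasureTheory Metric
open Vale.Agent.P071 (Test lap DD hh g0 Conf)

namespace Vale.Agent.P153.Wick

namespace Cell

theorem mono {U U' : Set ℂ} {f : ℂ → ℝ} (h : Test U f) (hU : U ⊆ U') : Test U' f :=
  ⟨h.1, h.2.1, h.2.2.trans hU⟩

theorem int_lap {U : Set ℂ} {f : ℂ → ℝ} (h : Test U f) : ∫ z, lap f z = 0 := by
  have key : ∀ v : ℂ, ∫ z, P071.dd v (P071.dd v f) z = 0 := fun v =>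
    P071.integral_dd_eq_zero ((h.dd v).1.of_le P071.one_le_oo) (h.dd v).2.1 v
  simp only [lap, P071.d1_eq, P071.d2_eq]
  rw [integral_add ((h.dd _).dd _).integrable ((h.dd _).dd _).integrable, key, key, add_zero]

theorem test_zero (U : Set ℂ) : Test U fun _ => 0 :=
  ⟨contDiff_const, HasCompactSupport.zero, by simp⟩

theorem sq_le_of {S : Set Cfg} {X : Cfg → ℝ} {a : ℝ} (ha : 0 ≤ a)
    (h : Ex S (fun H => X H ^ 4) ≤ a ^ 4) : √(Ex S fun H => X H ^ 2) ≤ a := by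
  refine Real.sqrt_le_iff.2 ⟨ha, ?_⟩
  refine (pow_le_pow_iff_left₀ (Ex_nonneg fun _ _ => sq_nonneg _) (sq_nonneg _) two_ne_zero).1 ?_
  refine (Ex_sq_le S _).trans ?_
  simpa only [← pow_mul] using h

theorem abs_mul4 {S : Set Cfg} {X Z : Cfg → ℝ} {a b : ℝ} (ha : 0 ≤ a) (hb : 0 ≤ b)
    (h : Ex S (fun H => X H ^ 4) ≤ a ^ 4) (h' : Ex S (fun H => Z H ^ 4) ≤ b ^ 4) :
    |Ex S fun H => X H * Z H| ≤ a * b :=
  (abs_Ex_mul_le S X Z).trans (mul_le_mul (sq_le_of ha h) (sq_le_of hb h') (Real.sqrt_nonneg _) ha)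

variable {D : Set ℂ} {S : ℕ → Set Cfg} {Y : ℕ → (ℂ → ℝ) → Cfg → ℝ}

theorem Y_sub (hI : WI0 D S Y) (n : ℕ) {a b : ℂ → ℝ} {U U' : Set ℂ} (ha : Test U a)
    (hb : Test U' b) (t : ℝ) (H : Cfg) :
    Y n (fun z => a z - t * b z) H = Y n a H - t * Y n b H := by
  have h := hI.add n a (fun z => (-t) * b z) (mono ha (subset_univ _))
    ((mono hb (subset_univ _)).const_mul _) H
  rw [hI.smul n (-t) b (mono hb (subset_univ _))] at h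
  simpa only [neg_mul, ← sub_eq_add_neg] using h

theorem Y_sub' (hI : WI0 D S Y) (n : ℕ) {a b : ℂ → ℝ} {U U' : Set ℂ} (ha : Test U a)
    (hb : Test U' b) (H : Cfg) : Y n (fun z => a z - b z) H = Y n a H - Y n b H := by
  simpa only [one_mul] using Y_sub hI n ha hb 1 H

theorem sc_shift (q : ℂ → ℝ) (x : ℂ) (s : ℝ) : (fun z => sc q 0 s (z - x)) = sc q x s := by
  funext z; simp [sc]

/-- The mixing estimate in the form used below. -/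
def MixP (D : Set ℂ) (S : ℕ → Set Cfg) (Y : ℕ → (ℂ → ℝ) → Cfg → ℝ) (p q : ℂ → ℝ) (lam : ℝ)
    (κ : ℝ → ℕ → ℝ) : Prop :=
  ∀ K, IsCompact K → K ⊆ D → ∀ ε : ℝ, 0 < ε → ∃ θ ρ₀ : ℝ, 0 < θ ∧ 0 < ρ₀ ∧
    ∀ (η ρ : ℝ) (g : ℂ → ℝ), 0 < η → 6 * lam * η ≤ 1 → 6 * lam * η ≤ θ * ρ → ρ ≤ ρ₀ → ∀ x ∈ K,
    Test (closedBall x ρ)ᶜ g → ∀ᶠ n in atTop, ∀ Γ : ℝ → ℝ, (∀ t, |Γ t| ≤ 1) →
    |Ex (S n) (fun H => Y n (lap (sc p x η)) H * Y n (sc q x (lam * (2 * η))) H *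
      Γ (Y n g H)) - κ η n * Ex (S n) fun H => Γ (Y n g H)| ≤ ε * η ^ 2

variable {p k σ : ℂ → ℝ} {lam : ℝ} {κ : ℝ → ℕ → ℝ}

theorem mixP (hf : S_fun) (hI : WI0 D S Y) (hB : Bumps p k σ) (hlam : 1 ≤ lam) :
    ∃ κ, MixP D S Y p (qq k σ) lam κ := by
  obtain ⟨kap, mix⟩ := hI.mix
  obtain ⟨C₀, hC₀, h0⟩ := hf p k σ _ _ hB (test_zero _) (test_zero _)
  refine ⟨fun η n => kap (lap (sc p 0 η)) (sc (qq k σ) 0 (lam * (2 * η))) (C₀ / η ^ 2) C₀ n, ?_⟩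
  intro K hK hKD ε hε
  obtain ⟨θ, ρ₀, hθ, hρ₀, h⟩ := mix K hK hKD (ε / (C₀ ^ 2 * (6 * lam) ^ 4)) (by positivity)
  refine ⟨θ, ρ₀, hθ, hρ₀, fun η ρ g hη h1 h2 h3 x hx hg => ?_⟩
  have hs : 0 < lam * (2 * η) := by positivity
  obtain ⟨⟨a1, -, -, a4, -⟩, -⟩ := h0 0 η hη (by nlinarith)
  obtain ⟨-, -, b2, -, -, b5, -, b7, -⟩ := h0 0 _ hs (by nlinarith)
  obtain ⟨⟨-, -, a3, -⟩, -⟩ := h0 x η hη (by nlinarith)
  have := h (3 * (lam * (2 * η))) ρ (C₀ / η ^ 2) C₀ (lap (sc p 0 η)) _ g (by positivity)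
    (by linarith) h3 (by positivity) hC₀ (mono a1.lap (ball_subset_ball (by nlinarith))) b2
    (int_lap a1) b5 a4 (fun y => b7 _) x hx hg
  rw [sc_shift, ← funext a3] at this
  filter_upwards [this] with n hn Γ hΓ
  refine (hn Γ hΓ).trans (le_of_eq ?_)
  field_simp
  ring

theorem bound (hf : S_fun) (hI : WI0 D S Y) (hB : Bumps p k σ) (hlam : 1 ≤ lam)
    (mix' : MixP D S Y p (qq k σ) lam κ) :
    ∃ C η₀ : ℝ, 0 < η₀ ∧ ∀ η, 0 < η → η ≤ η₀ → ∀ᶠ n in atTop, |κ η n| ≤ C * η ^ 2 := by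
  obtain ⟨C₀, hC₀, h0⟩ := hf p k σ _ _ hB (test_zero _) (test_zero _)
  obtain ⟨x, hx⟩ := hI.ne
  obtain ⟨θ, ρ₀, hθ, hρ₀, h⟩ := mix' {x} isCompact_singleton (singleton_subset_iff.2 hx) 1 one_pos
  obtain ⟨Cm, ηm, hCm, hηm, hm⟩ := hI.m0 {x} isCompact_singleton (singleton_subset_iff.2 hx)
  refine ⟨1 + (Cm * C₀ * 4) * (Cm * C₀ * (6 * lam) ^ 2), min (min 1 (θ * ρ₀)) ηm / (6 * lam),
    by positivity, fun η hη h1 => ?_⟩
  rw [le_div_iff₀ (by positivity), mul_comm, le_min_iff, le_min_iff] at h1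
  obtain ⟨⟨h1, h2⟩, h3⟩ := h1
  have hs : 0 < lam * (2 * η) := by positivity
  obtain ⟨⟨a1, -, -, a4, -⟩, -⟩ := h0 x η hη (by nlinarith)
  obtain ⟨-, -, b2, -, -, b5, -, b7, -⟩ := h0 x _ hs (by nlinarith)
  filter_upwards [h η ρ₀ _ hη h1 h2 le_rfl x rfl (test_zero _),
    hm x rfl (2 * η) (C₀ / η ^ 2) _ (by positivity) (by nlinarith) (by positivity) a1.lap
      (int_lap a1) a4,
    hm x rfl (3 * (lam * (2 * η))) C₀ _ (by positivity) (by linarith) hC₀ b2 b5 fun y => b7 _]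
    with n e1 e2 e3
  have e4 := e1 (fun _ => 1) (by simp)
  simp only [mul_one, Ex_const (hI.good n)] at e4
  have e5 := abs_mul4 (by positivity) (by positivity) e2 e3
  have e6 : Cm * (C₀ / η ^ 2 * (2 * η) ^ 2) * (Cm * (C₀ * (3 * (lam * (2 * η))) ^ 2)) =
      (Cm * C₀ * 4) * (Cm * C₀ * (6 * lam) ^ 2) * η ^ 2 := by
    field_simp
    ring
  rw [e6] at e5
  rw [abs_le] at e4 e5 ⊢
  constructor <;> nlinarith [e4.1, e4.2, e5.1, e5.2]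

theorem consts {Cm C₁ C lam η ρ : ℝ} (hP : 0 < Cm * C₁) (hlam : 1 ≤ lam) (hη : 0 < η)
    (c4 : 72 * lam ^ 3 * (Cm * C₁) ≤ C) :
    Cm * (C₁ / η ^ 2 * (2 * η) ^ 2) ≤ C ∧ Cm * (C₁ / η * (2 * η) ^ 2) ≤ C * η ∧
    Cm * (C₁ * (3 * (lam * (2 * η))) ^ 2) ≤ C * η ^ 2 ∧
    Cm * (C₁ * (lam * (2 * η)) * (3 * (lam * (2 * η))) ^ 2) ≤ C * η ^ 3 ∧
    Cm * (C₁ * (3 * ρ) ^ 2) ≤ C * ρ ^ 2 := by
  have l2 : 1 ≤ lam ^ 2 := one_le_pow₀ hlam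
  have l3 : lam ^ 2 ≤ lam ^ 3 := pow_le_pow_right₀ hlam (by norm_num)
  have c5 : 36 * lam ^ 2 * (Cm * C₁) ≤ C :=
    (mul_le_mul_of_nonneg_right (by linarith) hP.le).trans c4
  have c6 : 9 * (Cm * C₁) ≤ C := (mul_le_mul_of_nonneg_right (by linarith) hP.le).trans c4
  refine ⟨?_, ?_, ?_, ?_, ?_⟩
  · rw [show Cm * (C₁ / η ^ 2 * (2 * η) ^ 2) = 4 * (Cm * C₁) by field_simp; ring]
    linarith
  · rw [show Cm * (C₁ / η * (2 * η) ^ 2) = 4 * (Cm * C₁) * η by field_simp; ring]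
    exact mul_le_mul_of_nonneg_right (by linarith) hη.le
  · rw [show Cm * (C₁ * (3 * (lam * (2 * η))) ^ 2) = 36 * lam ^ 2 * (Cm * C₁) * η ^ 2 by ring]
    exact mul_le_mul_of_nonneg_right c5 (by positivity)
  · rw [show Cm * (C₁ * (lam * (2 * η)) * (3 * (lam * (2 * η))) ^ 2) =
      72 * lam ^ 3 * (Cm * C₁) * η ^ 3 by ring]
    exact mul_le_mul_of_nonneg_right c4 (by positivity)
  · rw [show Cm * (C₁ * (3 * ρ) ^ 2) = 9 * (Cm * C₁) * ρ ^ 2 by ring]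
    exact mul_le_mul_of_nonneg_right c6 (by positivity)

theorem last {C ε η ρ : ℝ} (hC : 1 ≤ C) (hρ : 0 < ρ) (r1 : ρ ≤ 1) (r4 : ρ ≤ ε / (24 * C ^ 4))
    (t : η ≤ ε / (24 * C ^ 4)) :
    ε / 4 * η ^ 2 + C ^ 2 * (ε / (4 * C ^ 2) * η ^ 2) + 6 * C ^ 4 * η ^ 2 * (η + ρ ^ 2) ≤
      ε * η ^ 2 := by
  have z1 : C ^ 2 * (ε / (4 * C ^ 2) * η ^ 2) = ε / 4 * η ^ 2 := by field_simp
  have z2 : η + ρ ^ 2 ≤ 2 * (ε / (24 * C ^ 4)) := by nlinarith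
  have z3 : 6 * C ^ 4 * η ^ 2 * (2 * (ε / (24 * C ^ 4))) = ε / 2 * η ^ 2 := by
    field_simp
    ring
  have z4 := mul_le_mul_of_nonneg_left z2 (show 0 ≤ 6 * C ^ 4 * η ^ 2 by positivity)
  linarith

/-- Harmonicity with a given ratio. -/
def HarL (D : Set ℂ) (S : ℕ → Set Cfg) (Y : ℕ → (ℂ → ℝ) → Cfg → ℝ) (lam : ℝ) : Prop :=
  ∀ (x : ℂ) (η : ℝ) (f g : ℂ → ℝ), 0 < η →
  closedBall x (lam * η) ⊆ D → Test (ball x η) f → Test (closedBall x (lam * η))ᶜ g →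
  ∀ ε : ℝ, 0 < ε → ∀ᶠ n in atTop, ∀ Γ : ℝ → ℝ, (∀ t, |Γ t| ≤ 1) →
    |Ex (S n) fun H => Y n (lap f) H * Γ (Y n g H)| ≤ ε

theorem main (hf : S_fun) (ha : S_alg) (hI : WI0 D S Y) (hB : Bumps p k σ) (hlam : 1 ≤ lam)
    (har : HarL D S Y lam) (mix' : MixP D S Y p (qq k σ) lam κ) : Cell D S Y p κ := by
  have bd := bound hf hI hB hlam mix'
  refine ⟨bd, fun f g hf' hg K hK hKD ε hε => ?_⟩
  obtain ⟨Cb, ηb, hηb, bd⟩ := bd
  obtain ⟨C₁, hC₁, h1⟩ := hf p k σ f g hB hf' hg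
  obtain ⟨Cm, ηm, hCm, hηm, hm⟩ := hI.m0 K hK hKD
  obtain ⟨Cf, hCf⟩ := hf'.bdd
  obtain ⟨Cg, hCg⟩ := hg.bdd
  obtain ⟨d, hd, hth⟩ := hK.exists_cthickening_subset_open hI.op hKD
  have hCf0 : 0 ≤ Cf := (abs_nonneg _).trans (hCf 0)
  have hCg0 : 0 ≤ Cg := (abs_nonneg _).trans (hCg 0)
  obtain ⟨C, hC, c1, c2, c3, c4⟩ : ∃ C : ℝ, 1 ≤ C ∧ Cf ≤ C ∧ Cg ≤ C ∧ Cb ≤ C ∧
      72 * lam ^ 3 * (Cm * C₁) ≤ C := by
    have : 0 ≤ 72 * lam ^ 3 * (Cm * C₁) := by positivity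
    exact ⟨1 + Cf + Cg + |Cb| + 72 * lam ^ 3 * (Cm * C₁), by linarith [abs_nonneg Cb],
      by linarith [abs_nonneg Cb], by linarith [abs_nonneg Cb], by linarith [le_abs_self Cb],
      by linarith [abs_nonneg Cb]⟩
  have hP : 0 < Cm * C₁ := by positivity
  obtain ⟨θ, ρ₀, hθ, hρ₀, hx⟩ := mix' K hK hKD (ε / (4 * C ^ 2)) (by positivity)
  obtain ⟨ρ, hρ, r1, r2, r3, r4⟩ : ∃ ρ : ℝ, 0 < ρ ∧ ρ ≤ 1 ∧ ρ ≤ ρ₀ ∧ 3 * ρ ≤ ηm ∧
      ρ ≤ ε / (24 * C ^ 4) :=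
    ⟨min (min 1 ρ₀) (min (ηm / 3) (ε / (24 * C ^ 4))), by positivity,
      (min_le_left _ _).trans (min_le_left _ _), (min_le_left _ _).trans (min_le_right _ _),
      by linarith [(min_le_right (min 1 ρ₀) _).trans (min_le_left (ηm / 3) (ε / (24 * C ^ 4)))],
      (min_le_right _ _).trans (min_le_right _ _)⟩
  refine ⟨min (min (min 1 (θ * ρ)) (min ηm d)) (min ηb (ε / (24 * C ^ 4))) / (6 * lam),
    by positivity, fun η hη hle x hxK w w₁ hw => ?_⟩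
  rw [le_div_iff₀ (by positivity), mul_comm] at hle
  simp only [le_min_iff] at hle
  obtain ⟨⟨⟨t1, t2⟩, t3, t4⟩, t5, t6⟩ := hle
  have hηl : η ≤ lam * η := le_mul_of_one_le_left hη.le hlam
  have hs : 0 < lam * (2 * η) := by positivity
  obtain ⟨⟨a1, a2, -, a4, a5, a6⟩, -⟩ := h1 x η hη (by linarith)
  obtain ⟨-, b1, b2, b3, b4, b5, b6, -, b8⟩ := h1 x _ hs (by linarith)
  obtain ⟨-, b1', -, b3', b4', -, b6', -⟩ := h1 x ρ hρ r1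
  have hball : closedBall x (lam * (2 * η)) ⊆ D :=
    ((closedBall_subset_closedBall (by linarith)).trans (closedBall_subset_cthickening hxK d)).trans
      hth
  have m4 : ∀ (r A c : ℝ) (F : ℂ → ℝ), 0 < r → r ≤ ηm → 0 < A → Test (ball x r) F →
      ∫ z, F z = 0 → (∀ y, |F y| ≤ A) → Cm * (A * r ^ 2) ≤ c →
      ∀ᶠ n in atTop, Ex (S n) (fun H => Y n F H ^ 4) ≤ c ^ 4 := fun r A c F q1 q2 q3 q4 q5 q6 q7 =>
    (hm x hxK r A F q1 q2 q3 q4 q5 q6).mono fun n hn =>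
      hn.trans (pow_le_pow_left₀ (by positivity) q7 4)
  have hη2 : 0 < η ^ 2 := by positivity
  obtain ⟨k1, k2, k3, k4, k5⟩ := consts (ρ := ρ) hP hlam hη c4
  filter_upwards [bd η hη (by linarith),
    m4 (2 * η) _ C _ (by positivity) (by linarith) (by positivity) a2.lap (int_lap a2) a5 k1,
    m4 (2 * η) _ C _ (by positivity) (by linarith) (by positivity) a1.lap (int_lap a1) a4 k1,
    m4 (2 * η) _ _ _ (by positivity) (by linarith) (by positivity)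
      (a2.lap.sub (a1.lap.const_mul (f x)))
      (by rw [integral_sub a2.lap.integrable (a1.lap.const_mul _).integrable, integral_const_mul,
        int_lap a1, int_lap a2]; simp) a6 k2,
    m4 _ _ _ _ (by positivity) (by linarith) hC₁ b1 b4 b6 k3,
    m4 _ _ _ _ (by positivity) (by linarith) (by positivity) (b1.sub (b2.const_mul (g x)))
      (by rw [integral_sub b1.integrable (b2.const_mul _).integrable, integral_const_mul,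
        b4, b5]; simp) b8 k4,
    m4 _ _ _ _ (by positivity) r3 hC₁ b1' b4' b6' k5,
    har x (2 * η) _ _ (by positivity) hball a2 b3 (ε / 4 * η ^ 2) (by positivity),
    hx η ρ _ hη t1 t2 r2 x hxK b3'] with n e0 e1 e2 e3 e4 e5 e6 e7 e8
  simp only [Y_sub hI n a2.lap a1.lap] at e3
  simp only [Y_sub hI n b1 b2] at e5
  have e7' := e7 w hw.b0
  have e8' := e8 w₁ hw.b1
  simp only [Y_sub' hI n hg b1] at e7'
  simp only [Y_sub' hI n hg b1'] at e8'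
  refine (ha (S n) _ _ _ _ _ _ w w₁ (f x) (g x) _ C η ρ _ _ (hI.good n) hw hC hη (by linarith) hρ
    ((hCf x).trans c1) ((hCg x).trans c2)
    (e0.trans (mul_le_mul_of_nonneg_right c3 hη2.le)) e1 e2 e3 e4 e5 e6 e7' e8').trans ?_
  exact last hC hρ r1 r4 (by linarith)

end Cell

open Cell in
theorem s_cell (hf : S_fun) (ha : S_alg) : S_cell := by
  intro D S Y p k σ hI hB
  obtain ⟨lam, hlam, har⟩ := hI.har
  obtain ⟨κ, mix'⟩ := mixP hf hI hB hlam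
  exact ⟨κ, main hf ha hI hB hlam har mix'⟩

end Vale.Agent.P153.Wick
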