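import Vale.Agent.P153.Wick.Stm

/-! P153, field part: the lattice Laplacian approximates the Laplacian. -/

open Set Filter Topology MeasureTheory Metric
open Vale.Agent.P071 (Test lap DD hh g0 Conf)

namespace Vale.Agent.P153.Wick

namespace Dl

open Vale.Agent.P071 (dd)

theorem der {f : ℂ → ℝ} (hf : Test univ f) (w v : ℂ) (t : ℝ) :
    HasDerivAt (fun s : ℝ => f (w + s * v)) (dd v f (w + t * v)) t := by
  have h1 : HasDerivAt (fun s : ℝ => w + s * v) v t := by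
    simpa using ((Complex.ofRealCLM.hasDerivAt (x := t)).mul_const v).const_add w
  exact (hf.diffAt _).hasFDerivAt.comp_hasDerivAt t h1

theorem two {f : ℂ → ℝ} (hf : Test univ f) (w v : ℂ) {h : ℝ} (h0 : 0 < h) :
    ∃ t : ℝ, |t| ≤ h ∧ f (w + h * v) + f (w - h * v) - 2 * f w =
      h ^ 2 * dd v (dd v f) (w + t * v) := by
  have k1 : ∀ s : ℝ, HasDerivAt (fun s : ℝ => f (w + (s + h : ℝ) * v) - f (w + s * v))
      (dd v f (w + (s + h : ℝ) * v) - dd v f (w + s * v)) s := fun s =>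
    ((der hf w v (s + h)).comp_add_const s h).sub (der hf w v s)
  obtain ⟨ξ, hξ, e1⟩ := exists_hasDerivAt_eq_slope _ _ (neg_lt_zero.2 h0)
    (fun s _ => (k1 s).continuousAt.continuousWithinAt) fun s _ => k1 s
  obtain ⟨t, ht, e2⟩ := exists_hasDerivAt_eq_slope _ _ (lt_add_of_pos_right ξ h0)
    (fun s _ => (der (hf.dd v) w v s).continuousAt.continuousWithinAt)
    fun s _ => der (hf.dd v) w v s
  refine ⟨t, abs_le.2 ⟨by linarith [hξ.1, ht.1], by linarith [hξ.2, ht.2]⟩, ?_⟩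
  rw [e2, e1]
  simp only [zero_add, neg_add_cancel, Complex.ofReal_zero, zero_mul, add_zero,
    Complex.ofReal_neg, neg_mul, sub_neg_eq_add, add_sub_cancel_left, ← sub_eq_add_neg]
  field_simp
  ring

theorem e1 (δ : ℝ) (y : V) :
    (δ : ℂ) * emb (y.1 - 1, y.2 + 2) = δ * emb y + (√3 * δ : ℝ) * Complex.I ∧
    (δ : ℂ) * emb (y.1 + 1, y.2 - 2) = δ * emb y - (√3 * δ : ℝ) * Complex.I ∧
    (δ : ℂ) * emb (y.1 + 1, y.2) = δ * emb y + δ * 1 ∧
    (δ : ℂ) * emb (y.1 - 1, y.2) = δ * emb y - δ * 1 := by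
  have h : ∀ i j : ℤ, emb (y.1 + (i - j), y.2 + 2 * j) = emb y + (i + j * (√3 * Complex.I)) :=
    fun i j => by apply Complex.ext <;> simp [emb] <;> ring
  have h1 := h 0 1
  have h2 := h 0 (-1)
  have h3 := h 1 0
  have h4 := h (-1) 0
  simp only [zero_sub, mul_one, mul_neg, neg_neg, sub_zero, mul_zero, add_zero,
    ← sub_eq_add_neg] at h1 h2 h3 h4
  rw [h1, h2, h3, h4]
  push_cast
  refine ⟨?_, ?_, ?_, ?_⟩ <;> ring

theorem s3 : √3 ≤ 2 := Real.sqrt_le_iff.2 ⟨zero_le_two, by norm_num⟩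

theorem supp {f : ℂ → ℝ} {δ : ℝ} (h0 : 0 < δ) {y : V}
    (h : Vale.P153.Spec.lap (fun v => f (δ * emb v)) y ≠ 0) :
    ∃ z, f z ≠ 0 ∧ ‖z - δ * emb y‖ ≤ 2 * δ := by
  by_contra hc
  push Not at hc
  have k : ∀ u : ℂ, ‖u‖ ≤ 2 * δ → f (δ * emb y + u) = 0 := fun u hu => by
    by_contra h1
    exact absurd (hc _ h1) (by rwa [add_sub_cancel_left, not_lt])
  have k1 : ‖((√3 * δ : ℝ) : ℂ) * Complex.I‖ ≤ 2 * δ := by
    rw [norm_mul, Complex.norm_I, mul_one, Complex.norm_real, Real.norm_eq_abs,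
      abs_of_nonneg (by positivity)]
    exact mul_le_mul_of_nonneg_right s3 h0.le
  have k2 : ‖(δ : ℂ) * 1‖ ≤ 2 * δ := by
    rw [mul_one, Complex.norm_real, Real.norm_eq_abs, abs_of_pos h0]
    linarith
  obtain ⟨a1, a2, a3, a4⟩ := e1 δ y
  have k0 := k 0 (by rw [norm_zero]; positivity)
  rw [add_zero] at k0
  refine h ?_
  simp only [Vale.P153.Spec.lap, a1, a2, a3, a4, sub_eq_add_neg (δ * emb y), k _ k1, k _ k2, k0,
    k _ ((norm_neg _).trans_le k1), k _ ((norm_neg _).trans_le k2)]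
  simp

theorem even {f : ℂ → ℝ} (hf : Test univ f) {δ ε r : ℝ} (h0 : 0 < δ) (hr : 8 * δ < r)
    (h1 : ∀ v ∈ ({1, Complex.I} : Set ℂ), ∀ a b : ℂ, dist a b < r →
      dist (dd v (dd v f) a) (dd v (dd v f) b) < ε / 2) {y : V} (hy : Even y.2) {z : ℂ}
    (hz : ‖z - δ * emb y‖ ≤ 6 * δ) :
    |Vale.P153.Spec.lap (fun v => f (δ * emb v)) y - δ ^ 2 * lap f z| ≤ ε * δ ^ 2 := by
  obtain ⟨a1, a2, a3, a4⟩ := e1 δ y
  obtain ⟨t, ht, b1⟩ := two hf (δ * emb y) Complex.I (show 0 < √3 * δ by positivity)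
  obtain ⟨u, hu, b2⟩ := two hf (δ * emb y) 1 h0
  have k : ∀ (s : ℝ) (v : ℂ), |s| ≤ 2 * δ → ‖v‖ = 1 → dist (δ * emb y + s * v) z < r :=
    fun s v hs hv => by
      have k1 := norm_sub_le ((s : ℂ) * v) (z - δ * emb y)
      rw [norm_mul, hv, mul_one, Complex.norm_real, Real.norm_eq_abs] at k1
      rw [dist_eq_norm, show δ * emb y + s * v - z = s * v - (z - δ * emb y) by ring]
      linarith
  have c1 := h1 _ (Or.inr rfl) _ _
    (k t _ (ht.trans (mul_le_mul_of_nonneg_right s3 h0.le)) Complex.norm_I)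
  have c2 := h1 _ (Or.inl rfl) _ _ (k u _ (by linarith) norm_one)
  rw [Real.dist_eq] at c1 c2
  simp only [Vale.P153.Spec.lap, if_pos hy, a1, a2, a3, a4, b1, b2, P071.lap, P071.d1_eq,
    P071.d2_eq]
  rw [mul_pow, Real.sq_sqrt zero_le_three, mul_assoc, mul_div_cancel_left₀ _ three_ne_zero,
    ← mul_add, ← mul_sub, abs_mul, abs_of_pos (pow_pos h0 2), mul_comm]
  refine mul_le_mul_of_nonneg_right ?_ (sq_nonneg δ)
  rw [abs_lt] at c1 c2
  rw [abs_le]
  constructor <;> linarith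

end Dl

open Dl in
theorem s_dl (he : S_emb) : S_dl := by
  intro f hf ε hε
  have hu : ∀ v : ℂ, ∃ r > 0, ∀ a b : ℂ, dist a b < r →
      dist (P071.dd v (P071.dd v f) a) (P071.dd v (P071.dd v f) b) < ε / 2 := fun v =>
    Metric.uniformContinuous_iff.1 (((hf.dd v).dd v).2.1.uniformContinuous_of_continuous
      ((hf.dd v).dd v).continuous) _ (half_pos hε)
  obtain ⟨r₁, p1, q1⟩ := hu 1
  obtain ⟨r₂, p2, q2⟩ := hu Complex.I
  obtain ⟨R, hR⟩ := hf.2.1.isCompact.isBounded.exists_norm_le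
  have p3 := lt_min p1 p2
  refine ⟨min r₁ r₂ / 10, by positivity, fun δ h0 h1 => ?_⟩
  have hfin : (Function.support
      (Vale.P153.Spec.lap fun v => f (δ * emb v))).Finite := by
    refine (hex_finite 0 ⌈6 / 5 * (R / δ + 2)⌉₊).subset fun y hy => ?_
    obtain ⟨z, hz, h2⟩ := supp h0 hy
    have h3 := hR z (subset_tsupport _ hz)
    have h4 := norm_sub_norm_le (δ * emb y) z
    rw [norm_sub_rev, norm_mul, Complex.norm_real, Real.norm_eq_abs, abs_of_pos h0] at h4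
    have h5 : ‖emb y‖ ≤ R / δ + 2 := by
      rw [div_add' _ _ _ h0.ne', le_div_iff₀' h0]
      linarith
    have h6 := Nat.le_ceil (6 / 5 * (R / δ + 2))
    show nrm (y - 0) ≤ _
    rw [sub_zero]
    exact_mod_cast ((he.2.2.1 y).2.trans (by linarith)).trans h6
  refine ⟨Finsupp.ofSupportFinite _ hfin, fun _ => rfl, fun y hy => supp h0 hy, fun y z hz => ?_⟩
  have key := @even f hf δ ε (min r₁ r₂) h0 (by linarith) (by
    rintro v (rfl | rfl) a b hab
    · exact q1 a b (hab.trans_le (min_le_left _ _))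
    · exact q2 a b (hab.trans_le (min_le_right _ _)))
  simp only [Finsupp.ofSupportFinite_coe]
  by_cases hy : Even y.2
  · have h2 : ¬ Even (y - (0, 1)).2 := by simpa [Int.even_sub_one] using hy
    have h3 : Vale.P153.Spec.lap (fun v => f (δ * emb v)) (y - (0, 1)) = 0 := if_neg h2
    rw [h3, add_zero]
    exact key hy (by linarith)
  · have h2 : Even (y - (0, 1)).2 := by simpa [Int.even_sub_one] using hy
    have h3 : Vale.P153.Spec.lap (fun v => f (δ * emb v)) y = 0 := if_neg hy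
    rw [h3, zero_add]
    refine key h2 ?_
    have h4 : ‖emb (0, 1)‖ ≤ 1 := by simpa [nrm] using (he.2.2.1 (0, 1)).1
    have h5 := norm_add_le (z - δ * emb y) (δ * emb (0, 1))
    rw [norm_mul, Complex.norm_real, Real.norm_eq_abs, abs_of_pos h0] at h5
    rw [he.2.1, show z - δ * (emb y - emb (0, 1)) = z - δ * emb y + δ * emb (0, 1) by ring]
    linarith [mul_le_of_le_one_right h0.le h4]

end Vale.Agent.P153.Wick
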