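import Vale.Agent.P153.Wick.Stm

/-! P153, field part: assembly of the theorem on the field. -/

open Set Filter Topology MeasureTheory Metric
open Vale.Agent.P071 (Test lap DD hh g0 Conf)

namespace Vale.Agent.P153.Wick

namespace Final

theorem avg_bij {α β 𝕜 : Type} [_root_.Field 𝕜] {S : Set α} {T : Set β} {e : α → β} (h : BijOn e S T)
    (f : β → 𝕜) : avg T f = avg S fun a => f (e a) := by
  rw [avg, avg, finsum_mem_eq_of_bijOn e h fun _ _ => rfl, ← h.image_eq, h.injOn.ncard_image]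

theorem avg_congr {α 𝕜 : Type} [_root_.Field 𝕜] {S : Set α} {f g : α → 𝕜} (h : ∀ a ∈ S, f a = g a) :
    avg S f = avg S g := by
  rw [avg, avg, finsum_mem_congr rfl h]

theorem lin_add (a b : V →₀ ℝ) (H : Cfg) : lin (a + b) H = lin a H + lin b H :=
  Finsupp.sum_add_index' (fun _ => zero_mul _) fun _ _ _ => add_mul _ _ _

theorem lin_smul (t : ℝ) (a : V →₀ ℝ) (H : Cfg) : lin (t • a) H = t * lin a H := by
  unfold lin
  rw [Finsupp.sum_smul_index' fun _ => zero_mul _, Finsupp.mul_sum]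
  simp only [smul_eq_mul, mul_assoc]

theorem lin_two {a : V →₀ ℝ} {H H' : Cfg} (h : ∀ x, a x ≠ 0 → H' x = 2 * H x - 1) :
    lin a H' = 2 * lin a H - tot a := by
  unfold lin tot Finsupp.sum
  rw [Finset.mul_sum, ← Finset.sum_sub_distrib]
  refine Finset.sum_congr rfl fun x hx => ?_
  show a x * (H' x : ℝ) = 2 * (a x * (H x : ℝ)) - a x
  rw [h x (Finsupp.mem_support_iff.1 hx)]
  push_cast
  ring

end Final

open Final in
theorem field_asm (hw : S_wt) (hl : S_loc) (hb : S_bij) (hc : S_conf) (hs : S_seq) (hW : S_wick)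
    (g1 : G_mb) (g2 : G_m0) (g3 : G_har) (g4 : G_mix) (g5 : G_var) (g6 : G_bv) : Field := by
  intro ψ L δ ε hψ hA hε
  obtain ⟨hq, hin⟩ := hs ψ L δ hψ hA
  obtain ⟨-, -, hconf, -, -, -, hQ⟩ := hc ψ hψ
  choose e he he' using fun n => hb (L n) ε hε
  have hg : ∀ n, Good (dob (Fr (L n)) (Sp (L n) ε)) := fun n => hl.1 _ _ (hq.dom n).1
  have hI : WIn (ψ '' ball 0 1) ψ (inv ψ) (cc ε) (fun n => dob (Fr (L n)) (Sp (L n) ε)) (YY δ) :=
    { op := hq.op
      bdd := hq.bdd
      ne := hq.ne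
      good := hg
      add := fun n f g hf hg H => by
        unfold YY
        rw [(hw (δ n) f (hq.pos n) hf).2.2.2.2.2.1 g hg, lin_add]
      smul := fun n t f hf H => by
        unfold YY
        rw [(hw (δ n) f (hq.pos n) hf).2.2.2.2.2.2.1 t, lin_smul]
      mb := g1 _ _ _ _ hq
      m0 := g2 _ _ _ _ hq
      har := g3 _ _ _ _ hq
      mix := g4 _ _ _ _ hq
      conf := hconf
      bv := g6 ψ L δ ε hψ hA hε
      var := g5 _ _ _ _ hq }
  obtain ⟨d, ⟨a, b, ha, hd⟩, hlim⟩ := hW _ _ _ _ _ _ hI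
  refine ⟨fun n => (he n).image_eq ▸ ⟨(hg n).1.image _, (hg n).2.image _⟩, fun n => 2 * d n,
    fun n => by linarith [(hd n).1], ⟨2 * a, 2 * b, by linarith, fun n =>
      ⟨by linarith [(hd n).1], by linarith [(hd n).2]⟩⟩, fun f hf => ?_⟩
  rw [hQ f]
  refine (hlim f hf).congr' ?_
  have hf' : Test univ f := ⟨hf.1, hf.2.1, subset_univ _⟩
  obtain ⟨d₀, hd₀, hth⟩ := hf.2.1.isCompact.exists_cthickening_subset_open hq.op hf.2.2
  filter_upwards [hin _ hf.2.1.isCompact hf.2.2, hq.inn _ (hf.2.1.isCompact.cthickening) hth,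
    hq.lim.eventually (ge_mem_nhds hd₀)] with n h1 h2 h3
  obtain ⟨-, -, w3, -, -, -, -, -, -, w10⟩ := hw (δ n) f (hq.pos n) hf'
  have hfield : ∀ H, (L n).field (δ n) f (e n H) = 2 * YY δ n f H - tot (wt (δ n) f) := fun H => by
    rw [w10 _ _ fun z hz => h1 z (subset_tsupport _ hz)]
    refine lin_two fun x hx => he' n H x (h2 x ?_)
    obtain ⟨z, hz, hzx⟩ := w3 x hx
    refine mem_cthickening_of_dist_le _ z _ _ (subset_tsupport _ hz) ?_
    rw [dist_comm, dist_eq_norm]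
    exact hzx.le.trans h3
  have havg : avg ((L n).Hts ε) ((L n).field (δ n) f) =
      2 * Ex (dob (Fr (L n)) (Sp (L n) ε)) (YY δ n f) - tot (wt (δ n) f) := by
    rw [avg_bij (he n), ← Ex_mul_left, ← Ex_const (hg n) (tot _), ← Ex_sub]
    exact avg_congr fun H _ => hfield H
  rw [havg, avg_bij (he n)]
  refine avg_congr fun H _ => ?_
  rw [hfield]
  have : d n ≠ 0 := by linarith [(hd n).1] |> fun h : 0 < d n => h.ne'
  congr 3
  field_simp
  ring

end Vale.Agent.P153.Wick
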