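import Vale.Agent.P153.Wick.Stm

/-! P153, field part: calculus for the cells. -/

open Set Filter Topology MeasureTheory Metric
open Vale.Agent.P071 (Test lap DD hh g0 Conf)

namespace Vale.Agent.P153.Wick

namespace Fun

open Vale.Agent.P071 (dd gdot oo)

variable {p q u f g : ℂ → ℝ} {x : ℂ} {s r : ℝ}

/-- The affine map behind `sc`. -/
noncomputable def hom (x : ℂ) (s : ℝ) (hs : 0 < s) : ℂ ≃ₜ ℂ :=
  (Homeomorph.subRight x).trans
    (Homeomorph.mulRight₀ ((s : ℂ)⁻¹) (inv_ne_zero (Complex.ofReal_ne_zero.2 hs.ne')))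

theorem hom_apply (hs : 0 < s) (z : ℂ) : hom x s hs z = (z - x) / s := by
  simp [hom, div_eq_mul_inv]

theorem sc_eq (hs : 0 < s) : sc p x s = p ∘ hom x s hs := by
  funext z
  simp [sc, hom_apply]

theorem mem_ball_iff (hs : 0 < s) (z : ℂ) :
    (z - x) / s ∈ ball (0 : ℂ) r ↔ z ∈ ball x (r * s) := by
  rw [mem_ball_zero_iff, mem_ball, dist_eq_norm, norm_div, Complex.norm_real, Real.norm_eq_abs,
    abs_of_pos hs, div_lt_iff₀ hs]

theorem contDiff_aff : ContDiff ℝ oo fun z : ℂ => (z - x) / s :=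
  (contDiff_id.sub contDiff_const).div_const _

theorem test_sc (hp : Test (ball 0 r) p) (hs : 0 < s) : Test (ball x (r * s)) (sc p x s) := by
  refine ⟨hp.1.comp contDiff_aff, ?_, ?_⟩
  · rw [sc_eq hs]
    exact hp.2.1.comp_homeomorph _
  · rw [sc_eq hs, tsupport, Function.support_comp_eq_preimage, ← Homeomorph.preimage_closure]
    intro z hz
    have := hp.2.2 hz
    rw [hom_apply] at this
    exact (mem_ball_iff hs z).1 this

theorem test_univ {U : Set ℂ} (hp : Test U p) : Test univ p := ⟨hp.1, hp.2.1, subset_univ _⟩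

theorem dd_sc (hp : Test univ p) (v : ℂ) :
    dd v (sc p x s) = fun z => s⁻¹ * sc (dd v p) x s z := by
  funext z
  have h1 : HasFDerivAt (fun z : ℂ => (z - x) / s) (s⁻¹ • ContinuousLinearMap.id ℝ ℂ) z := by
    have h := ((hasFDerivAt_id (𝕜 := ℝ) z).sub_const x).const_smul (s⁻¹ : ℝ)
    have e : (fun z : ℂ => (z - x) / s) = (s⁻¹ : ℝ) • fun z : ℂ => id z - x := by
      funext y
      simp [div_eq_inv_mul]
    rw [e]
    exact h
  have h2 := ((hp.diffAt ((z - x) / s)).hasFDerivAt.comp z h1).fderiv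
  have e : sc p x s = p ∘ fun z : ℂ => (z - x) / s := rfl
  unfold dd
  rw [e, h2]
  simp [sc]

theorem lap_sc (hp : Test univ p) (z : ℂ) :
    lap (sc p x s) z = (s ^ 2)⁻¹ * sc (lap p) x s z := by
  unfold lap
  rw [P071.d1_eq, P071.d2_eq, dd_sc hp, dd_sc hp, P071.dd_const_mul, P071.dd_const_mul,
    dd_sc (hp.dd 1), dd_sc (hp.dd Complex.I)]
  simp only [sc]
  ring

theorem integral_sc (q : ℂ → ℝ) (hs : 0 < s) : ∫ z, sc q x s z = s ^ 2 * ∫ z, q z := by
  have e : (fun z => sc q x s z) = fun z => (fun y : ℂ => q ((s⁻¹ : ℝ) • y)) (z - x) := by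
    funext z
    simp [sc, div_eq_inv_mul]
  rw [e, integral_sub_right_eq_self (fun y : ℂ => q ((s⁻¹ : ℝ) • y)) x,
    Measure.integral_comp_inv_smul_of_nonneg volume q hs.le, Complex.finrank_real_complex,
    smul_eq_mul]

theorem ev_bdd {U : Set ℂ} (hp : Test U p) : ∀ᶠ A : ℝ in atTop, ∀ z, |p z| ≤ A := by
  obtain ⟨C, hC⟩ := hp.bdd
  filter_upwards [eventually_ge_atTop C] with A hA z using (hC z).trans hA

theorem ev_lip (hp : Test univ p) : ∀ᶠ A : ℝ in atTop, ∀ z w, |p z - p w| ≤ A * dist z w := by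
  obtain ⟨C, hC⟩ := hp.1.lipschitzWith_of_hasCompactSupport hp.2.1 (by simp)
  filter_upwards [eventually_ge_atTop (C : ℝ)] with A hA z w
  have := hC.dist_le_mul z w
  rw [Real.dist_eq] at this
  exact this.trans (mul_le_mul_of_nonneg_right hA dist_nonneg)

theorem lip_mul {A R : ℝ} (hA : 0 ≤ A) (hg : ∀ z w, |g z - g w| ≤ A * dist z w)
    (hu : Test (ball x R) u) (z : ℂ) : |(g z - g x) * u z| ≤ A * R * |u z| := by
  by_cases hz : z ∈ ball x R
  · rw [abs_mul]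
    refine mul_le_mul_of_nonneg_right ((hg z x).trans ?_) (abs_nonneg _)
    exact mul_le_mul_of_nonneg_left (le_of_lt hz) hA
  · simp [hu.eq_zero hz]

theorem abs_mul_le {a b A B : ℝ} (ha : |a| ≤ A) (hb : |b| ≤ B) : |a * b| ≤ A * B := by
  rw [abs_mul]
  exact mul_le_mul ha hb (abs_nonneg _) ((abs_nonneg _).trans ha)

theorem abs_int_le {w : ℂ → ℝ} {B : ℝ} (hs : 0 < s) {U : Set ℂ}
    (hq' : Test U (sc q x s)) (hw : ∀ z, |w z| ≤ B * |sc q x s z|) :
    |∫ z, w z| ≤ B * (s ^ 2 * ∫ z, |q z|) := by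
  have h1 : ∫ z, |sc q x s z| = s ^ 2 * ∫ z, |q z| := integral_sc (fun z => |q z|) hs
  rw [← h1, ← integral_const_mul, ← Real.norm_eq_abs]
  exact norm_integral_le_of_norm_le (hq'.integrable.abs.const_mul B)
    (Eventually.of_forall fun z => by rw [Real.norm_eq_abs]; exact hw z)

/-- The three bounds for the Laplacians. -/
theorem lap_bounds {A : ℝ} (hA : 1 ≤ A) (hp : Test (ball 0 2) p) (hf : Test univ f)
    (p0 : ∀ z, |p z| ≤ A) (p1 : ∀ z, |dd 1 p z| ≤ A) (p2 : ∀ z, |dd Complex.I p z| ≤ A)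
    (p3 : ∀ z, |lap p z| ≤ A) (f0 : ∀ z, |f z| ≤ A) (f1 : ∀ z, |dd 1 f z| ≤ A)
    (f2 : ∀ z, |dd Complex.I f z| ≤ A) (f3 : ∀ z, |lap f z| ≤ A)
    (fl : ∀ z w, |f z - f w| ≤ A * dist z w) (hs : 0 < s) (hs1 : s ≤ 1) :
    (∀ z, |lap (sc p x s) z| ≤ 7 * A ^ 3 / s ^ 2) ∧
      (∀ z, |lap (fun z => f z * sc p x s z) z| ≤ 7 * A ^ 3 / s ^ 2) ∧
      ∀ z, |lap (fun z => f z * sc p x s z) z - f x * lap (sc p x s) z| ≤ 7 * A ^ 3 / s := by
  have hA0 : 0 ≤ A := by linarith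
  have hp' := test_univ hp
  have ht := test_sc (x := x) hp hs
  obtain ⟨t, ht1, hts⟩ : ∃ t : ℝ, 1 ≤ t ∧ s⁻¹ = t := ⟨s⁻¹, (one_le_inv₀ hs).2 hs1, rfl⟩
  have hst : s * t = 1 := by rw [← hts, mul_inv_cancel₀ hs.ne']
  have ht0 : 0 ≤ t := by linarith
  have hA2 : A ≤ A ^ 2 := by nlinarith
  have hA3 : A ^ 2 ≤ A ^ 3 := by nlinarith
  have htt : t ≤ t ^ 2 := by nlinarith
  have hl : ∀ z, |lap (sc p x s) z| ≤ t ^ 2 * A := fun z => by
    rw [lap_sc hp', ← inv_pow, hts]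
    exact abs_mul_le (by rw [abs_of_nonneg (sq_nonneg t)]) (p3 _)
  have hd : ∀ v, (∀ z, |dd v p z| ≤ A) → ∀ z, |dd v (sc p x s) z| ≤ t * A := fun v hv z => by
    rw [dd_sc hp', hts]
    exact abs_mul_le (by rw [abs_of_nonneg ht0]) (hv _)
  have hm : ∀ z, |lap (fun z => f z * sc p x s z) z - f z * lap (sc p x s) z| ≤
      5 * A ^ 2 * t := fun z => by
    rw [P071.lap_mul (hf.1.contDiffAt.of_le P071.two_le_oo) (ht.1.contDiffAt.of_le P071.two_le_oo),
      add_sub_cancel_right]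
    have a1 : |lap f z * sc p x s z| ≤ A * A := abs_mul_le (f3 z) (p0 _)
    have a2 := abs_mul_le (f1 z) (hd 1 p1 z)
    have a3 := abs_mul_le (f2 z) (hd Complex.I p2 z)
    have a4 : A * A ≤ A ^ 2 * t := by nlinarith [sq_nonneg A]
    unfold gdot
    rw [P071.d1_eq, P071.d2_eq]
    rw [abs_le] at a1 a2 a3 ⊢
    constructor <;> nlinarith [a1.1, a1.2, a2.1, a2.2, a3.1, a3.2]
  have e2 : 7 * A ^ 3 / s ^ 2 = 7 * A ^ 3 * t ^ 2 := by rw [div_eq_mul_inv, ← inv_pow, hts]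
  have e1 : 7 * A ^ 3 / s = 7 * A ^ 3 * t := by rw [div_eq_mul_inv, hts]
  have b1 : A ^ 2 * t ≤ A ^ 3 * t := mul_le_mul_of_nonneg_right hA3 ht0
  have b2 : A ^ 2 * t ^ 2 ≤ A ^ 3 * t ^ 2 := mul_le_mul_of_nonneg_right hA3 (sq_nonneg t)
  have b3 : A ^ 2 * t ≤ A ^ 2 * t ^ 2 := mul_le_mul_of_nonneg_left htt (sq_nonneg A)
  have b4 : A * t ^ 2 ≤ A ^ 2 * t ^ 2 := mul_le_mul_of_nonneg_right hA2 (sq_nonneg t)
  have b5 : 0 ≤ A ^ 2 * t ^ 2 := by positivity
  rw [e1, e2]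
  refine ⟨fun z => (hl z).trans (by linarith), fun z => ?_, fun z => ?_⟩
  · have a1 := hm z
    have a2 := abs_mul_le (f0 z) (hl z)
    have a3 : A * (t ^ 2 * A) = A ^ 2 * t ^ 2 := by ring
    rw [abs_le] at a1 a2 ⊢
    constructor <;> linarith [a1.1, a1.2, a2.1, a2.2]
  · have a1 := hm z
    have a2 := (lip_mul hA0 fl ht.lap z).trans
      (mul_le_mul_of_nonneg_left (hl z) (by positivity))
    have a3 : A * (2 * s) * (t ^ 2 * A) = 2 * (A ^ 2 * t) := by
      have : A * (2 * s) * (t ^ 2 * A) = 2 * (A ^ 2 * t) * (s * t) := by ring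
      rw [this, hst, mul_one]
    rw [a3, sub_mul] at a2
    rw [abs_le] at a1 a2 ⊢
    constructor <;> linarith [a1.1, a1.2, a2.1, a2.2]

end Fun

open Fun in
theorem s_fun : S_fun := by
  intro p k σ f g hB hf hg
  have hp := hB.p_test
  have hk := hB.k_test
  have hσ := hB.σ_test
  obtain ⟨A, hA, p0, p1, p2, p3, f0, f1, f2, f3, fl, k0, σ0, g0, gl, hI⟩ :=
    ((eventually_ge_atTop (1 : ℝ)).and <| (ev_bdd hp).and <| (ev_bdd (hp.dd 1)).and <|
      (ev_bdd (hp.dd Complex.I)).and <| (ev_bdd hp.lap).and <| (ev_bdd hf).and <|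
      (ev_bdd (hf.dd 1)).and <| (ev_bdd (hf.dd Complex.I)).and <| (ev_bdd hf.lap).and <|
      (ev_lip hf).and <| (ev_bdd hk).and <| (ev_bdd hσ).and <| (ev_bdd hg).and <|
      (ev_lip hg).and <| eventually_ge_atTop (∫ z, |k z|)).exists
  have hA0 : 0 ≤ A := by linarith
  have hA2 : A ≤ A ^ 2 := by nlinarith
  have hA3 : A ^ 2 ≤ A ^ 3 := by nlinarith
  have hq : Test (ball 0 3) (qq k σ) := hk.sub (hσ.const_mul _)
  have hIk : |∫ z, k z| ≤ A := abs_integral_le_integral_abs.trans hI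
  refine ⟨7 * A ^ 3, by positivity, fun x s hs hs1 => ?_⟩
  have hs2 : 0 < s ^ 2 := by positivity
  have tp := test_sc (x := x) hp hs
  have tk := test_sc (x := x) hk hs
  have tσ := test_sc (x := x) hσ hs
  have tgk : Test (ball x (3 * s)) fun z => g z * sc k x s z :=
    tk.mul_left isOpen_ball hg.contDiffOn
  have tn : Test (ball x (3 * s)) (nearP k σ g x s) := tgk.sub (tσ.const_mul _)
  obtain ⟨l1, l2, l3⟩ := lap_bounds (x := x) hA hp hf p0 p1 p2 p3 f0 f1 f2 f3 fl hs hs1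
  have iσ : ∫ z, sc σ x s z = s ^ 2 := by rw [integral_sc σ hs, hB.σ_int, mul_one]
  have hdiv : ∀ {c B : ℝ}, 0 ≤ B → |c| ≤ B * (s ^ 2 * ∫ z, |k z|) → |c / s ^ 2| ≤ B * A := by
    intro c B hB0 hc
    rw [abs_div, abs_of_pos hs2, div_le_iff₀ hs2]
    refine hc.trans ?_
    rw [mul_assoc, mul_comm A]
    exact mul_le_mul_of_nonneg_left (mul_le_mul_of_nonneg_left hI hs2.le) hB0
  refine ⟨⟨tp, tp.mul_left isOpen_ball hf.contDiffOn, fun z => ?_, l1, l2, l3⟩, tn,
    test_sc hq hs, ?_, ?_, ?_, fun z => ?_, fun z => ?_, fun z => ?_⟩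
  · rw [lap_sc (test_univ hp), lap_sc (test_univ hp)]
    simp only [sc, sub_zero]
  · have h := hg.sub (test_univ tn)
    refine ⟨h.1, h.2.1, fun z hz hz' => ?_⟩
    refine notMem_tsupport_iff_eventuallyEq.2 ?_ hz
    have hz2 : z ∈ ball x (2 * s) := closedBall_subset_ball (by linarith) hz'
    filter_upwards [isOpen_ball.mem_nhds hz2] with y hy
    have hy' := (mem_ball_iff hs y).2 hy
    simp [nearP, sc, hB.k_one _ hy', hB.σ_zero _ hy']
  · unfold nearP
    rw [integral_sub tgk.integrable (tσ.const_mul _).integrable, integral_const_mul, iσ,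
      div_mul_cancel₀ _ hs2.ne', sub_self]
  · rw [integral_sc _ hs]
    unfold qq
    rw [integral_sub hk.integrable (hσ.const_mul _).integrable, integral_const_mul, hB.σ_int,
      mul_one, sub_self, mul_zero]
  · have a1 : |g z * sc k x s z| ≤ A * A := abs_mul_le (g0 z) (k0 _)
    have a2 := hdiv hA0 (abs_int_le (w := fun y => g y * sc k x s y) hs tk
      fun y => abs_mul_le (g0 y) le_rfl)
    have a3 : |(∫ y, g y * sc k x s y) / s ^ 2 * sc σ x s z| ≤ A * A * A := abs_mul_le a2 (σ0 _)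
    refine (abs_sub _ _).trans ?_
    nlinarith
  · have a1 : |(∫ y, k y) * σ z| ≤ A * A := abs_mul_le hIk (σ0 z)
    refine (abs_sub _ _).trans ?_
    nlinarith [k0 z]
  · have a1 : |(g z - g x) * sc k x s z| ≤ A * (3 * s) * A :=
      (lip_mul hA0 gl tk z).trans (mul_le_mul_of_nonneg_left (k0 _) (by positivity))
    have a2 := hdiv (by positivity) (abs_int_le (w := fun y => (g y - g x) * sc k x s y)
      hs tk (lip_mul hA0 gl tk))
    have a3 : |(∫ y, (g y - g x) * sc k x s y) / s ^ 2 * sc σ x s z| ≤ A * (3 * s) * A * A :=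
      abs_mul_le a2 (σ0 _)
    have e1 : ∫ y, (g y - g x) * sc k x s y =
        (∫ y, g y * sc k x s y) - g x * (s ^ 2 * ∫ y, k y) := by
      simp only [sub_mul]
      rw [integral_sub tgk.integrable (tk.const_mul _).integrable, integral_const_mul,
        integral_sc k hs]
    have e2 : nearP k σ g x s z - g x * sc (qq k σ) x s z = (g z - g x) * sc k x s z -
        (∫ y, (g y - g x) * sc k x s y) / s ^ 2 * sc σ x s z := by
      rw [e1]
      unfold nearP
      have : sc (qq k σ) x s z = sc k x s z - (∫ y, k y) * sc σ x s z := rfl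
      rw [this]
      field_simp
      ring
    rw [e2]
    refine (abs_sub _ _).trans ?_
    have b1 : A ^ 2 * s ≤ A ^ 3 * s := mul_le_mul_of_nonneg_right hA3 hs.le
    have b2 : 0 ≤ A ^ 3 * s := by positivity
    nlinarith

end Vale.Agent.P153.Wick
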