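import Vale.Agent.P153.Wick.Stm

/-! P153, field part: asymptotic harmonicity in the continuum layer. -/

open Set Filter Topology MeasureTheory Metric
open Vale.Agent.P071 (Test lap DD hh g0 Conf)

namespace Vale.Agent.P153.Wick

namespace Ghar

theorem lin_eq (a : V →₀ ℝ) (H : Cfg) :
    lin a H = Finsupp.linearCombination ℝ (fun x => (H x : ℝ)) a := by
  rw [Finsupp.linearCombination_apply]
  rfl

theorem lin_tr (a : V →₀ ℝ) (u : V) (H : Cfg) :
    lin (a.equivMapDomain (tr u)) H = lin a (H ∘ tr u) :=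
  Finsupp.sum_equivMapDomain _ _ _

theorem mom (S : Set Cfg) (X G : Cfg → ℝ) (hG : ∀ H, |G H| ≤ 1) {K : ℝ} (hK : 0 ≤ K)
    (h : Ex S (fun H => X H ^ 4) ≤ K ^ 4) : |Ex S fun H => X H * G H| ≤ K := by
  have h1 : |Ex S fun H => X H * G H| ≤ Ex S fun H => |X H| :=
    (abs_Ex_le _ _).trans (Ex_mono fun H _ => by
      rw [abs_mul]
      exact mul_le_of_le_one_right (abs_nonneg _) (hG H))
  have h2 := Ex_sq_le S fun H => |X H|
  have h3 := Ex_sq_le S fun H => |X H| ^ 2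
  simp only [sq_abs, ← pow_mul] at h2 h3
  refine h1.trans (le_of_pow_le_pow_left₀ (n := 4) (by norm_num) hK ?_)
  have h4 := pow_le_pow_left₀ (sq_nonneg _) h2 2
  rw [← pow_mul] at h4
  exact h4.trans (h3.trans h)

theorem dd_aff {f : ℂ → ℝ} (hf : Differentiable ℝ f) (x : ℂ) (η : ℝ) (v : ℂ) :
    P071.dd v (fun z => f (x + η • z)) = fun z => η * P071.dd v f (x + η • z) := by
  funext z
  have h := (hf (x + η • z)).hasFDerivAt.comp z
    (((hasFDerivAt_id (𝕜 := ℝ) z).const_smul η).const_add x)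
  have e : fderiv ℝ (fun z => f (x + η • z)) z = _ := h.fderiv
  rw [P071.dd, e, P071.dd, ← smul_eq_mul, ← map_smul]
  rfl

theorem lap_aff {f : ℂ → ℝ} (hf : Test univ f) (x : ℂ) (η : ℝ) (z : ℂ) :
    lap (fun z => f (x + η • z)) z = η ^ 2 * lap f (x + η • z) := by
  have e : ∀ v, P071.dd v (P071.dd v fun z => f (x + η • z)) z =
      η ^ 2 * P071.dd v (P071.dd v f) (x + η • z) := fun v => by
    rw [dd_aff hf.diffAt, P071.dd_const_mul, dd_aff (hf.dd v).diffAt]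
    ring
  simp only [lap, P071.d1_eq, P071.d2_eq, e]
  ring

theorem test_aff {f : ℂ → ℝ} {x : ℂ} {η : ℝ} (hf : Test (ball x η) f) (hη : 0 < η) :
    Test (ball 0 1) fun z => f (x + η • z) := by
  have hc : ContDiff ℝ (⊤ : ℕ∞) fun z : ℂ => x + η • z :=
    contDiff_const.add (contDiff_id.const_smul η)
  have h1 : tsupport (fun z => f (x + η • z)) ⊆ ball 0 1 := by
    refine (closure_minimal (t := (fun z : ℂ => x + η • z) ⁻¹' tsupport f)
      (fun z hz => subset_tsupport f hz)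
      ((isClosed_tsupport f).preimage hc.continuous)).trans fun z hz => ?_
    have h2 := hf.2.2 hz
    rw [mem_ball_iff_norm, add_sub_cancel_left, norm_smul, Real.norm_of_nonneg hη.le] at h2
    exact mem_ball_zero_iff.2 ((mul_lt_iff_lt_one_right hη).1 h2)
  exact ⟨hf.1.comp hc, (isCompact_closedBall 0 1).of_isClosed_subset (isClosed_tsupport _)
    (h1.trans ball_subset_closedBall), h1⟩

theorem nm {δ : ℝ} (hδ : 0 < δ) (z : ℂ) : ‖(δ : ℂ) * z‖ = δ * ‖z‖ := by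
  rw [norm_mul, Complex.norm_of_nonneg hδ.le]

theorem geo (he : S_emb) {δ : ℝ} (hδ : 0 < δ) (x : ℂ) :
    ∃ v, ‖δ * emb v - x‖ ≤ 2 * δ ∧ ‖δ * emb (v + (0, 1)) - x‖ ≤ 2 * δ := by
  obtain ⟨v, hv⟩ := he.2.2.2.1 (x / δ)
  have h0 : (δ : ℂ) ≠ 0 := Complex.ofReal_ne_zero.2 hδ.ne'
  have h1 : ‖δ * emb v - x‖ ≤ δ := by
    have e : δ * emb v - x = δ * (emb v - x / δ) := by field_simp
    rw [e, nm hδ, norm_sub_rev]
    nlinarith
  have h2 : ‖emb (0, 1)‖ ≤ 1 := by simpa [nrm] using (he.2.2.1 (0, 1)).1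
  refine ⟨v, by linarith, ?_⟩
  have e : δ * emb (v + (0, 1)) - x = (δ * emb v - x) + δ * emb (0, 1) := by
    rw [he.1]
    ring
  have h3 := norm_add_le (δ * emb v - x) (δ * emb (0, 1))
  rw [nm hδ] at h3
  rw [e]
  nlinarith

theorem tri (he : S_emb) {δ : ℝ} (hδ : 0 < δ) (x : ℂ) (y u : V) :
    ‖δ * emb y - x‖ ≤ δ * ‖emb (y - u)‖ + ‖δ * emb u - x‖ ∧
      δ * ‖emb (y - u)‖ ≤ ‖δ * emb y - x‖ + ‖δ * emb u - x‖ := by
  rw [← nm hδ, he.2.1]
  constructor
  · have e : δ * emb y - x = δ * (emb y - emb u) + (δ * emb u - x) := by ring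
    rw [e]
    exact norm_add_le _ _
  · have e : δ * (emb y - emb u) = (δ * emb y - x) - (δ * emb u - x) := by ring
    rw [e]
    exact norm_sub_le _ _

theorem hex_near (he : S_emb) {δ : ℝ} (hδ : 0 < δ) {x : ℂ} {y u : V} {R : ℕ} (hy : y ∈ hex u R)
    (hu : ‖δ * emb u - x‖ ≤ 2 * δ) : ‖δ * emb y - x‖ ≤ δ * R + 2 * δ := by
  have h1 := (tri he hδ x y u).1
  have h2 : ‖emb (y - u)‖ ≤ R := (he.2.2.1 _).1.trans (Nat.cast_le.2 hy)
  have h3 := mul_le_mul_of_nonneg_left h2 hδ.le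
  linarith

theorem near_hex (he : S_emb) {δ T : ℝ} (hδ : 0 < δ) {x : ℂ} {y u : V}
    (hy : ‖δ * emb y - x‖ + 2 * δ ≤ T) (hu : ‖δ * emb u - x‖ ≤ 2 * δ) :
    y ∈ hex u ⌈2 * T / δ⌉₊ := by
  have h1 := (tri he hδ x y u).2
  have h2 := (he.2.2.1 (y - u)).2
  have h3 : (nrm (y - u) : ℝ) ≤ 2 * T / δ := by
    rw [le_div_iff₀ hδ]
    nlinarith [norm_nonneg (emb (y - u))]
  exact Nat.cast_le.1 (h3.trans (Nat.le_ceil _))

theorem ceil_le {δ T : ℝ} (hδ : 0 < δ) (hT : 0 ≤ T) : δ * ⌈T / δ⌉₊ ≤ T + δ := by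
  have h := mul_le_mul_of_nonneg_left (Nat.ceil_lt_add_one (div_nonneg hT hδ.le)).le hδ.le
  rwa [mul_add, mul_div_cancel₀ _ hδ.ne', mul_one] at h

/-- The fourth moment bound for small weights. -/
theorem small {C : ℝ} (hC : ∀ (F S : Set V) (x : V) (N : ℕ) (a : V →₀ ℝ), Dom F → 1 ≤ N →
    ¬ hex x N ⊆ F → B1 a x N → Ex (dob F S) (fun H => lin a H ^ 4) ≤ C * N ^ 8) {F : Set V}
    (S : Set V) {v : V} {N : ℕ} {b : V →₀ ℝ} (hF : Dom F) (h1 : F ⊆ hex v N) {β δ T : ℝ}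
    (hβ : 0 < β) (hδ : 0 < δ) (h2 : ∀ y, |b y| ≤ β * δ ^ 2) (h3 : ∀ y, b y ≠ 0 → y ∈ hex v N)
    (h4 : δ * (N + 1) ≤ T) : Ex (dob F S) (fun H => lin b H ^ 4) ≤ ((|C| + 1) * β * T ^ 2) ^ 4 := by
  have h0 : 0 < β * δ ^ 2 := by positivity
  have h5 := hC F S v (N + 1) ((β * δ ^ 2)⁻¹ • b) hF (Nat.le_add_left 1 N) (fun h => by
    have h6 : v + (((N + 1 : ℕ) : ℤ), 0) ∈ hex v (N + 1) := by
      rw [mem_hex, add_sub_cancel_left, nrm_le_iff]
      dsimp only
      omega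
    have h7 := h1 (h h6)
    rw [mem_hex, add_sub_cancel_left, nrm_le_iff] at h7
    dsimp only at h7
    omega) ⟨fun y => by
      rw [Finsupp.smul_apply, smul_eq_mul, abs_mul, abs_inv, abs_of_pos h0, inv_mul_le_iff₀ h0,
        mul_one]
      exact h2 y, fun y hy => hex_mono (Nat.le_succ N) (h3 y fun h => hy (by simp [h]))⟩
  have e : ∀ H, lin b H ^ 4 = (β * δ ^ 2) ^ 4 * lin ((β * δ ^ 2)⁻¹ • b) H ^ 4 := fun H => by
    rw [lin_eq ((β * δ ^ 2)⁻¹ • b), map_smul, ← lin_eq, smul_eq_mul, ← mul_pow,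
      mul_inv_cancel_left₀ h0.ne']
  simp only [e]
  rw [Ex_mul_left]
  refine (mul_le_mul_of_nonneg_left h5 (by positivity)).trans ?_
  have h6 : C ≤ (|C| + 1) ^ 4 := ((le_abs_self C).trans (le_add_of_nonneg_right zero_le_one)).trans
    (le_self_pow₀ (le_add_of_nonneg_left (abs_nonneg C)) (by norm_num))
  have h7 : (δ * (N + 1)) ^ 8 ≤ T ^ 8 := pow_le_pow_left₀ (by positivity) h4 8
  calc (β * δ ^ 2) ^ 4 * (C * ((N + 1 : ℕ) : ℝ) ^ 8) = C * (β ^ 4 * (δ * (N + 1)) ^ 8) := by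
        push_cast
        ring
    _ ≤ (|C| + 1) ^ 4 * (β ^ 4 * T ^ 8) :=
        mul_le_mul h6 (mul_le_mul_of_nonneg_left h7 (by positivity)) (by positivity) (by positivity)
    _ = _ := by ring

end Ghar

open Ghar in
theorem g_har (he : S_emb) (hw : S_wt) (hd : S_dl) (hl : S_loc) (Hb : L_mb) (H : L_har) :
    G_har := by
  intro D F δ S hS
  obtain ⟨M, hM⟩ := H
  obtain ⟨C, hC⟩ := Hb
  obtain ⟨R0, hR0⟩ := hS.out
  have hM0 := abs_nonneg M
  refine ⟨|M| + 1, by linarith, fun x η f g hη hD hf hg ε hε => ?_⟩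
  have un : ∀ {U : Set ℂ} {f : ℂ → ℝ}, Test U f → Test univ f := fun h => ⟨h.1, h.2.1, subset_univ _⟩
  have hφ := test_aff hf hη
  obtain ⟨c, hc⟩ : ∃ c, c = ∫ z, hat z := ⟨_, rfl⟩
  obtain ⟨T, hT⟩ : ∃ T, T = |R0| + ‖x‖ + 3 * η := ⟨_, rfl⟩
  have hT0 : 0 < T := by rw [hT]; positivity
  obtain ⟨e, he0, he1⟩ : ∃ e : ℝ, 0 < e ∧
      (|C| + 1) * ((4 + |c|) * e) * (2 * T + η) ^ 2 = ε / 2 :=
    ⟨ε / 2 / ((|C| + 1) * (4 + |c|) * (2 * T + η) ^ 2), by positivity, by field_simp⟩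
  obtain ⟨δ₀, hδ₀, hd'⟩ := hd _ (un hφ) (e * η ^ 2) (by positivity)
  obtain ⟨δ₁, hδ₁, hu⟩ := Metric.uniformContinuous_iff.1
    (hf.lap.2.1.uniformContinuous_of_continuous hf.lap.continuous) e he0
  have h0 := hM (fun n => δ n / η) (fun n => div_pos (hS.pos n) hη)
    (by simpa using hS.lim.div_const η) _ hφ ((2 * T + η) / η) (ε / (4 * (|c| + 1))) (by positivity)
  filter_upwards [h0, hR0, hS.inn _ (isCompact_closedBall _ _) hD,
    hS.lim.eventually (ge_mem_nhds (show 0 < η / 4 by positivity)),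
    hS.lim.eventually (ge_mem_nhds (mul_pos hδ₀ hη)), hS.lim.eventually (ge_mem_nhds hδ₁)]
    with n h1 h2 h3 h4 h5 h6 Γ hΓ
  have hδ := hS.pos n
  have hF := hS.dom n
  simp only [YY]
  generalize δ n = d at h1 h2 h3 h4 h5 h6 hδ ⊢
  generalize F n = A at h1 h2 h3 hF ⊢
  have hη' : (η : ℂ) ≠ 0 := Complex.ofReal_ne_zero.2 hη.ne'
  obtain ⟨a, ha1, ha2, ha3⟩ := hd' (d / η) (div_pos hδ hη) ((div_le_iff₀ hη).2 h5)
  obtain ⟨v, hv, hv'⟩ := geo he hδ x
  have hN := ceil_le hδ (show 0 ≤ 2 * T by positivity)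
  have hA : ∀ u, ‖d * emb u - x‖ ≤ 2 * d → A ⊆ hex u ⌈2 * T / d⌉₊ := fun u hu y hy => by
    have := norm_sub_le (d * emb y) x
    have := h2 y hy
    have := le_abs_self R0
    exact near_hex he hδ (by linarith) hu
  have key : ∀ u, ‖d * emb u - x‖ ≤ 2 * d → |Ex (dob A (S n)) fun H =>
      lin a (H ∘ tr u) * Γ (lin (wt d g) H)| ≤ ε / (4 * (|c| + 1)) := by
    intro u hu
    have k1 := ceil_le hδ (mul_nonneg hM0 hη.le)
    have k2 := Nat.le_ceil (|M| * η / d)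
    generalize ⌈|M| * η / d⌉₊ = R at k1 k2
    refine h1 A (S n) u R ⌈2 * T / d⌉₊ a _ hF ?_ ?_ (fun y hy => h3 y ?_) (hA u hu) ha1
      ⟨fun H H' h => ?_, fun H => hΓ _⟩
    · rw [div_le_iff₀ hδ] at k2
      rw [div_mul_eq_mul_div, le_div_iff₀ hη]
      nlinarith [le_abs_self M]
    · rw [div_mul_eq_mul_div]
      exact div_le_div_of_nonneg_right (by linarith) hη.le
    · have := hex_near he hδ hy hu
      rw [mem_closedBall_iff_norm]
      linarith
    · refine congrArg Γ (Finset.sum_congr rfl fun y hy => ?_)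
      obtain ⟨z, hz, hz'⟩ := (hw d g hδ (un hg)).2.2.1 y (Finsupp.mem_support_iff.1 hy)
      refine congrArg (fun t : ℤ => wt d g y * t) (h y fun hy' => hz (hg.eq_zero (not_not.2 ?_)))
      have k3 := hex_near he hδ hy' hu
      have k4 := norm_sub_le_norm_sub_add_norm_sub z (d * emb y) x
      rw [mem_closedBall_iff_norm]
      linarith
  obtain ⟨b, hb⟩ : ∃ b, b = wt d (lap f) -
      c • (a.equivMapDomain (tr v) + a.equivMapDomain (tr (v + (0, 1)))) := ⟨_, rfl⟩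
  have b1 : ∀ y, b y = wt d (lap f) y - c * (a (y - v) + a (y - v - (0, 1))) := fun y => by
    rw [hb, sub_sub y]
    rfl
  have b2 : ∀ H, lin (wt d (lap f)) H =
      lin b H + c * (lin a (H ∘ tr v) + lin a (H ∘ tr (v + (0, 1)))) := fun H => by
    rw [hb, lin_eq (_ - _), map_sub, map_smul, map_add, ← lin_eq, ← lin_eq, ← lin_eq, lin_tr,
      lin_tr, smul_eq_mul, sub_add_cancel]
  have b3 : ∀ y, |b y| ≤ (4 + |c|) * e * d ^ 2 := fun y => by
    have k1 := (hw d _ hδ (un hf.lap)).2.2.2.2.2.2.2.2.1 y e fun z hz =>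
      (hu (a := z) (b := d * emb y) (by rw [dist_eq_norm]; linarith)).le
    have k2 := ha3 (y - v) (η⁻¹ • (d * emb y - x)) (by
      have e1 : η⁻¹ • (d * emb y - x) - ((d / η : ℝ) : ℂ) * emb (y - v) =
          η⁻¹ • (d * emb v - x) := by
        rw [he.2.1, Complex.real_smul, Complex.real_smul]
        push_cast
        field_simp
        ring
      rw [e1, norm_smul, Real.norm_of_nonneg (inv_nonneg.2 hη.le), ← div_eq_inv_mul, ← mul_div_assoc]
      exact div_le_div_of_nonneg_right (by linarith) hη.le)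
    rw [lap_aff (un hf), smul_inv_smul₀ hη.ne', add_sub_cancel] at k2
    have e2 : (d / η) ^ 2 * (η ^ 2 * lap f (d * emb y)) = d ^ 2 * lap f (d * emb y) := by field_simp
    have e3 : e * η ^ 2 * (d / η) ^ 2 = e * d ^ 2 := by field_simp
    rw [e2, e3] at k2
    rw [← hc] at k1
    have e4 : b y = (wt d (lap f) y - c * d ^ 2 * lap f (d * emb y)) -
        c * (a (y - v) + a (y - v - (0, 1)) - d ^ 2 * lap f (d * emb y)) := by
      rw [b1]
      ring
    have k3 := mul_le_mul_of_nonneg_left k2 (abs_nonneg c)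
    rw [← abs_mul] at k3
    rw [e4]
    refine (abs_sub _ _).trans ?_
    linarith
  have b4 : ∀ y u, ‖d * emb u - x‖ ≤ 2 * d → a (y - u) ≠ 0 → ‖d * emb y - x‖ ≤ 2 * η := by
    intro y u hu h
    obtain ⟨z, hz, hz'⟩ := ha2 _ h
    have k1 : ‖z‖ < 1 := mem_ball_zero_iff.1 (by_contra fun h => hz (hφ.eq_zero h))
    have k2 := norm_le_norm_add_norm_sub z (((d / η : ℝ) : ℂ) * emb (y - u))
    rw [nm (div_pos hδ hη)] at k2
    have k3 : d / η * ‖emb (y - u)‖ ≤ (η + 2 * d) / η := by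
      rw [add_div, div_self hη.ne', mul_div_assoc]
      linarith
    rw [div_mul_eq_mul_div, div_le_div_iff_of_pos_right hη] at k3
    have k4 := (tri he hδ x y u).1
    linarith
  have b5 : ∀ y, b y ≠ 0 → y ∈ hex v ⌈2 * T / d⌉₊ := fun y hy => by
    refine near_hex he hδ ?_ hv
    suffices k : ‖d * emb y - x‖ ≤ 2 * η by
      have := abs_nonneg R0
      have := norm_nonneg x
      linarith
    by_contra k
    refine hy ?_
    have k1 : wt d (lap f) y = 0 := by_contra fun h => by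
      obtain ⟨z, hz, hz'⟩ := (hw d _ hδ (un hf.lap)).2.2.1 y h
      have k2 : ‖z - x‖ < η := mem_ball_iff_norm.1 (by_contra fun h => hz (hf.lap.eq_zero h))
      have k3 := norm_sub_le_norm_sub_add_norm_sub (d * emb y) z x
      rw [norm_sub_rev _ z] at k3
      exact k (by linarith)
    rw [b1, k1, sub_sub y, by_contra fun h => k (b4 y v hv h),
      by_contra fun h => k (b4 y _ hv' h)]
    simp
  have b6 := mom _ _ (fun H => Γ (lin (wt d g) H)) (fun H => hΓ _) (by positivity)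
    (small hC (S n) hF (hA v hv) (T := 2 * T + η) (by positivity) hδ b3 b5 (by linarith))
  rw [he1] at b6
  simp only [b2, add_mul, mul_assoc c]
  rw [Ex_add, Ex_mul_left, Ex_add]
  have b7 := mul_le_mul_of_nonneg_left ((abs_add_le _ _).trans (add_le_add (key v hv) (key _ hv')))
    (abs_nonneg c)
  rw [← abs_mul] at b7
  have b8 : |c| * (ε / (4 * (|c| + 1)) + ε / (4 * (|c| + 1))) ≤ ε / 2 := by
    rw [← add_div, ← mul_div_assoc, div_le_iff₀ (by positivity)]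
    nlinarith [abs_nonneg c]
  refine (abs_add_le _ _).trans ?_
  linarith

end Vale.Agent.P153.Wick
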