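import Vale.Agent.P153.Wick.Stm

open Set Filter Topology MeasureTheory Metric
open Vale.Agent.P071 (Test lap DD hh g0 Conf)

namespace Vale.Agent.P153.Wick

noncomputable section

namespace Gm

theorem dif (he : S_emb) {d : ℝ} (hd : 0 < d) (y v : V) :
    ‖(d : ℂ) * emb y - d * emb v‖ = d * ‖emb (y - v)‖ := by
  rw [he.2.1, ← mul_sub, norm_mul, Complex.norm_real, Real.norm_of_nonneg hd.le]

theorem site (he : S_emb) {d : ℝ} (hd : 0 < d) (z : ℂ) : ∃ v, ‖(d : ℂ) * emb v - z‖ ≤ d := by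
  obtain ⟨v, hv⟩ := he.2.2.2.1 (z / d)
  refine ⟨v, ?_⟩
  have h0 : (d : ℂ) ≠ 0 := by exact_mod_cast hd.ne'
  have : (d : ℂ) * emb v - z = -(d * (z / d - emb v)) := by field_simp; ring
  rw [this, norm_neg, norm_mul, Complex.norm_real, Real.norm_of_nonneg hd.le]
  nlinarith

theorem mem_hex (he : S_emb) {d ρ : ℝ} (hd : 0 < d) {z : ℂ} {v y : V} {N : ℕ}
    (hv : ‖(d : ℂ) * emb v - z‖ ≤ d) (hy : ‖(d : ℂ) * emb y - z‖ ≤ ρ)
    (h : 6 / 5 * (ρ + d) ≤ N * d) : y ∈ hex v N := by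
  have h1 := norm_sub_le_norm_sub_add_norm_sub ((d : ℂ) * emb y) z (d * emb v)
  rw [dif he hd, norm_sub_rev z] at h1
  have h2 := mul_le_mul_of_nonneg_left (he.2.2.1 (y - v)).2 hd.le
  have h3 : d * (nrm (y - v) : ℝ) ≤ d * N := by linarith
  exact_mod_cast le_of_mul_le_mul_left h3 hd

theorem of_hex (he : S_emb) {d : ℝ} (hd : 0 < d) {z : ℂ} {v y : V} {N : ℕ}
    (hv : ‖(d : ℂ) * emb v - z‖ ≤ d) (hy : y ∈ hex v N) : ‖(d : ℂ) * emb y - z‖ ≤ N * d + d := by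
  have h1 := norm_sub_le_norm_sub_add_norm_sub ((d : ℂ) * emb y) (d * emb v) z
  rw [dif he hd] at h1
  have h2 : (nrm (y - v) : ℝ) ≤ N := by exact_mod_cast hy
  have h3 := mul_le_mul_of_nonneg_left ((he.2.2.1 (y - v)).1.trans h2) hd.le
  linarith

theorem ceil_bd {d s : ℝ} (hd : 0 < d) (h : d ≤ s / 3) :
    1 ≤ ⌈2 * s / d⌉₊ ∧ 2 * s ≤ ⌈2 * s / d⌉₊ * d ∧ ⌈2 * s / d⌉₊ * d ≤ 3 * s := by
  have hs : 0 < s := by linarith
  have h0 : 0 < 2 * s / d := by positivity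
  refine ⟨Nat.ceil_pos.2 h0, (div_le_iff₀ hd).1 (Nat.le_ceil _), ?_⟩
  have := mul_le_mul_of_nonneg_right (Nat.ceil_lt_add_one h0.le).le hd.le
  rw [add_mul, div_mul_cancel₀ _ hd.ne'] at this
  linarith

theorem main (he : S_emb) (hw : S_wt) {d s A C : ℝ} (hd : 0 < d) (h : d ≤ s / 3) (hA : 0 < A)
    {f : ℂ → ℝ} {z : ℂ} (hf : Test (ball z s) f) (hb : ∀ y, |f y| ≤ A) {v : V}
    (hv : ‖(d : ℂ) * emb v - z‖ ≤ d) {S : Set Cfg}
    (H : ∀ a, B1 a v ⌈2 * s / d⌉₊ → ((∫ y, f y) = 0 → tot a = 0) →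
      Ex S (fun H => lin a H ^ 4) ≤ C * (⌈2 * s / d⌉₊ : ℕ) ^ 8) :
    Ex S (fun H => lin (wt d f) H ^ 4) ≤ (36 * max C 1 * (A * s ^ 2)) ^ 4 := by
  obtain ⟨n1, n2, n3⟩ := ceil_bd hd h
  set N := ⌈2 * s / d⌉₊
  obtain ⟨-, w2, w3, w4, -⟩ := hw d f hd ⟨hf.1, hf.2.1, subset_univ _⟩
  have ht : 0 < 4 * A * d ^ 2 := by positivity
  set t := 4 * A * d ^ 2 with htd
  have e1 : ∀ H, lin (wt d f) H ^ 4 = t ^ 4 * lin (t⁻¹ • wt d f) H ^ 4 := fun H => by
    have : lin (t⁻¹ • wt d f) H = t⁻¹ * lin (wt d f) H := by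
      rw [lin, lin, Finsupp.sum_smul_index' (by simp), Finsupp.mul_sum]
      simp only [smul_eq_mul, mul_assoc]
    rw [this, ← mul_pow, mul_inv_cancel_left₀ ht.ne']
  have h1 := H (t⁻¹ • wt d f) ⟨fun y => ?_, fun y hy => ?_⟩ fun h0 => ?_
  · simp only [e1]
    rw [Ex_mul_left]
    have m1 : 1 ≤ max C 1 := le_max_right _ _
    have m2 : C ≤ max C 1 ^ 4 := (le_max_left _ _).trans (le_self_pow₀ m1 (by norm_num))
    calc t ^ 4 * Ex S (fun H => lin (t⁻¹ • wt d f) H ^ 4) ≤ t ^ 4 * (max C 1 ^ 4 * (N : ℝ) ^ 8) := by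
          gcongr
          exact h1.trans (by gcongr)
      _ = (4 * max C 1 * (A * (N * d) ^ 2)) ^ 4 := by rw [htd]; ring
      _ ≤ (4 * max C 1 * (A * (3 * s) ^ 2)) ^ 4 := by gcongr
      _ = _ := by ring
  · rw [Finsupp.smul_apply, smul_eq_mul, abs_mul, abs_of_pos (inv_pos.2 ht), inv_mul_le_iff₀ ht,
      mul_one]
    exact w4 A hb y
  · obtain ⟨u, u1, u2⟩ := w3 y fun h => hy (by simp [h])
    have u3 := mem_ball_iff_norm.1 (hf.2.2 (subset_tsupport _ u1))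
    have u4 := norm_sub_le_norm_sub_add_norm_sub ((d : ℂ) * emb y) u z
    rw [norm_sub_rev] at u2
    exact Gm.mem_hex he hd hv (ρ := s + d) (by linarith) (by linarith)
  · rw [h0, tot] at w2
    rw [tot, Finsupp.sum_smul_index' (by simp)]
    simp only [smul_eq_mul]
    rw [← Finsupp.mul_sum, w2, mul_zero]

end Gm

open Gm in
theorem g_mb (he : S_emb) (hw : S_wt) (H : L_mb) : G_mb := by
  obtain ⟨C, hC⟩ := H
  intro D F δ S hs
  refine ⟨36 * max C 1, by positivity, fun z s A f h0 hA hn hf hb => ?_⟩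
  by_cases hne : (ball z s ∩ D).Nonempty
  · obtain ⟨w, w1, w2⟩ : ∃ w ∈ frontier D, w ∈ ball z s := by
      by_contra h
      refine hn ((convex_ball z s).isPreconnected.subset_of_closure_inter_subset hs.op hne
        fun w hw => of_not_not fun h' => h ⟨w, ?_, hw.2⟩)
      rw [hs.op.frontier_eq]
      exact ⟨hw.1, h'⟩
    filter_upwards [hs.bdy w w1 (s / 3) (by positivity),
      hs.lim.eventually (ge_mem_nhds (show 0 < s / 3 by positivity))] with n ⟨x, x1, x2⟩ hd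
    obtain ⟨v, hv⟩ := site he (hs.pos n) z
    obtain ⟨n1, n2, -⟩ := ceil_bd (hs.pos n) hd
    refine main he hw (hs.pos n) hd hA ⟨hf.1, hf.2.1, hf.2.2.trans inter_subset_right⟩ hb hv
      fun a ha _ => hC _ _ v _ a (hs.dom n) n1 (fun h => x1 (h ?_)) ha
    have u3 := mem_ball_iff_norm.1 w2
    have u4 := norm_sub_le_norm_sub_add_norm_sub ((δ n : ℂ) * emb x) w z
    exact Gm.mem_hex he (hs.pos n) hv (ρ := s / 3 + s) (by linarith) (by linarith)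
  · refine Eventually.of_forall fun n => ?_
    have e : wt (δ n) f = 0 := by
      ext x
      by_contra h
      obtain ⟨u, u1, -⟩ := (hw (δ n) f (hs.pos n) ⟨hf.1, hf.2.1, subset_univ _⟩).2.2.1 x h
      exact hne ⟨u, (hf.2.2 (subset_tsupport _ u1)).symm⟩
    refine Ex_le' (by positivity) fun H _ => ?_
    simp only [YY, e, lin, Finsupp.sum_zero_index]
    rw [zero_pow (by norm_num)]
    positivity

open Gm in
theorem g_m0 (he : S_emb) (hw : S_wt) (H : L_m0) : G_m0 := by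
  intro D F δ S hs K hK hKD
  obtain ⟨d₀, hd₀, hth⟩ := hK.exists_cthickening_subset_open hs.op hKD
  obtain ⟨R₀, hR₀⟩ := hs.out
  obtain ⟨R₁, hR₁⟩ := hK.isBounded.exists_norm_le
  obtain ⟨L, hL⟩ := exists_nat_ge (5 * (R₀ + R₁ + d₀) / d₀)
  rw [div_le_iff₀ hd₀] at hL
  obtain ⟨M, C, hC⟩ := H L
  refine ⟨36 * max C 1, d₀ / (12 * (M + 1)), by positivity, by positivity,
    fun x hx η A f h0 h1 hA hf hi hb => ?_⟩
  filter_upwards [hs.inn _ hK.cthickening hth, hR₀,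
    hs.lim.eventually (ge_mem_nhds (show 0 < η / 3 by positivity)),
    hs.lim.eventually (ge_mem_nhds (show 0 < d₀ / 4 by positivity))] with n i1 i2 hd hd'
  have hp := hs.pos n
  obtain ⟨v, hv⟩ := site he hp x
  obtain ⟨n1, -, n3⟩ := ceil_bd hp hd
  have r1 : (⌊d₀ / 2 / δ n⌋₊ : ℝ) * δ n ≤ d₀ / 2 :=
    (le_div_iff₀ hp).1 (Nat.floor_le (by positivity))
  have r2 : d₀ / 4 ≤ (⌊d₀ / 2 / δ n⌋₊ : ℝ) * δ n := by
    have := (div_lt_iff₀ hp).1 (Nat.lt_floor_add_one (d₀ / 2 / δ n))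
    linarith
  refine main he hw hp hd hA hf hb hv fun a ha ht =>
    hC _ _ v _ ⌊d₀ / 2 / δ n⌋₊ a (hs.dom n) n1 ?_ (fun y hy => i1 y ?_) (fun y hy => ?_) ha (ht hi)
  · rw [le_div_iff₀ (by positivity)] at h1
    have h2 := mul_le_mul_of_nonneg_left n3 (Nat.cast_nonneg (α := ℝ) M)
    have h3 : ((M : ℝ) * ⌈2 * η / δ n⌉₊) * δ n ≤ (⌊d₀ / 2 / δ n⌋₊ : ℝ) * δ n := by nlinarith
    exact_mod_cast le_of_mul_le_mul_right h3 hp
  · refine mem_cthickening_of_dist_le _ x _ _ hx ?_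
    have := of_hex he hp hv hy
    rw [dist_eq_norm]
    linarith
  · have u1 := norm_sub_le ((δ n : ℂ) * emb y) x
    have u2 := i2 y hy
    have u3 := hR₁ x hx
    have u4 := norm_nonneg ((δ n : ℂ) * emb y - x)
    refine Gm.mem_hex he hp hv (ρ := R₀ + R₁) (by linarith) ?_
    have u5 := mul_le_mul_of_nonneg_left r2 (Nat.cast_nonneg (α := ℝ) L)
    push_cast
    linarith

end

end Vale.Agent.P153.Wick
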