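import Vale.Agent.P153.Wick.Stm

/-! P153, field part: the lower bound for the variance in the continuum layer. -/

open Set Filter Topology MeasureTheory Metric
open Vale.Agent.P071 (Test lap DD hh g0 Conf)

namespace Vale.Agent.P153.Wick

namespace Gvar

theorem cmp (he : S_emb) {δ : ℝ} (hδ : 0 < δ) (x y : V) :
    ‖δ * emb y - δ * emb x‖ ≤ δ * nrm (y - x) ∧
      δ * nrm (y - x) ≤ 6 / 5 * ‖δ * emb y - δ * emb x‖ := by
  obtain ⟨h1, h2⟩ := he.2.2.1 (y - x)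
  rw [← mul_sub, ← he.2.1, norm_mul, Complex.norm_real, Real.norm_of_nonneg hδ.le]
  exact ⟨mul_le_mul_of_nonneg_left h1 hδ.le, by nlinarith⟩

theorem near (he : S_emb) {δ : ℝ} (hδ : 0 < δ) (z : ℂ) : ∃ v, ‖δ * emb v - z‖ ≤ δ := by
  obtain ⟨v, hv⟩ := he.2.2.2.1 (z / δ)
  have h0 : (δ : ℂ) ≠ 0 := Complex.ofReal_ne_zero.2 hδ.ne'
  refine ⟨v, ?_⟩
  rw [norm_sub_rev, show z - δ * emb v = δ * (z / δ - emb v) by field_simp, norm_mul,
    Complex.norm_real, Real.norm_of_nonneg hδ.le]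
  nlinarith

theorem hex_iff {δ : ℝ} (hδ : 0 < δ) {x y : V} {N : ℕ} :
    y ∈ hex x N ↔ δ * nrm (y - x) ≤ δ * N := by
  rw [mul_le_mul_iff_right₀ hδ, Nat.cast_le]
  rfl

end Gvar

open Gvar in
theorem g_var (he : S_emb) (hw : S_wt) (H : L_var) : G_var := by
  intro D F δ S hs
  obtain ⟨M, hM⟩ := H
  obtain ⟨x₀, hx₀⟩ := hs.ne
  obtain ⟨d, d0, hd⟩ := nhds_basis_closedBall.mem_iff.1 (hs.op.mem_nhds hx₀)
  obtain ⟨R, hR⟩ := hs.out
  obtain ⟨η, η0, hη⟩ := exists_pos_mul_lt d0 (3 * (M : ℝ) + 1)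
  have hM0 : (0 : ℝ) ≤ M := Nat.cast_nonneg M
  have hηd : η ≤ d := by nlinarith
  obtain ⟨L, hL⟩ := exists_nat_ge ((R + ‖x₀‖ + η) / η)
  rw [div_le_iff₀ η0] at hL
  obtain ⟨c, c0, hc⟩ := hM L
  let f : ContDiffBump x₀ := ⟨η / 2, η, half_pos η0, half_lt_self η0⟩
  have hf : Test univ f := ⟨f.contDiff, f.hasCompactSupport, subset_univ _⟩
  have hi : 0 < ∫ z, f z := f.integral_pos
  refine ⟨f, c * (∫ z, f z) ^ 2, ⟨hf.1, hf.2.1, ?_⟩, fun z => f.nonneg, by positivity, ?_⟩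
  · rw [f.tsupport_eq]
    exact (closedBall_subset_closedBall hηd).trans hd
  filter_upwards [hR, hs.inn _ (isCompact_closedBall x₀ d) hd,
    hs.lim.eventually (ge_mem_nhds (show 0 < η / 3 by positivity))] with n h1 h2 h3
  have h0 := hs.pos n
  obtain ⟨-, w2, w3, -, w5, -⟩ := hw (δ n) f h0 hf
  obtain ⟨v, hv⟩ := near he h0 x₀
  have n1 : 2 * η ≤ δ n * ⌈2 * η / δ n⌉₊ := by
    rw [← div_le_iff₀' h0]
    exact Nat.le_ceil _
  have n2 : δ n * ⌈2 * η / δ n⌉₊ ≤ 3 * η := by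
    have := mul_le_mul_of_nonneg_left
      (Nat.ceil_lt_add_one (show 0 ≤ 2 * η / δ n by positivity)).le h0.le
    rw [mul_add, mul_div_cancel₀ _ h0.ne'] at this
    linarith
  have n3 : 1 ≤ ⌈2 * η / δ n⌉₊ := Nat.ceil_pos.2 (by positivity)
  generalize ⌈2 * η / δ n⌉₊ = N at n1 n2 n3
  have key := hc (F n) (S n) v N (wt (δ n) f) (hs.dom n) n3 (fun y hy => h2 y ?_) (fun y hy => ?_)
    (w5 fun z => f.nonneg) fun y hy => ?_
  · rw [w2] at key
    simp only [cov, ← sq]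
    exact key
  · rw [hex_iff h0, Nat.cast_mul] at hy
    have a1 := (cmp he h0 v y).1
    have a2 := norm_sub_le_norm_sub_add_norm_sub (δ n * emb y) (δ n * emb v) x₀
    have a3 := mul_le_mul_of_nonneg_left n2 hM0
    rw [mem_closedBall, dist_eq_norm]
    linarith
  · rw [hex_iff h0, Nat.cast_mul]
    have a1 := (cmp he h0 v y).2
    have a2 := norm_sub_le_norm_sub_add_norm_sub (δ n * emb y) x₀ (δ n * emb v)
    have a3 := norm_sub_le (δ n * emb y) x₀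
    have a4 := h1 y hy
    have a5 := mul_le_mul_of_nonneg_left n1 (Nat.cast_nonneg (α := ℝ) L)
    have a6 : 0 ≤ L * η := by positivity
    rw [norm_sub_rev x₀] at a2
    linarith
  · obtain ⟨z, z1, z2⟩ := w3 y hy
    have z3 : z ∈ Function.support f := z1
    rw [f.support_eq, mem_ball, dist_eq_norm] at z3
    have z4 : ‖z - x₀‖ < η := z3
    rw [hex_iff h0]
    have a1 := (cmp he h0 v y).2
    have a2 := norm_sub_le_norm_sub_add_norm_sub (δ n * emb y) z (δ n * emb v)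
    have a3 := norm_sub_le_norm_sub_add_norm_sub z x₀ (δ n * emb v)
    rw [norm_sub_rev x₀] at a3
    rw [norm_sub_rev _ z] at a2
    linarith

end Vale.Agent.P153.Wick
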