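import Vale.Agent.P153.Wick.Stm

/-! P153, field part: Gaussian integration by parts along an ultrafilter. -/

open Set Filter Topology MeasureTheory Metric
open Vale.Agent.P071 (Test lap DD hh g0 Conf)

namespace Vale.Agent.P153.Wick

namespace Ibp

theorem ulim (U : Ultrafilter ℕ) (a : ℕ → ℝ) (B : ℝ) (h : ∀ᶠ n in U, |a n| ≤ B) :
    ∃ l, |l| ≤ B ∧ Tendsto a U (𝓝 l) := by
  obtain ⟨l, h1, h2⟩ := (isCompact_Icc (a := -B) (b := B)).ultrafilter_le_nhds (U.map a)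
    (le_principal_iff.2 (h.mono fun n hn => abs_le.1 hn))
  exact ⟨l, abs_le.2 h1, h2⟩

theorem univ_of {U : Set ℂ} {f : ℂ → ℝ} (h : Test U f) : Test univ f :=
  ⟨h.1, h.2.1, subset_univ _⟩

theorem test_zero : Test univ fun _ => (0 : ℝ) :=
  ⟨contDiff_const, HasCompactSupport.zero, subset_univ _⟩

theorem grid {p k σ f : ℂ → ℝ} (hb : Bumps p k σ) {R η : ℝ} (hη : 0 < η)
    (hR : ∀ z, f z ≠ 0 → ‖z‖ ≤ R) {J : ℕ} (hJ : R / η ≤ J) (z : ℂ) :
    ∑ j ∈ Finset.Icc (-J : ℤ) J ×ˢ Finset.Icc (-J : ℤ) J, f z * sc p (η * ⟨j.1, j.2⟩) η z =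
      f z := by
  by_cases h : f z = 0
  · simp [h]
  have h1 : ‖z / η‖ ≤ J := by
    rw [norm_div, Complex.norm_real, Real.norm_of_nonneg hη.le]
    exact (div_le_div_of_nonneg_right (hR z h) hη.le).trans hJ
  have h2 := hb.p_sum J (z / η) ((Complex.abs_re_le_norm _).trans h1)
    ((Complex.abs_im_le_norm _).trans h1)
  have h3 : (η : ℂ) ≠ 0 := Complex.ofReal_ne_zero.2 hη.ne'
  simp only [sc, sub_div, mul_div_cancel_left₀ _ h3]
  rw [← Finset.mul_sum, h2, mul_one]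

variable {D : Set ℂ} {S : ℕ → Set Cfg} {Y : ℕ → (ℂ → ℝ) → Cfg → ℝ}

theorem lap_zero : (lap fun _ => 0) = fun _ => 0 := funext fun z => P071.lap_const 0 z

theorem Y_zero (h : WI0 D S Y) (n : ℕ) (H : Cfg) : Y n (lap fun _ => 0) H = 0 := by
  rw [lap_zero]
  simpa using h.smul n 0 _ test_zero H

theorem Y_sum (h : WI0 D S Y) {ι : Type} (T : Finset ι) (F : ι → ℂ → ℝ)
    (hF : ∀ j, Test univ (F j)) : Test univ (fun z => ∑ j ∈ T, F j z) ∧
      ∀ n H, Y n (lap fun z => ∑ j ∈ T, F j z) H = ∑ j ∈ T, Y n (lap (F j)) H := by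
  classical
  induction T using Finset.induction_on with
  | empty => exact ⟨test_zero, fun n H => Y_zero h n H⟩
  | insert i T hi ih =>
    simp only [Finset.sum_insert hi]
    refine ⟨(hF i).add ih.1, fun n H => ?_⟩
    rw [← ih.2, ← h.add n _ _ (hF i).lap ih.1.lap]
    congr 1
    funext z
    exact P071.lap_add ((hF i).1.of_le P071.two_le_oo).contDiffAt
      (ih.1.1.of_le P071.two_le_oo).contDiffAt

theorem int_sc (p : ℂ → ℝ) (x : ℂ) {η : ℝ} (hη : 0 < η) :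
    ∫ z, sc p x η z = η ^ 2 * ∫ z, p z := by
  have h1 := integral_sub_right_eq_self (μ := volume) (fun z : ℂ => p (η⁻¹ • z)) x
  rw [Measure.integral_comp_inv_smul_of_nonneg volume p hη.le, Complex.finrank_real_complex,
    smul_eq_mul] at h1
  rw [← h1]
  simp only [sc, Complex.real_smul, Complex.ofReal_inv, div_eq_inv_mul]

theorem riemann {p h : ℂ → ℝ} (hp : ∀ z, 0 ≤ p z) (hh : Continuous h) {x : ℂ} {η ε : ℝ}
    (hη : 0 < η) (ht : Test (ball x (2 * η)) (sc p x η))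
    (hε : ∀ z ∈ ball x (2 * η), |h z - h x| ≤ ε) :
    |(∫ z, h z * sc p x η z) - h x * (η ^ 2 * ∫ z, p z)| ≤ ε * (η ^ 2 * ∫ z, p z) := by
  have h1 : Integrable fun z => h z * sc p x η z :=
    (hh.mul ht.continuous).integrable_of_hasCompactSupport ht.2.1.mul_left
  rw [← int_sc p x hη, ← integral_const_mul, ← integral_const_mul,
    ← integral_sub h1 (ht.integrable.const_mul _), ← Real.norm_eq_abs]
  refine norm_integral_le_of_norm_le (ht.integrable.const_mul _) (Eventually.of_forall fun z => ?_)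
  by_cases hz : z ∈ ball x (2 * η)
  · rw [← sub_mul, Real.norm_eq_abs, abs_mul, abs_of_nonneg (a := sc p x η z) (hp _)]
    exact mul_le_mul_of_nonneg_right (hε z hz) (hp _)
  · simp [ht.eq_zero hz]

theorem card_le {R η : ℝ} (hR : 0 ≤ R) (hη : 0 < η) (h1 : η ≤ 1) :
    ((Finset.Icc (-⌈R / η⌉₊ : ℤ) ⌈R / η⌉₊ ×ˢ Finset.Icc (-⌈R / η⌉₊ : ℤ) ⌈R / η⌉₊).card : ℝ) *
      η ^ 2 ≤ (2 * R + 3) ^ 2 := by
  have h2 := (Nat.ceil_lt_add_one (div_nonneg hR hη.le)).le
  generalize ⌈R / η⌉₊ = J at h2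
  have h3 : (Finset.Icc (-J : ℤ) J).card = 2 * J + 1 := by rw [Int.card_Icc]; omega
  rw [Finset.card_product, h3, Nat.cast_mul, ← sq, ← mul_pow]
  refine pow_le_pow_left₀ (by positivity) ?_ 2
  have h4 := mul_le_mul_of_nonneg_right h2 hη.le
  rw [add_mul, div_mul_cancel₀ _ hη.ne'] at h4
  push_cast
  linarith

/-- the sum over the cells -/
theorem main (hf : S_fun) {p k σ : ℂ → ℝ} {κ : ℝ → ℕ → ℝ} (h : WI0 D S Y) (hb : Bumps p k σ)
    (hc : Cell D S Y p κ) {f g : ℂ → ℝ} (tf : Test D f) (tg : Test univ g) :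
    ∃ M : ℝ, 0 ≤ M ∧ ∀ ε : ℝ, 0 < ε → ∃ η₀ : ℝ, 0 < η₀ ∧ ∀ η, 0 < η → η ≤ η₀ → ∃ s : ℝ,
      |(∫ z, f z * g z) - s * (η ^ 2 * ∫ z, p z)| ≤ ε * M * ∫ z, p z ∧
      ∀ w w₁, W2 w w₁ → ∀ᶠ n in atTop, |Ex (S n) (fun H => Y n (lap f) H * w (Y n g H)) -
        s * κ η n * Ex (S n) fun H => w₁ (Y n g H)| ≤ ε * M := by
  obtain ⟨R, hR⟩ := tf.2.1.isCompact.isBounded.exists_norm_le
  have hR1 : ∀ z, f z ≠ 0 → ‖z‖ ≤ |R| := fun z hz =>
    (hR z (subset_tsupport f hz)).trans (le_abs_self R)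
  obtain ⟨d, hd, hdD⟩ := tf.2.1.isCompact.exists_cthickening_subset_open h.op tf.2.2
  obtain ⟨C, -, hC⟩ := hf p k σ f g hb (univ_of tf) tg
  have hfg : Continuous fun z => f z * g z := tf.continuous.mul tg.continuous
  refine ⟨(2 * |R| + 3) ^ 2, by positivity, fun ε hε => ?_⟩
  obtain ⟨η₁, hη₁, h1⟩ := hc.est f g (univ_of tf) tg _ (tf.2.1.isCompact.cthickening (r := d)) hdD
    ε hε
  obtain ⟨η₂, hη₂, h2⟩ := Metric.uniformContinuous_iff.1
    (hfg.uniformContinuous_of_tendsto_cocompact (tf.2.1.mul_right (f' := g)).is_zero_at_infty) ε hε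
  refine ⟨min (min η₁ 1) (min (η₂ / 2) (d / 2)), by positivity, fun η hη hle => ?_⟩
  simp only [le_min_iff] at hle
  obtain ⟨⟨l1, l2⟩, l3, l4⟩ := hle
  have hcard := card_le (abs_nonneg R) hη l2
  have hg := grid hb hη hR1 (Nat.le_ceil (|R| / η))
  generalize Finset.Icc (-⌈|R| / η⌉₊ : ℤ) ⌈|R| / η⌉₊ ×ˢ Finset.Icc (-⌈|R| / η⌉₊ : ℤ) ⌈|R| / η⌉₊ = G
    at hcard hg
  obtain ⟨x, hg⟩ : ∃ x : ℤ × ℤ → ℂ, ∀ z, ∑ j ∈ G, f z * sc p (x j) η z = f z := ⟨_, hg⟩
  have t1 := fun j => (hC (x j) η hη l2).1.1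
  have t2 := fun j => univ_of (hC (x j) η hη l2).1.2.1
  refine ⟨∑ j ∈ G, f (x j) * g (x j), ?_, fun w w₁ hw => ?_⟩
  · have e1 : ∫ z, f z * g z = ∑ j ∈ G, ∫ z, f z * g z * sc p (x j) η z := by
      rw [← integral_finsetSum _ (f := fun j z => f z * g z * sc p (x j) η z) fun j _ =>
        (hfg.mul (t1 j).continuous).integrable_of_hasCompactSupport (t1 j).2.1.mul_left]
      congr 1
      funext z
      refine (congrArg (· * g z) (hg z).symm).trans ((Finset.sum_mul _ _ _).trans ?_)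
      exact Finset.sum_congr rfl fun j _ => by ring
    rw [e1, Finset.sum_mul, ← Finset.sum_sub_distrib]
    refine (Finset.abs_sum_le_sum_abs _ _).trans ((Finset.sum_le_card_nsmul _ _ _ fun j _ =>
      riemann (ε := ε) hb.p_nonneg hfg hη (t1 j) fun z hz => ?_).trans ?_)
    · exact (h2 ((mem_ball.1 hz).trans_le (by linarith))).le
    · rw [nsmul_eq_mul]
      nlinarith [mul_le_mul_of_nonneg_left hcard (mul_pos hε hb.p_int).le]
  · have h3 : ∀ j ∈ G, ∀ᶠ n in atTop,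
        |Ex (S n) (fun H => Y n (lap fun z => f z * sc p (x j) η z) H * w (Y n g H)) -
          f (x j) * g (x j) * κ η n * Ex (S n) fun H => w₁ (Y n g H)| ≤ ε * η ^ 2 := by
      intro j _
      by_cases hj : x j ∈ cthickening d (tsupport f)
      · exact h1 η hη l1 _ hj w w₁ hw
      have h4 : f (x j) = 0 := by
        by_contra h5
        exact hj (self_subset_cthickening _ (subset_tsupport f h5))
      have h5 : (fun z => f z * sc p (x j) η z) = fun _ => 0 := by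
        funext z
        by_contra h5
        have h6 : z ∈ ball (x j) (2 * η) := by
          by_contra h6
          exact right_ne_zero_of_mul h5 ((t1 j).eq_zero h6)
        exact hj (mem_cthickening_of_dist_le _ z _ _ (subset_tsupport f (left_ne_zero_of_mul h5))
          ((mem_ball'.1 h6).le.trans (by linarith)))
      refine Eventually.of_forall fun n => ?_
      simp only [h4, h5, Y_zero h, zero_mul, Ex_zero, sub_zero, abs_zero]
      positivity
    filter_upwards [(Finset.eventually_all G).2 h3] with n hn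
    have e1 := (Y_sum h G _ t2).2 n
    simp only [hg] at e1
    simp only [e1, Finset.sum_mul]
    rw [Ex_sum, ← Finset.sum_sub_distrib]
    refine (Finset.abs_sum_le_sum_abs _ _).trans ((Finset.sum_le_card_nsmul _ _ _ hn).trans ?_)
    rw [nsmul_eq_mul]
    nlinarith [mul_le_mul_of_nonneg_left hcard hε.le]

end Ibp

open Ibp in
theorem s_ibp (hf : S_fun) : S_ibp := by
  intro D S Y p k σ κ h hb hc U hU
  obtain ⟨C, η₀, hη₀, hC⟩ := hc.bd
  have hI := hb.p_int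
  set I := ∫ z, p z
  have hη : ∀ m : ℕ, 0 < η₀ / (m + 1) := fun m => by positivity
  have hB : ∀ m : ℕ, ∀ᶠ n in U, |κ (η₀ / (m + 1)) n / ((η₀ / (m + 1)) ^ 2 * I)| ≤ C / I := by
    intro m
    filter_upwards [hU (hC _ (hη m) (div_le_self hη₀.le (by simp)))] with n hn
    have h1 := hη m
    rw [abs_div, abs_of_pos (mul_pos (pow_pos h1 2) hI), ← div_div]
    exact div_le_div_of_nonneg_right ((div_le_iff₀ (pow_pos h1 2)).2 hn) hI.le
  choose l hl hl' using fun m => ulim U _ _ (hB m)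
  obtain ⟨K, -, hK⟩ := ulim U l _ (Eventually.of_forall hl)
  refine ⟨-K, fun f g tf tg w w₁ hw => Metric.tendsto_nhds.2 fun ε hε => ?_⟩
  obtain ⟨M, hM, h1⟩ := main hf h hb hc tf tg
  have hB0 : 0 ≤ C / I := (abs_nonneg _).trans (hl 0)
  set a := ∫ z, f z * g z
  obtain ⟨e, he, he'⟩ : ∃ e : ℝ, 0 < e ∧ e * (M + M * I * (C / I) + 2 * |a| + 1) = ε :=
    ⟨_, by positivity, div_mul_cancel₀ ε (by positivity)⟩
  obtain ⟨η₁, hη₁, h2⟩ := h1 e he
  have h3 : ∀ᶠ m : ℕ in U, η₀ / (m + 1) ≤ η₁ :=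
    hU ((tendsto_const_div_atTop_nhds_zero_nat η₀).comp (tendsto_add_atTop_nat 1) |>.eventually
      (eventually_le_nhds hη₁) |>.mono fun m hm => by simpa using hm)
  obtain ⟨m, h4, h5⟩ := (h3.and (Metric.tendsto_nhds.1 hK e he)).exists
  obtain ⟨s, h6, h7⟩ := h2 _ (hη m) h4
  filter_upwards [hU (h7 w w₁ hw), hB m, Metric.tendsto_nhds.1 (hl' m) e he] with n h8 h9 h10
  have h11 : |Ex (S n) fun H => w₁ (Y n g H)| ≤ 1 := abs_Ex_le_of zero_le_one fun H _ => hw.b1 _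
  have h12 := mul_pos (pow_pos (hη m) 2) hI
  obtain ⟨t, ht⟩ : ∃ t, κ (η₀ / (m + 1)) n = t * ((η₀ / (m + 1)) ^ 2 * I) :=
    ⟨_, (div_mul_cancel₀ _ h12.ne').symm⟩
  rw [ht, mul_div_cancel_right₀ _ h12.ne'] at h9 h10
  rw [ht] at h8
  generalize (η₀ / (m + 1)) ^ 2 * I = q at h6 h8
  generalize Ex (S n) (fun H => Y n (lap f) H * w (Y n g H)) = A at h8 ⊢
  generalize Ex (S n) (fun H => w₁ (Y n g H)) = E at h8 h11 ⊢
  rw [Real.dist_eq] at h5 h10
  have h13 : |t - K| ≤ 2 * e := by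
    have := abs_sub_le t (l m) K
    linarith
  have h14 : |(a - s * q) * t * E| ≤ e * M * I * (C / I) * 1 := by
    rw [abs_mul, abs_mul]
    gcongr
  have h15 : |a * (t - K) * E| ≤ |a| * (2 * e) * 1 := by
    rw [abs_mul, abs_mul]
    gcongr
  rw [Real.dist_eq, sub_zero, show A + -K * a * E =
    A - s * (t * q) * E - (a - s * q) * t * E + a * (t - K) * E by ring]
  have h16 := abs_add_le (A - s * (t * q) * E - (a - s * q) * t * E) (a * (t - K) * E)
  have h17 := abs_sub (A - s * (t * q) * E) ((a - s * q) * t * E)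
  nlinarith

end Vale.Agent.P153.Wick
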