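import Vale.Agent.P153.Wick.Stm

open Set Filter Topology MeasureTheory Metric
open Vale.Agent.P071 (Test lap DD hh g0 Conf)

namespace Vale.Agent.P153.Wick

namespace Ode

theorem w2_of {w w₁ : ℝ → ℝ} (b0 : ∀ t, |w t| ≤ 1) (b1 : ∀ t, |w₁ t| ≤ 1)
    (hd : ∀ t, HasDerivAt w (w₁ t) t) (hl : ∀ s t, |w₁ (s + t) - w₁ s| ≤ |t|) : W2 w w₁ := by
  refine ⟨b0, b1, fun s t => ?_, hl⟩
  have h := (convex_closedBall (0 : ℝ) |t|).norm_image_sub_le_of_norm_hasDerivWithin_le
    (f := fun x => w (s + x) - x * w₁ s) (f' := fun x => w₁ (s + x) - w₁ s) (C := |t|)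
    (x := 0) (y := t) (fun x _ => by
      have h1 := ((hd (s + x)).comp_const_add s x).sub ((hasDerivAt_id' x).mul_const (w₁ s))
      rw [one_mul] at h1
      exact h1.hasDerivWithinAt)
    (fun x hx => (hl s x).trans (mem_closedBall_zero_iff.1 hx))
    (mem_closedBall_self (abs_nonneg _)) (mem_closedBall_zero_iff.2 le_rfl)
  simp only [add_zero, zero_mul, sub_zero, Real.norm_eq_abs, abs_mul_abs_self] at h
  rw [sq, sub_right_comm]
  exact h

theorem w2_cos : W2 Real.cos fun x => -Real.sin x :=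
  w2_of Real.abs_cos_le_one (fun t => by rw [abs_neg]; exact Real.abs_sin_le_one t)
    Real.hasDerivAt_cos fun s t => by
      have := Real.abs_sin_sub_sin_le s (s + t)
      rwa [sub_add_cancel_left, abs_neg, ← neg_sub_neg] at this

theorem w2_sin : W2 Real.sin Real.cos :=
  w2_of Real.abs_sin_le_one Real.abs_cos_le_one Real.hasDerivAt_sin fun s t => by
    have := Real.abs_cos_sub_cos_le (s + t) s
    rwa [add_sub_cancel_left] at this

theorem lim_ex (U : Ultrafilter ℕ) {f : ℕ → ℝ} {B : ℝ} (h : ∀ᶠ n in U, |f n| ≤ B) :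
    ∃ a, Tendsto f U (𝓝 a) := by
  obtain ⟨a, -, ha⟩ := isCompact_Icc.ultrafilter_le_nhds (U.map f) (s := Icc (-B) B)
    (le_principal_iff.2 (h.mono fun n hn => abs_le.1 hn))
  exact ⟨a, ha⟩

theorem sq_le (z : ℝ) : z ^ 2 ≤ 1 + z ^ 4 := by nlinarith [sq_nonneg (z ^ 2 - 1)]

theorem abs_le' (z : ℝ) : |z| ≤ 1 + z ^ 4 := by
  have h1 : |z| ^ 2 = z ^ 2 := sq_abs z
  nlinarith [sq_nonneg (|z| - 1), sq_nonneg (z ^ 2 - 1), sq_nonneg z]

theorem abs_Ex {S : Set Cfg} {f g : Cfg → ℝ} {a B : ℝ} (ha : 0 ≤ a) (hB : Ex S g ≤ B)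
    (h : ∀ H, |f H| ≤ a * g H) : |Ex S f| ≤ a * B :=
  (abs_Ex_le S f).trans ((Ex_mono fun H _ => h H).trans (by
    rw [Ex_mul_left]
    exact mul_le_mul_of_nonneg_left hB ha))

theorem one {S : ℕ → Set Cfg} {Z : ℕ → Cfg → ℝ} {U : Ultrafilter ℕ} {v B : ℝ} {w w₁ : ℝ → ℝ}
    (hS : ∀ n, Good (S n)) (hw : W2 w w₁) (h0 : ∀ n, Ex (S n) (Z n) = 0)
    (hB : ∀ᶠ n in U, Ex (S n) (fun H => 1 + Z n H ^ 4) ≤ B)
    (h : ∀ t : ℝ, Tendsto (fun n => t * Ex (S n) (fun H => Z n H * w₁ (t * Z n H)) +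
      t ^ 2 * v * Ex (S n) fun H => w (t * Z n H)) U (𝓝 0)) (t : ℝ) :
    Tendsto (fun n => Ex (S n) fun H => w (t * Z n H)) U
      (𝓝 (w 0 * Real.exp (-(t ^ 2 * v / 2)))) := by
  choose c hc using fun t : ℝ => lim_ex U (f := fun n => Ex (S n) fun H => w (t * Z n H))
    (B := 1) (Eventually.of_forall fun n => abs_Ex_le_of zero_le_one fun H _ => hw.b0 _)
  choose p hp using fun t : ℝ =>
    lim_ex U (f := fun n => Ex (S n) fun H => Z n H * w₁ (t * Z n H)) (B := 1 * B)
      (hB.mono fun n hn => abs_Ex zero_le_one hn fun H => by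
        rw [abs_mul, one_mul]
        exact (mul_le_of_le_one_right (abs_nonneg _) (hw.b1 _)).trans (abs_le' _))
  have e1 : ∀ t, p t = -(t * v) * c t := fun t => by
    by_cases ht : t = 0
    · have := hp 0
      simp only [zero_mul, Ex_mul_right, h0] at this
      rw [ht, tendsto_nhds_unique this tendsto_const_nhds]
      simp
    · have := tendsto_nhds_unique (((hp t).const_mul t).add ((hc t).const_mul (t ^ 2 * v))) (h t)
      refine mul_left_cancel₀ ht ?_
      linarith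
  have e2 : ∀ t k, |c (t + k) - c t - k * p t| ≤ k ^ 2 * B := fun t k => by
    refine le_of_tendsto (((hc (t + k)).sub (hc t)).sub ((hp t).const_mul k)).abs ?_
    filter_upwards [hB] with n hn
    rw [← Ex_mul_left, ← Ex_sub, ← Ex_sub]
    refine abs_Ex (sq_nonneg k) hn fun H => ?_
    have h1 := hw.tay (t * Z n H) (k * Z n H)
    rw [← add_mul, mul_assoc, mul_pow] at h1
    exact h1.trans (mul_le_mul_of_nonneg_left (sq_le _) (sq_nonneg k))
  have e3 : ∀ t, HasDerivAt c (p t) t := fun t => by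
    rw [hasDerivAt_iff_isLittleO_nhds_zero]
    refine Asymptotics.IsBigO.trans_isLittleO (g := fun k : ℝ => k ^ 2)
      (Asymptotics.IsBigO.of_bound B (Eventually.of_forall fun k => ?_))
      (Asymptotics.isLittleO_pow_id one_lt_two)
    rw [Real.norm_eq_abs, Real.norm_eq_abs, abs_of_nonneg (sq_nonneg k), mul_comm B]
    exact e2 t k
  have e4 : ∀ t, HasDerivAt (fun t => Real.exp (t ^ 2 * v / 2) * c t) 0 t := fun t => by
    have h1 := ((((hasDerivAt_pow 2 t).mul_const v).div_const 2).exp).mul (e3 t)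
    refine h1.congr_deriv ?_
    rw [e1]
    simp
    ring
  have e5 := is_const_of_deriv_eq_zero (fun t => (e4 t).differentiableAt)
    (fun t => (e4 t).deriv) t 0
  have e6 : c 0 = w 0 := by
    have := hc 0
    simp only [zero_mul, Ex_const (hS _)] at this
    exact tendsto_nhds_unique this tendsto_const_nhds
  have e7 : c t = w 0 * Real.exp (-(t ^ 2 * v / 2)) := by
    simp only [ne_eq, OfNat.ofNat_ne_zero, not_false_eq_true, zero_pow, zero_mul, zero_div,
      Real.exp_zero, one_mul, e6] at e5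
    rw [← e5, mul_right_comm, ← Real.exp_add, add_neg_cancel, Real.exp_zero, one_mul]
  exact e7 ▸ hc t

theorem move {S : ℕ → Set Cfg} {Z : ℕ → Cfg → ℝ} {U : Ultrafilter ℕ} {a B t₀ : ℝ} {w : ℝ → ℝ}
    {t : ℕ → ℝ} (hw : ∀ x y, |w x - w y| ≤ |x - y|)
    (hB : ∀ᶠ n in U, Ex (S n) (fun H => 1 + Z n H ^ 4) ≤ B) (ht : Tendsto t U (𝓝 t₀))
    (h : Tendsto (fun n => Ex (S n) fun H => w (t₀ * Z n H)) U (𝓝 a)) :
    Tendsto (fun n => Ex (S n) fun H => w (t n * Z n H)) U (𝓝 a) := by
  refine h.congr_dist (squeeze_zero' (Eventually.of_forall fun n => dist_nonneg)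
    (g := fun n => |t₀ - t n| * B) ?_ ?_)
  · filter_upwards [hB] with n hn
    rw [Real.dist_eq, ← Ex_sub]
    refine abs_Ex (abs_nonneg _) hn fun H => (hw _ _).trans ?_
    rw [← sub_mul, abs_mul]
    exact mul_le_mul_of_nonneg_left (abs_le' _) (abs_nonneg _)
  · simpa using ((ht.const_sub t₀).abs).mul_const B

theorem avg_exp {S : Set Cfg} (hS : Good S) (g : Cfg → ℝ) :
    (avg S fun H => Complex.exp (Complex.I * (g H : ℝ))) =
      (Ex S fun H => Real.cos (g H) : ℝ) + (Ex S fun H => Real.sin (g H) : ℝ) * Complex.I := by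
  rw [avg, finsum_mem_eq_finite_toFinset_sum _ hS.1, Ex_eq hS.1, Ex_eq hS.1]
  simp only [mul_comm Complex.I, Complex.exp_mul_I, Finset.sum_add_distrib, ← Finset.sum_mul]
  push_cast
  ring

end Ode

open Ode in
theorem s_ode : S_ode := by
  intro S X U v C hS hC h
  obtain ⟨m, hm⟩ : ∃ m : ℕ → ℝ, ∀ n, Ex (S n) (X n) = m n := ⟨_, fun _ => rfl⟩
  obtain ⟨Z, hZ⟩ : ∃ Z : ℕ → Cfg → ℝ, ∀ n H, X n H - m n = Z n H := ⟨_, fun _ _ => rfl⟩
  have h0 : ∀ n, Ex (S n) (Z n) = 0 := fun n => by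
    rw [← Ex_congr (f := fun H => X n H - m n) fun H _ => hZ n H, Ex_sub, Ex_const (hS n), hm,
      sub_self]
  have hB : ∀ᶠ n in U, Ex (S n) (fun H => 1 + Z n H ^ 4) ≤ 1 + 16 * C := by
    filter_upwards [hC] with n hn
    have h1 := Ex_sq_le (S n) (X n)
    have h2 := Ex_sq_le (S n) fun H => X n H ^ 2
    simp only [← pow_mul, Nat.reduceMul] at h2
    rw [hm] at h1
    have h3 : m n ^ 4 ≤ C := by
      have := pow_le_pow_left₀ (sq_nonneg _) h1 2
      rw [← pow_mul] at this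
      exact this.trans (h2.trans hn)
    refine (Ex_mono (g := fun H => (1 + 8 * C) + 8 * X n H ^ 4) fun H _ => ?_).trans ?_
    · rw [← hZ]
      have h4 : (X n H - m n) ^ 2 ≤ 2 * (X n H ^ 2 + m n ^ 2) := by
        nlinarith [sq_nonneg (X n H + m n)]
      have h5 := pow_le_pow_left₀ (sq_nonneg _) h4 2
      nlinarith [sq_nonneg (X n H ^ 2 - m n ^ 2)]
    · rw [Ex_add, Ex_const (hS n), Ex_mul_left]
      linarith
  have hcov : ∀ n (t : ℝ) (g : Cfg → ℝ), cov (S n) (fun H => t * X n H) g =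
      t * Ex (S n) fun H => Z n H * g H := fun n t g => by
    simp only [cov, ← hZ, sub_mul, mul_assoc, Ex_mul_left, Ex_sub, hm, mul_sub]
  have ec : ∀ n t H, Real.cos (t * Z n H) = Real.cos (t * m n) * Real.cos (t * X n H) +
      Real.sin (t * m n) * Real.sin (t * X n H) := fun n t H => by
    rw [← hZ, mul_sub, Real.cos_sub]
    ring
  have es : ∀ n t H, Real.sin (t * Z n H) = Real.cos (t * m n) * Real.sin (t * X n H) -
      Real.sin (t * m n) * Real.cos (t * X n H) := fun n t H => by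
    rw [← hZ, mul_sub, Real.sin_sub]
    ring
  have bd : ∀ {a b : ℕ → ℝ}, (∀ n, |a n| ≤ 1) → Tendsto b U (𝓝 0) →
      Tendsto (fun n => a n * b n) U (𝓝 0) := fun {a b} ha hb =>
    bdd_le_mul_tendsto_zero' 1 (Eventually.of_forall ha) hb
  have k1 : ∀ t : ℝ, Tendsto (fun n => t * Ex (S n) (fun H => Z n H * -Real.sin (t * Z n H)) +
      t ^ 2 * v * Ex (S n) fun H => Real.cos (t * Z n H)) U (𝓝 0) := fun t => by
    have := (bd (fun n => Real.abs_sin_le_one (t * m n)) (h t _ _ w2_cos)).sub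
      (bd (fun n => Real.abs_cos_le_one (t * m n)) (h t _ _ w2_sin))
    rw [sub_zero] at this
    refine this.congr fun n => ?_
    simp only [hcov, ec, es, mul_neg, mul_sub, mul_left_comm (Z n _), Ex_neg, Ex_add, Ex_sub,
      Ex_mul_left]
    ring
  have k2 : ∀ t : ℝ, Tendsto (fun n => t * Ex (S n) (fun H => Z n H * Real.cos (t * Z n H)) +
      t ^ 2 * v * Ex (S n) fun H => Real.sin (t * Z n H)) U (𝓝 0) := fun t => by
    have := (bd (fun n => Real.abs_cos_le_one (t * m n)) (h t _ _ w2_cos)).add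
      (bd (fun n => Real.abs_sin_le_one (t * m n)) (h t _ _ w2_sin))
    rw [add_zero] at this
    refine this.congr fun n => ?_
    simp only [hcov, ec, es, mul_add, mul_left_comm (Z n _), Ex_neg, Ex_add, Ex_sub,
      Ex_mul_left]
    ring
  have c1 := one hS w2_cos h0 hB k1
  have c2 := one hS w2_sin h0 hB k2
  simp only [Real.cos_zero, one_mul] at c1
  simp only [Real.sin_zero, zero_mul] at c2
  refine ⟨?_, fun t t₀ ht => ?_⟩
  · obtain ⟨V, hV⟩ := lim_ex U (f := fun n => Ex (S n) fun H => Z n H * Z n H)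
      (B := 1 * (1 + 16 * C)) (hB.mono fun n hn => abs_Ex zero_le_one hn fun H => by
        rw [abs_mul_self, one_mul, ← sq]
        exact sq_le _)
    have e1 : ∀ t : ℝ, 0 < t →
        |V - v * Real.exp (-(t ^ 2 * v / 2))| ≤ t ^ 2 * (1 + 16 * C) := fun t ht => by
      have h1 := (((hV.const_mul (t ^ 2)).add (k1 t)).sub ((c1 t).const_mul (t ^ 2 * v))).abs
      have h2 := le_of_tendsto h1 (b := t ^ 4 * (1 + 16 * C)) (by
        filter_upwards [hB] with n hn
        rw [add_sub_assoc, add_sub_cancel_right, ← Ex_mul_left, ← Ex_mul_left, ← Ex_add]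
        refine abs_Ex (by positivity) hn fun H => ?_
        have h3 := mul_le_mul_of_nonneg_left (Real.abs_sub_sin_le (t * Z n H))
          (abs_nonneg (t * Z n H))
        have h4 : |t * Z n H| * (|t * Z n H| ^ 3 / 6) = t ^ 4 * Z n H ^ 4 / 6 := by
          rw [← mul_div_assoc, ← pow_succ', Even.pow_abs (by decide), mul_pow]
        rw [h4, ← abs_mul] at h3
        have h5 : t ^ 2 * (Z n H * Z n H) + t * (Z n H * -Real.sin (t * Z n H)) =
            t * Z n H * (t * Z n H - Real.sin (t * Z n H)) := by ring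
        rw [h5]
        have h6 : 0 ≤ t ^ 4 * Z n H ^ 4 := by positivity
        have h7 : 0 ≤ t ^ 4 := by positivity
        linarith)
      rw [add_zero, mul_assoc, ← mul_sub, abs_mul, abs_of_pos (by positivity)] at h2
      refine le_of_mul_le_mul_left (h2.trans_eq (by ring)) (show 0 < t ^ 2 by positivity)
    have e2 : |V - v * Real.exp (-(0 ^ 2 * v / 2))| ≤ 0 ^ 2 * (1 + 16 * C) :=
      le_of_tendsto_of_tendsto (b := 𝓝[>] (0 : ℝ))
        (f := fun t => |V - v * Real.exp (-(t ^ 2 * v / 2))|)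
        (g := fun t => t ^ 2 * (1 + 16 * C))
        (tendsto_nhdsWithin_of_tendsto_nhds (Continuous.tendsto (by fun_prop) 0))
        (tendsto_nhdsWithin_of_tendsto_nhds (Continuous.tendsto (by fun_prop) 0))
        (eventually_nhdsWithin_of_forall e1)
    have e3 : V = v := by simpa [sub_eq_zero] using e2
    refine (e3 ▸ hV).congr fun n => ?_
    have h1 := hcov n 1 (X n)
    simp only [one_mul] at h1
    have h2 : Ex (S n) (fun H => Z n H * Z n H) =
        Ex (S n) fun H => Z n H * X n H - Z n H * m n :=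
      Ex_congr fun H _ => by rw [← mul_sub, hZ]
    rw [h2, Ex_sub, Ex_mul_right, h0, zero_mul, sub_zero, ← h1]
  · simp only [hm, hZ, avg_exp (hS _)]
    have h1 := ((Complex.continuous_ofReal.tendsto _).comp
      (move Real.abs_cos_sub_cos_le hB ht (c1 t₀))).add
      (((Complex.continuous_ofReal.tendsto _).comp
        (move Real.abs_sin_sub_sin_le hB ht (c2 t₀))).mul_const Complex.I)
    rw [Complex.ofReal_zero, zero_mul, add_zero, Complex.ofReal_exp, Complex.ofReal_neg] at h1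
    exact h1

end Vale.Agent.P153.Wick
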