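import Vale.Agent.P153.Wick.Stm

/-! P153, field part: the free sets of the polygons converge in the kernel sense. -/

open Set Filter Topology MeasureTheory Metric
open Vale.Agent.P071 (Test lap DD hh g0 Conf)

namespace Vale.Agent.P153.Wick

namespace Seq

theorem scale {c z : ℂ} (hc : c ≠ 0) {Γ : Set ℂ} (h1 : z ∉ (c * ·) '' Γ)
    (h2 : Bornology.IsBounded (connectedComponentIn ((c * ·) '' Γ)ᶜ z)) :
    z / c ∉ Γ ∧ Bornology.IsBounded (connectedComponentIn Γᶜ (z / c)) := by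
  have h3 : z / c ∉ Γ := fun h => h1 ⟨_, h, mul_div_cancel₀ z hc⟩
  refine ⟨h3, ?_⟩
  obtain ⟨R, hR⟩ := isBounded_iff_forall_norm_le.1 h2
  have h4 : (c * ·) '' connectedComponentIn Γᶜ (z / c) ⊆
      connectedComponentIn ((c * ·) '' Γ)ᶜ z := by
    refine IsPreconnected.subset_connectedComponentIn
      (isPreconnected_connectedComponentIn.image _ (by fun_prop))
      ⟨_, mem_connectedComponentIn h3, mul_div_cancel₀ z hc⟩ ?_
    rintro _ ⟨u, hu, rfl⟩ ⟨v, hv, e⟩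
    exact connectedComponentIn_subset _ _ hu (mul_left_cancel₀ hc e ▸ hv)
  refine isBounded_iff_forall_norm_le.2 ⟨R / ‖c‖, fun u hu => ?_⟩
  rw [le_div_iff₀' (norm_pos_iff.2 hc), ← norm_mul]
  exact hR _ (h4 ⟨u, hu, rfl⟩)

theorem norm_pt (t : ℝ) : Complex.exp (Real.pi * Complex.I * (1 - 2 * t)) ∈ closedBall (0 : ℂ) 1 := by
  rw [mem_closedBall_zero_iff, Complex.norm_exp]
  simp

theorem range_eq (L : LDom) (c : ℂ) (ρ : unitInterval ≃o unitInterval) :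
    range (fun t : unitInterval => c * L.bd (ρ t)) = (c * ·) '' (L.bd '' Icc 0 1) := by
  ext z
  constructor
  · rintro ⟨t, rfl⟩
    exact ⟨_, ⟨_, (ρ t).2, rfl⟩, rfl⟩
  · rintro ⟨_, ⟨t, ht, rfl⟩, rfl⟩
    exact ⟨ρ.symm ⟨t, ht⟩, by simp⟩

theorem closed (h1 : S_ld1) (L : LDom) : L.bd 0 = L.bd 1 := by
  have h2 := (h1 L).2.1 0 (Nat.zero_le _)
  have h3 := (h1 L).2.1 L.N le_rfl
  have h4 : (L.N : ℝ) ≠ 0 := by
    have := L.three
    positivity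
  rw [Nat.cast_zero, zero_div] at h2
  rw [div_self h4, L.closed] at h3
  rw [h2, h3]

theorem inside (h1 : S_ld1) (hw : S_wind) {ψ : ℂ → ℂ} {L : ℕ → LDom} {δ : ℕ → ℝ}
    (hψ : IsJordanMap ψ) (hA : Approx ψ L δ) (K : Set ℂ) (hK : IsCompact K)
    (hD : K ⊆ ψ '' ball 0 1) : ∀ᶠ n in atTop, ∀ z ∈ K, z / δ n ∈ (L n).dom := by
  obtain ⟨e, he, H⟩ := hw ψ hψ K hK hD
  filter_upwards [hA.2.2.2 e he] with n ⟨ρ, hρ⟩ z hz
  have h2 : Continuous fun t : unitInterval => (L n).bd (ρ t) :=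
    (h1 (L n)).1.comp_continuous (continuous_subtype_val.comp ρ.continuous) fun t => (ρ t).2
  have h3 := H (fun t => (δ n : ℂ) * (L n).bd (ρ t)) (continuous_const.mul h2) (by
    have h4 : ρ 0 = 0 := ρ.map_bot
    have h5 : ρ 1 = 1 := ρ.map_top
    simp only [h4, h5, Icc.coe_zero, Icc.coe_one, closed h1]) hρ z hz
  rw [range_eq] at h3
  exact scale (by exact_mod_cast (hA.1 n).ne') h3.1 h3.2

end Seq

theorem s_seq (h1 : S_ld1) (h2 : S_ld2) (hc : S_conf) (hw : S_wind) (ha : S_arc) : S_seq := by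
  intro ψ L δ hψ hA
  obtain ⟨c1, c2, -, c3, -⟩ := hc ψ hψ
  have h0 : ∀ n, (δ n : ℂ) ≠ 0 := fun n => by exact_mod_cast (hA.1 n).ne'
  refine ⟨⟨c1, c2, ⟨_, 0, mem_ball_self one_pos, rfl⟩, hA.1, hA.2.1, fun n => (h2 _).1,
    fun K hK hD => ?_, ?_, fun z hz e he => ?_⟩, Seq.inside h1 hw hψ hA⟩
  · filter_upwards [Seq.inside h1 hw hψ hA K hK hD] with n hn x hx
    have h3 := hn _ hx
    rwa [mul_div_cancel_left₀ _ (h0 n)] at h3
  · obtain ⟨R, hR⟩ := (isCompact_closedBall (0 : ℂ) 1).exists_bound_of_continuousOn hψ.1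
    refine ⟨R + 1, ?_⟩
    filter_upwards [hA.2.2.2 1 one_pos] with n ⟨ρ, hρ⟩ x hx
    have h3 : ‖(δ n : ℂ)‖ = δ n := by rw [Complex.norm_real, Real.norm_of_nonneg (hA.1 n).le]
    have h4 := (h1 (L n)).2.2.2 0 ((R + 1) / δ n) (fun t ht => by
      have h5 := hρ (ρ.symm ⟨t, ht⟩)
      rw [ρ.apply_symm_apply, dist_eq_norm] at h5
      have h6 := (norm_le_norm_add_norm_sub' _ _).trans (add_le_add (hR _ (Seq.norm_pt _)) h5)
      rwa [norm_mul, h3, ← le_div_iff₀' (hA.1 n), ← mem_closedBall_zero_iff] at h6) hx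
    rwa [mem_closedBall_zero_iff, le_div_iff₀' (hA.1 n), ← h3, ← norm_mul] at h4
  · obtain ⟨ζ, hζ, rfl⟩ := c3 hz
    filter_upwards [(ha ψ L δ hψ hA).2.1 e he] with n hn
    obtain ⟨i, hi, h3⟩ := hn ζ hζ
    refine ⟨_, ?_, h3⟩
    rcases lt_or_ge i (L n).k with h | h
    · exact (h2 _).2.2.1 ⟨i, h, rfl⟩
    · exact (h2 _).2.2.2.1 ⟨i, ⟨h, hi⟩, rfl⟩

end Vale.Agent.P153.Wick
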