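import Vale.Agent.P153.Wick.Stm

/-! P153, field part: spreading a function modulo a Laplacian. -/

open Set Filter Topology MeasureTheory Metric
open Vale.Agent.P071 (Test lap DD hh g0 Conf)

namespace Vale.Agent.P153.Wick

noncomputable section

namespace Sm

open Vale.Agent.P071
open scoped Pointwise

/-- Convolution. -/
def cv (k r : ℂ → ℝ) : ℂ → ℝ := convolution k r (ContinuousLinearMap.mul ℝ ℝ) volume

variable {k r Λ : ℂ → ℝ} {U : Set ℂ}

theorem cv_eq (z : ℂ) : cv k r z = ∫ y, k (z - y) * r y := convolution_mul_swap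

theorem dd_cv (hk : LocallyIntegrable k) (hr : Test U r) (v : ℂ) :
    dd v (cv k r) = cv k (dd v r) := by
  funext z
  unfold dd cv
  rw [(hr.2.1.hasFDerivAt_convolution_right (ContinuousLinearMap.mul ℝ ℝ) hk
    (hr.1.of_le one_le_oo) z).fderiv,
    convolution_precompR_apply _ hk (hr.2.1.fderiv ℝ) (hr.1.continuous_fderiv oo_ne_zero)]

theorem int_mul (hk : LocallyIntegrable k) (hr : Test U r) (z : ℂ) :
    Integrable fun y => k (z - y) * r y := by
  have h : Integrable fun y => k y * r (z - y) :=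
    hk.integrable_smul_right_of_hasCompactSupport
      (hr.continuous.comp (continuous_const.sub continuous_id))
      (hr.2.1.comp_homeomorph (Homeomorph.subLeft z))
  simpa using h.comp_sub_left z

theorem lap_cv (hk : LocallyIntegrable k) (hr : Test U r) (z : ℂ) :
    lap (cv k r) z = ∫ y, k (z - y) * lap r y := by
  simp only [lap, d1_eq, d2_eq, mul_add]
  rw [dd_cv hk hr, dd_cv hk (hr.dd _), dd_cv hk hr, dd_cv hk (hr.dd _), cv_eq, cv_eq,
    integral_add (int_mul hk ((hr.dd _).dd _) z) (int_mul hk ((hr.dd _).dd _) z)]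

theorem dd_smul (c : ℝ) (v : ℂ) (a : ℂ → ℝ) :
    dd v (fun y => a (c • y)) = fun y => c * dd v a (c • y) := by
  funext y
  unfold dd
  rw [fderiv_comp_smul, smul_apply, smul_eq_mul]

theorem lap_smul (c : ℝ) (a : ℂ → ℝ) (y : ℂ) :
    lap (fun y => a (c • y)) y = c ^ 2 * lap a (c • y) := by
  simp only [lap, d1_eq, d2_eq, dd_smul, dd_const_mul]
  ring

theorem lap_sub_left (z : ℂ) (a : ℂ → ℝ) (y : ℂ) : lap (fun y => a (z - y)) y = lap a (z - y) := by
  have h := lap_smul (-1) (fun w => a (z + w)) y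
  rw [lap_comp_add] at h
  simpa [sub_eq_add_neg] using h

theorem green (hΛ : ContDiff ℝ oo Λ) (hr : Test U r) (z : ℂ) :
    ∫ y, Λ (z - y) * lap r y = ∫ y, lap Λ (z - y) * r y := by
  have h0 : ContDiff ℝ oo fun y => Λ (z - y) := hΛ.comp (contDiff_const.sub contDiff_id)
  have hr' : Test univ r := ⟨hr.1, hr.2.1, subset_univ _⟩
  have h1 := green1 isOpen_univ (h0.of_le two_le_oo).contDiffOn hr'
  have h2 := green2 isOpen_univ (h0.of_le one_le_oo).contDiffOn hr'
  simp only [Measure.restrict_univ, lap_sub_left] at h1 h2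
  linarith

theorem main {x : ℂ} {s M : ℝ} (hs : 0 < s) (hΛ : ContDiff ℝ oo Λ)
    (h1 : ∀ z, s ≤ ‖z‖ → Λ z = Real.log ‖z‖) (hM : ∀ z, |lap Λ z| ≤ M) (hr : Test (ball x s) r) :
    ∃ f r' : ℂ → ℝ, Test (ball x (2 * s)) f ∧ Test (ball x (2 * s)) r' ∧
      (∀ z, r z = r' z + lap f z) ∧ ∀ z, |r' z| ≤ (2 * Real.pi)⁻¹ * M * ∫ y, |r y| := by
  have hπ := Real.pi_pos
  have hl : LocallyIntegrable Λ := hΛ.continuous.locallyIntegrable
  have hk : LocallyIntegrable fun z => (2 * Real.pi)⁻¹ * (Real.log ‖z‖ - Λ z) :=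
    (locInt_log.sub hl).smul (2 * Real.pi)⁻¹
  have hK : IsCompact (closedBall (0 : ℂ) s + tsupport r) := (isCompact_closedBall _ _).add hr.2.1
  have hsup : Function.support (cv (fun z => (2 * Real.pi)⁻¹ * (Real.log ‖z‖ - Λ z)) r) ⊆
      closedBall (0 : ℂ) s + tsupport r :=
    (support_convolution_subset _).trans (add_subset_add (fun z hz => by
      by_contra h
      rw [mem_closedBall_zero_iff, not_le] at h
      exact hz (by simp only [h1 z h.le, sub_self, mul_zero])) (subset_tsupport r))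
  have hf : Test (ball x (2 * s)) (cv (fun z => (2 * Real.pi)⁻¹ * (Real.log ‖z‖ - Λ z)) r) := by
    refine ⟨hr.2.1.contDiff_convolution_right (n := ⊤) _ hk hr.1,
      HasCompactSupport.of_support_subset_isCompact hK hsup,
      (closure_minimal hsup hK.isClosed).trans ?_⟩
    rintro _ ⟨u, hu, v, hv, rfl⟩
    have h2 := mem_ball_iff_norm.1 (hr.2.2 hv)
    rw [mem_closedBall_zero_iff] at hu
    rw [mem_ball_iff_norm, add_sub_assoc]
    linarith [norm_add_le u (v - x)]
  refine ⟨_, fun z => r z - lap (cv (fun z => (2 * Real.pi)⁻¹ * (Real.log ‖z‖ - Λ z)) r) z, hf,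
    Test.sub ⟨hr.1, hr.2.1, hr.2.2.trans (ball_subset_ball (by linarith))⟩ hf.lap,
    fun z => (sub_add_cancel _ _).symm, fun z => ?_⟩
  have h3 : ∫ y, (2 * Real.pi)⁻¹ * (Real.log ‖z - y‖ - Λ (z - y)) * lap r y =
      r z - (2 * Real.pi)⁻¹ * ∫ y, lap Λ (z - y) * r y := by
    simp only [mul_assoc, sub_mul]
    rw [integral_const_mul, integral_sub (integrable_log_mul hr.lap z) (int_mul hl hr.lap z),
      fund' hr, green hΛ hr]
    field_simp
  beta_reduce
  rw [lap_cv hk hr, h3, sub_sub_cancel, abs_mul, abs_of_pos (by positivity), mul_assoc,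
    ← integral_const_mul]
  refine mul_le_mul_of_nonneg_left ?_ (by positivity)
  rw [← Real.norm_eq_abs]
  refine norm_integral_le_of_norm_le (hr.integrable.abs.const_mul M)
    (Eventually.of_forall fun y => ?_)
  rw [Real.norm_eq_abs, abs_mul]
  exact mul_le_mul_of_nonneg_right (hM _) (abs_nonneg _)

theorem lap_log {z : ℂ} (hz : z ≠ 0) : lap (fun y : ℂ => Real.log ‖y‖) z = 0 := by
  have e : (fun y : ℂ => Real.log ‖y‖) = fun y => 2⁻¹ * Real.log (1 - hh y) := by
    funext y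
    simp [hh]
  have h0 : ‖z‖ ≠ 0 := norm_ne_zero_iff.2 hz
  have h1 : 1 - hh z = ‖z‖ ^ 2 := by simp [hh]
  have h2 : 1 - hh z ≠ 0 := by rw [h1]; positivity
  have h3 : ∀ t : ℝ, HasDerivAt (fun t : ℝ => 1 - t) (-1) t := fun t =>
    (hasDerivAt_id' t).const_sub 1
  rw [e, lap_comp_hh (g := fun t => 2⁻¹ * Real.log (1 - t)) (g1 := fun t => 2⁻¹ * -(1 - t)⁻¹)
    (g2 := 2⁻¹ * -(-(-1) / (1 - hh z) ^ 2)) ?_ (((h3 _).inv h2).neg.const_mul _), h1]
  · field_simp; ring
  · filter_upwards [(continuous_const.sub continuous_id).continuousAt.eventually_ne h2] with t ht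
    have h4 := ((h3 t).log ht).const_mul (2⁻¹ : ℝ)
    rwa [neg_div, one_div] at h4

theorem unit : ∃ (Λ : ℂ → ℝ) (M : ℝ), 0 < M ∧ ContDiff ℝ oo Λ ∧
    (∀ z, 1 ≤ ‖z‖ → Λ z = Real.log ‖z‖) ∧ ∀ z, |lap Λ z| ≤ M := by
  have h1 : ContDiff ℝ oo fun z : ℂ => Real.log ‖z‖ * (1 - chi (1 / 4) z) := by
    refine contDiff_mul_of_tsupport (U := {0}ᶜ) isOpen_compl_singleton
      (fun z hz => ((contDiffAt_norm ℝ hz).log (norm_ne_zero_iff.2 hz)).contDiffWithinAt)
      (contDiff_const.sub (contDiff_chi _)) (subset_compl_singleton_iff.2 ?_)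
    rw [notMem_tsupport_iff_eventuallyEq]
    filter_upwards [continuous_hh.continuousAt.eventually
      (lt_mem_nhds (show 2 * (1 / 4) < hh 0 by norm_num [hh]))] with z hz
    rw [chi_eq_one (by norm_num) hz.le, sub_self, Pi.zero_apply]
  have h2 : ∀ z : ℂ, 1 ≤ ‖z‖ → Real.log ‖z‖ * (1 - chi (1 / 4) z) = Real.log ‖z‖ := fun z hz => by
    rw [chi_eq_zero (by norm_num) (by unfold hh; nlinarith), sub_zero, mul_one]
  have h3 : HasCompactSupport (lap fun z : ℂ => Real.log ‖z‖ * (1 - chi (1 / 4) z)) :=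
    HasCompactSupport.intro (isCompact_closedBall (0 : ℂ) 1) fun z hz => by
      rw [mem_closedBall_zero_iff, not_le] at hz
      rw [lap_congr (b := fun z : ℂ => Real.log ‖z‖), lap_log (norm_pos_iff.1 (by linarith))]
      filter_upwards [continuous_norm.continuousAt.eventually (lt_mem_nhds hz)] with y hy
      exact h2 y hy.le
  obtain ⟨M, hM⟩ := h3.exists_bound_of_continuous
    (continuousOn_univ.1 (contDiffOn_lap isOpen_univ h1.contDiffOn).continuousOn)
  exact ⟨_, |M| + 1, by positivity, h1, h2, fun z => by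
    linarith [hM z, le_abs_self M, Real.norm_eq_abs
      (lap (fun z : ℂ => Real.log ‖z‖ * (1 - chi (1 / 4) z)) z)]⟩

end Sm

theorem s_sm : S_sm := by
  obtain ⟨Λ, M, hM, h1, h2, h3⟩ := Sm.unit
  have hπ := Real.pi_pos
  refine ⟨(2 * Real.pi)⁻¹ * M, by positivity, fun x s r hs hr => ?_⟩
  have h4 : ContDiff ℝ P071.oo fun z : ℂ => Λ (s⁻¹ • z) := h1.comp (contDiff_id.const_smul _)
  have h5 := Sm.main (Λ := fun z => Λ (s⁻¹ • z) + Real.log s) (M := M / s ^ 2) hs
    (h4.add contDiff_const) (fun z hz => by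
      have h6 : ‖s⁻¹ • z‖ = ‖z‖ / s := by
        rw [norm_smul, Real.norm_eq_abs, abs_of_pos (inv_pos.2 hs), div_eq_inv_mul]
      rw [h2 _ (by rwa [h6, one_le_div hs]), h6, Real.log_div (hs.trans_le hz).ne' hs.ne',
        sub_add_cancel])
    (fun z => by
      rw [P071.lap_add (h4.of_le P071.two_le_oo).contDiffAt contDiffAt_const, P071.lap_const,
        add_zero, Sm.lap_smul, abs_mul, abs_of_pos (by positivity), inv_pow, div_eq_inv_mul]
      exact mul_le_mul_of_nonneg_left (h3 _) (by positivity)) hr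
  rwa [← mul_div_assoc] at h5

end

end Vale.Agent.P153.Wick
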