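import Vale.Agent.P153.Wick.Stm

/-! P153, field part: the Stein equation and the abstract theorem. -/

open Set Filter Topology MeasureTheory Metric
open Vale.Agent.P071 (Test lap DD hh g0 Conf)

namespace Vale.Agent.P153.Wick

namespace Stein

variable {D : Set ℂ} {S : ℕ → Set Cfg} {Y : ℕ → (ℂ → ℝ) → Cfg → ℝ} {f : ℂ → ℝ}

theorem univ' (h : Test D f) : Test univ f := ⟨h.1, h.2.1, subset_univ _⟩

theorem w_one : W2 (fun _ => 1) fun _ => 0 :=
  ⟨fun _ => by simp, fun _ => by simp, fun _ t => by simpa using sq_nonneg t, fun _ t => by simp⟩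

theorem cov_add (T : Set Cfg) (X X' Z : Cfg → ℝ) :
    cov T (fun H => X H + X' H) Z = cov T X Z + cov T X' Z := by
  simp only [cov, add_mul, Ex_add]; ring

theorem mom (h : WI0 D S Y) (hf : Test D f) :
    ∃ C : ℝ, ∀ᶠ n in atTop, Ex (S n) (fun H => Y n f H ^ 4) ≤ C := by
  obtain ⟨C, -, hC⟩ := h.mb
  obtain ⟨R, hR, hD⟩ := h.bdd.subset_ball_lt 0 0
  obtain ⟨A, hA⟩ := hf.bdd
  have hA0 : 0 ≤ A := (abs_nonneg _).trans (hA 0)
  refine ⟨_, hC 0 (2 * R) (A + 1) f (by positivity) (by positivity) (fun e => ?_)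
    ⟨hf.1, hf.2.1, fun z hz => ⟨hf.2.2 hz, ball_subset_ball (by linarith) (hD (hf.2.2 hz))⟩⟩
    fun y => (hA y).trans (by linarith)⟩
  have h1 : ‖(R : ℂ)‖ = R := by rw [Complex.norm_real, Real.norm_of_nonneg hR.le]
  have h2 := hD (e (mem_ball_zero_iff.2 (show ‖(R : ℂ)‖ < 2 * R by linarith)))
  rw [mem_ball_zero_iff, h1] at h2
  exact lt_irrefl _ h2

theorem var_le {T : Set Cfg} (hT : Good T) (X : Cfg → ℝ) :
    cov T X X ≤ 1 + Ex T fun H => X H ^ 4 := by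
  have h1 : Ex T (fun H => X H * X H) ≤ Ex T fun H => 1 + X H ^ 4 :=
    Ex_mono fun H _ => by nlinarith [sq_nonneg (X H ^ 2 - 1), sq_nonneg (X H)]
  rw [Ex_add, Ex_const hT] at h1
  unfold cov
  linarith [mul_self_nonneg (Ex T X)]

end Stein

open Stein

theorem s_stein (hR : S_R) : S_stein := by
  intro D ψ φ c S Y U K h hi hb g hg w w₁ hw
  obtain ⟨C, hC, hb⟩ := hb
  obtain ⟨C', hC', hR⟩ := hR D ψ φ g h.op h.conf hg
  refine Metric.tendsto_nhds.2 fun ε hε => ?_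
  have hτ : 0 < ε / (4 * (C * C')) := by positivity
  have hε' : 0 < ε / (4 * (1 + C')) := by positivity
  obtain ⟨e, he, hb⟩ := hb g hg _ _ hε' hτ
  obtain ⟨f, r, hf, hr, a1, a2, a3, a4, a5⟩ := hR (min e (ε / (4 * (C * C')))) (lt_min he hτ)
  have e1 : r = fun z => lap f z + g z := funext fun z => by rw [a1]; ring
  have e2 : ∀ n, Y n r = fun H => Y n (lap f) H + Y n g H := fun n => funext fun H => by
    rw [e1]; exact h.add n _ _ (univ' hf.lap) (univ' hg) H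
  filter_upwards [hb r hr (fun z hz => (a3 z hz).trans (min_le_left _ _)) w w₁ hw,
    Metric.tendsto_nhds.1 (hi f g hf (univ' hg) w w₁ hw) _ (show 0 < ε / 4 by positivity),
    Metric.tendsto_nhds.1 (hi f g hf (univ' hg) _ _ w_one) _ (show 0 < ε / 4 by positivity)]
    with n b1 b2 b3
  rw [e2, cov_add] at b1
  rw [Real.dist_0_eq_abs, a2] at b2
  simp only [Real.dist_0_eq_abs, mul_one, Ex_zero, mul_zero, add_zero] at b3
  have b4 : |Ex (S n) fun H => w (Y n g H)| ≤ 1 := abs_Ex_le_of zero_le_one fun H _ => hw.b0 _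
  have b5 : |Ex (S n) (Y n (lap f)) * Ex (S n) fun H => w (Y n g H)| ≤ ε / 4 := by
    rw [abs_mul]
    exact (mul_le_of_le_one_right (abs_nonneg _) b4).trans b3.le
  have b6 : ε / (4 * (1 + C')) * (1 + ∫ z, |r z|) ≤ ε / 4 :=
    (mul_le_mul_of_nonneg_left (add_le_add le_rfl a4) hε'.le).trans_eq (by field_simp)
  have b7 : C * ∫ z in Mk D φ (ε / (4 * (C * C'))), |r z| ≤ ε / 4 :=
    (mul_le_mul_of_nonneg_left (a5 _ hτ (min_le_right _ _)) hC.le).trans_eq (by field_simp)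
  rw [Real.dist_0_eq_abs, abs_lt]
  rw [abs_le] at b1 b5
  rw [abs_lt] at b2
  have b8 : cov (S n) (Y n (lap f)) (fun H => w (Y n g H)) =
      Ex (S n) (fun H => Y n (lap f) H * w (Y n g H)) -
        Ex (S n) (Y n (lap f)) * Ex (S n) fun H => w (Y n g H) := rfl
  constructor <;> linarith [b1.1, b1.2, b2.1, b2.2, b5.1, b5.2]

theorem s_wick (hb : S_bump) (hc : S_cell) (hi : S_ibp) (hbd : S_bdry) (hs : S_stein) (ho : S_ode)
    (hQ : S_Q) : S_wick := by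
  intro D ψ φ c S Y h
  obtain ⟨p, k, σ, hp⟩ := hb
  obtain ⟨κ, hκ⟩ := hc D S Y p k σ h.toWI0 hp
  obtain ⟨f₀, v, t₀, n₀, hv, hvar⟩ := h.var
  have key : ∀ U : Ultrafilter ℕ, (U : Filter ℕ) ≤ atTop → ∃ K : ℝ, ∀ f, Test D f →
      Tendsto (fun n => cov (S n) (Y n f) (Y n f)) U (𝓝 (K * Qv D φ f)) ∧
      ∀ (t : ℕ → ℝ) (t₀ : ℝ), Tendsto t U (𝓝 t₀) →
        Tendsto (fun n => avg (S n) fun H => Complex.exp (Complex.I *
          (t n * (Y n f H - Ex (S n) (Y n f)) : ℝ))) U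
          (𝓝 (Complex.exp (-(t₀ ^ 2 * (K * Qv D φ f) / 2 : ℝ)))) := fun U hU => by
    obtain ⟨K, hK⟩ := hi D S Y p k σ κ h.toWI0 hp hκ U hU
    have h1 := hs D ψ φ c S Y U K h hK (hbd D ψ φ c S Y U K h hU hK)
    refine ⟨K, fun f hf => ?_⟩
    obtain ⟨C, hC⟩ := mom h.toWI0 hf
    refine ho S (fun n => Y n f) U _ C h.good (hC.filter_mono hU) fun t w w₁ hw => ?_
    have h2 := h1 _ (hf.const_mul t) w w₁ hw
    have h3 : ∀ n, Y n (fun z => t * f z) = fun H => t * Y n f H := fun n =>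
      funext (h.smul n t f (univ' hf))
    simp only [h3, (hQ D ψ φ f h.op h.conf).2 t, mul_left_comm K] at h2
    exact h2
  have hQ0 : 0 < Qv D φ f₀ := by
    obtain ⟨K, hK⟩ := key (Ultrafilter.of atTop) (Ultrafilter.of_le _)
    have h1 := ge_of_tendsto (hK f₀ t₀).1 (hvar.filter_mono (Ultrafilter.of_le _))
    refine lt_of_le_of_ne ((hQ D ψ φ f₀ h.op h.conf).1 n₀) fun e => ?_
    rw [← e, mul_zero] at h1
    linarith
  obtain ⟨C, hC⟩ := mom h.toWI0 t₀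
  refine ⟨fun n => √(max (v / Qv D φ f₀) (min ((1 + C) / Qv D φ f₀)
    (cov (S n) (Y n f₀) (Y n f₀) / Qv D φ f₀))),
    ⟨√(v / Qv D φ f₀), √(max (v / Qv D φ f₀) ((1 + C) / Qv D φ f₀)), by positivity, fun n =>
      ⟨Real.sqrt_le_sqrt (le_max_left _ _),
        Real.sqrt_le_sqrt (max_le_max le_rfl (min_le_left _ _))⟩⟩, fun f hf => ?_⟩
  refine (tendsto_iff_ultrafilter _ _ _).2 fun U hU => ?_
  obtain ⟨K, hK⟩ := key U hU
  have h1 := ge_of_tendsto (hK f₀ t₀).1 (hvar.filter_mono hU)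
  have hK0 : 0 < K := (mul_pos_iff_of_pos_right hQ0).1 (hv.trans_le h1)
  have h2 := ((hK f₀ t₀).1.div_const (Qv D φ f₀)).sqrt
  rw [mul_div_cancel_right₀ _ hQ0.ne'] at h2
  have h3 : Tendsto (fun n => √(max (v / Qv D φ f₀) (min ((1 + C) / Qv D φ f₀)
      (cov (S n) (Y n f₀) (Y n f₀) / Qv D φ f₀)))) U (𝓝 √K) := by
    refine h2.congr' ?_
    filter_upwards [hvar.filter_mono hU, hC.filter_mono hU] with n a1 a2
    have a3 := var_le (h.good n) (Y n f₀)
    rw [min_eq_right (div_le_div_of_nonneg_right (by linarith) hQ0.le),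
      max_eq_right (div_le_div_of_nonneg_right a1 hQ0.le)]
  have h4 := (hK f hf).2 _ _ (h3.inv₀ (Real.sqrt_pos.2 hK0).ne')
  rw [inv_pow, Real.sq_sqrt hK0.le, inv_mul_cancel_left₀ hK0.ne'] at h4
  simpa only [div_eq_inv_mul (_ - _)] using h4

end Vale.Agent.P153.Wick
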