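import Vale.Agent.P153.Wick.Stm

open Set Filter Topology MeasureTheory Metric
open Vale.Agent.P071 (Test lap DD hh g0 Conf)

namespace Vale.Agent.P153.Wick

noncomputable section

namespace Wind

/-- The closed curve has a closed continuous logarithm. -/
def Null (g : unitInterval → ℂ) : Prop :=
  ∃ l : unitInterval → ℂ, Continuous l ∧ (∀ t, Complex.exp (l t) = g t) ∧ l 0 = l 1

theorem Null.near {g g' : unitInterval → ℂ} (h : Null g) (hc : Continuous g') (h1 : g' 0 = g' 1)
    (h2 : ∀ t, ‖g' t - g t‖ < ‖g t‖) : Null g' := by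
  obtain ⟨l, l1, l2, l3⟩ := h
  have g0 : ∀ t, g t ≠ 0 := fun t => l2 t ▸ Complex.exp_ne_zero _
  have gc : Continuous g := (funext l2 : _ = g) ▸ Complex.continuous_exp.comp l1
  have g1 : g 0 = g 1 := by rw [← l2, ← l2, l3]
  have hs : ∀ t, g' t / g t ∈ Complex.slitPlane := fun t => by
    refine Complex.ball_one_subset_slitPlane ?_
    rw [mem_ball, dist_eq_norm, div_sub_one (g0 t), norm_div, div_lt_one (norm_pos_iff.2 (g0 t))]
    exact h2 t
  refine ⟨fun t => l t + Complex.log (g' t / g t), l1.add ((hc.div gc g0).clog hs), fun t => ?_, ?_⟩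
  · rw [Complex.exp_add, l2, Complex.exp_log (Complex.slitPlane_ne_zero (hs t)),
      mul_div_cancel₀ _ (g0 t)]
  · simp only [l3, g1, h1]

theorem homot {X : Type} [TopologicalSpace X] [PreconnectedSpace X] {H : X → unitInterval → ℂ}
    (hc : Continuous fun p : X × unitInterval => H p.1 p.2) (h0 : ∀ x t, H x t ≠ 0)
    (h1 : ∀ x, H x 0 = H x 1) (x y : X) (h : Null (H x)) : Null (H y) := by
  have c1 : ∀ x, Continuous (H x) := fun x => hc.comp (Continuous.prodMk_right x)
  have : IsLocallyConstant fun x => Null (H x) := by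
    refine (IsLocallyConstant.iff_eventually_eq _).2 fun x => ?_
    have c2 : Continuous fun p : X × unitInterval => H x p.2 := (c1 x).comp continuous_snd
    have e := isCompact_univ.eventually_forall_of_forall_eventually (x₀ := x)
      (P := fun y t => ‖H y t - H x t‖ < ‖H x t‖ ∧ ‖H x t - H y t‖ < ‖H y t‖) fun t _ =>
        ((hc.sub c2).norm.continuousAt.eventually_lt c2.norm.continuousAt
          (by simpa using h0 x t)).and
        ((c2.sub hc).norm.continuousAt.eventually_lt hc.norm.continuousAt (by simpa using h0 x t))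
    filter_upwards [e] with y hy
    exact propext ⟨fun h => h.near (c1 x) (h1 x) fun t => (hy t trivial).2,
      fun h => h.near (c1 y) (h1 y) fun t => (hy t trivial).1⟩
  exact (this.apply_eq_of_preconnectedSpace x y).mp h

theorem null_of_unb {γ : unitInterval → ℂ} (hc : Continuous γ) (h1 : γ 0 = γ 1) {z : ℂ}
    (hz : z ∉ range γ) (h : ¬Bornology.IsBounded (connectedComponentIn (range γ)ᶜ z)) :
    Null fun t => γ t - z := by
  obtain ⟨R, hR⟩ := (isCompact_range hc).isBounded.exists_norm_le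
  rw [isBounded_iff_forall_norm_le] at h
  push Not at h
  obtain ⟨w, hw, hwR⟩ := h R
  have w0 : w ≠ 0 := by
    have := (norm_nonneg _).trans (hR _ (mem_range_self 0))
    exact norm_pos_iff.1 (by linarith)
  have n0 : Null fun _ => -w :=
    ⟨fun _ => Complex.log (-w), continuous_const, fun _ => Complex.exp_log (neg_ne_zero.2 w0), rfl⟩
  have n1 : Null fun t => γ t - w := n0.near (by fun_prop) (by simp only [h1]) fun t => by
    simpa using (hR _ (mem_range_self t)).trans_lt hwR
  have : PreconnectedSpace (connectedComponentIn (range γ)ᶜ z) :=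
    Subtype.preconnectedSpace isPreconnected_connectedComponentIn
  exact homot (X := connectedComponentIn (range γ)ᶜ z) (H := fun w t => γ t - w) (by fun_prop)
    (fun x t h => connectedComponentIn_subset _ _ x.2 ⟨t, sub_eq_zero.1 h⟩)
    (fun x => by simp only [h1]) ⟨w, hw⟩ ⟨z, mem_connectedComponentIn hz⟩ n1

/-- The unit circle. -/
def circ (t : unitInterval) : ℂ := Complex.exp (Real.pi * Complex.I * (1 - 2 * (t : ℝ)))

theorem cc_cont : Continuous Wind.circ := by unfold Wind.circ; fun_prop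

theorem cc_norm (t : unitInterval) : ‖Wind.circ t‖ = 1 := by
  have : (Real.pi * Complex.I * (1 - 2 * (t : ℝ)) : ℂ) =
      ((Real.pi * (1 - 2 * (t : ℝ)) : ℝ) : ℂ) * Complex.I := by push_cast; ring
  rw [Wind.circ, this, Complex.norm_exp_ofReal_mul_I]

theorem cc_cl : Wind.circ 0 = Wind.circ 1 := by
  refine Complex.exp_eq_exp_iff_exists_int.2 ⟨1, ?_⟩
  simp
  ring

theorem not_null_pow {m : ℕ} (hm : m ≠ 0) (a : ℂ) : ¬Null fun t => Wind.circ t ^ m * a := by
  rintro ⟨l, l1, l2, l3⟩
  have e : ∀ t : unitInterval,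
      Complex.exp (l t - m * (Real.pi * Complex.I * (1 - 2 * (t : ℝ)))) = a := fun t => by
    rw [Complex.exp_sub, l2, Complex.exp_nat_mul]
    exact mul_div_cancel_left₀ _ (pow_ne_zero _ (Complex.exp_ne_zero _))
  have := Complex.isCoveringMap_exp.const_of_comp
    (g := fun t : unitInterval => l t - m * (Real.pi * Complex.I * (1 - 2 * (t : ℝ))))
    (by fun_prop) (fun s t => Subtype.ext ((e s).trans (e t).symm)) 0 1
  simp only [l3, Icc.coe_zero, Icc.coe_one, Complex.ofReal_zero, Complex.ofReal_one] at this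
  have h2 : (m : ℂ) * (Real.pi * Complex.I) = 0 := by linear_combination (-1 / 2 : ℂ) * this
  simp [hm, Real.pi_ne_zero] at h2

theorem not_null {ψ : ℂ → ℂ} (hψ : IsJordanMap ψ) {x : ℂ} (hx : x ∈ ball (0 : ℂ) 1) :
    ¬Null fun t => ψ (Wind.circ t) - ψ x := by
  obtain ⟨p1, p2, p3⟩ := hψ
  intro h
  have m1 : ∀ t, Wind.circ t ∈ closedBall (0 : ℂ) 1 := fun t => by simp [cc_norm]
  have c1 : Continuous fun t => ψ (Wind.circ t) := p1.comp_continuous cc_cont m1
  have : PreconnectedSpace (ball (0 : ℂ) 1) :=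
    Subtype.preconnectedSpace (convex_ball _ _).isPreconnected
  have n1 := homot (X := ball (0 : ℂ) 1) (H := fun x t => ψ (Wind.circ t) - ψ x)
    ((c1.comp continuous_snd).sub (p1.comp_continuous (by fun_prop)
      fun p => ball_subset_closedBall p.1.2))
    (fun x t h => by
      have e := p2 (m1 t) (ball_subset_closedBall x.2) (sub_eq_zero.1 h)
      have := x.2
      rw [← e, mem_ball_zero_iff, cc_norm] at this
      exact lt_irrefl _ this)
    (fun x => by simp only [cc_cl]) ⟨x, hx⟩ ⟨0, mem_ball_self one_pos⟩ h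
  have a1 : AnalyticAt ℂ (fun z => ψ z - ψ 0) 0 :=
    (p3.analyticAt (ball_mem_nhds 0 one_pos)).sub analyticAt_const
  have hne : ∀ z ∈ closedBall (0 : ℂ) 1, z ≠ 0 → ψ z - ψ 0 ≠ 0 := fun z hz h0 h =>
    h0 (p2 hz (mem_closedBall_self zero_le_one) (sub_eq_zero.1 h))
  obtain ⟨m, k, k1, k2, k3⟩ := a1.exists_eventuallyEq_pow_smul_nonzero_iff.2 fun h => by
    obtain ⟨z, ⟨z1, z2⟩, z3⟩ := (((h.and (closedBall_mem_nhds 0 one_pos)).filter_mono
      (nhdsWithin_le_nhds (s := {0}ᶜ))).and self_mem_nhdsWithin).exists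
    exact hne z z2 z3 z1
  have hm : m ≠ 0 := by
    rintro rfl
    have := k3.self_of_nhds
    simp [k2.symm] at this
  have k4 : ∀ᶠ z in 𝓝 (0 : ℂ), ‖k 0 - k z‖ < ‖k z‖ :=
    (continuousAt_const.sub k1.continuousAt).norm.eventually_lt k1.continuousAt.norm
      (by simpa using k2)
  obtain ⟨ρ, hρ, k5⟩ := Metric.eventually_nhds_iff_ball.1 (k3.and k4)
  have nr : ∀ (r : Ioc (0 : ℝ) 1) t, ‖((r : ℝ) : ℂ) * Wind.circ t‖ = r := fun r t => by
    rw [norm_mul, cc_norm, mul_one, Complex.norm_real, Real.norm_of_nonneg r.2.1.le]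
  have : PreconnectedSpace (Ioc (0 : ℝ) 1) := Subtype.preconnectedSpace isPreconnected_Ioc
  let r : Ioc (0 : ℝ) 1 := ⟨min (ρ / 2) 1, by positivity, min_le_right _ _⟩
  have hr : (r : ℝ) < ρ := (min_le_left _ _).trans_lt (half_lt_self hρ)
  have := cc_cont
  have n2 := homot (X := Ioc (0 : ℝ) 1) (H := fun r t => ψ (((r : ℝ) : ℂ) * Wind.circ t) - ψ 0)
    ((p1.comp_continuous (by fun_prop) fun p => by
      rw [mem_closedBall_zero_iff, nr]; exact p.1.2.2).sub continuous_const)
    (fun r t => hne _ (by rw [mem_closedBall_zero_iff, nr]; exact r.2.2)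
      (norm_pos_iff.1 (by rw [nr]; exact r.2.1)))
    (fun x => by simp only [cc_cl]) ⟨1, one_pos, le_rfl⟩ r (by simpa using n1)
  refine not_null_pow hm (((r : ℝ) : ℂ) ^ m * k 0) (n2.near (by fun_prop) (by simp only [cc_cl])
    fun t => ?_)
  obtain ⟨e1, e2⟩ := k5 (((r : ℝ) : ℂ) * Wind.circ t) (by rwa [mem_ball_zero_iff, nr])
  have e3 : Wind.circ t ^ m * (((r : ℝ) : ℂ) ^ m * k 0) = (((r : ℝ) : ℂ) * Wind.circ t) ^ m * k 0 := by ring
  rw [e1, e3, sub_zero, smul_eq_mul, ← mul_sub, norm_mul, norm_mul]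
  refine mul_lt_mul_of_pos_left e2 ?_
  rw [norm_pow, nr]
  exact pow_pos r.2.1 m

end Wind

open Wind in
theorem s_wind : S_wind := by
  intro ψ hψ K hK hKs
  have hS : IsCompact (ψ '' sphere 0 1) :=
    (isCompact_sphere 0 1).image_of_continuousOn (hψ.1.mono sphere_subset_closedBall)
  have hd : Disjoint K (ψ '' sphere 0 1) := by
    refine disjoint_left.2 fun z hz ⟨ζ, h1, h2⟩ => ?_
    obtain ⟨x, hx, rfl⟩ := hKs hz
    have := hψ.2.1 (sphere_subset_closedBall h1) (ball_subset_closedBall hx) h2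
    subst this
    exact (mem_ball.1 hx).ne h1
  obtain ⟨r, hr, h⟩ := Metric.exists_pos_forall_lt_edist hK hS.isClosed hd
  have hr' : (0 : ℝ) < r := hr
  refine ⟨r / 2, by positivity, fun γ hc h1 h2 z hz => ?_⟩
  have h3 : ∀ t, (r : ℝ) / 2 < ‖γ t - z‖ := fun t => by
    have e1 := h z hz _ (mem_image_of_mem ψ (show Wind.circ t ∈ sphere 0 1 by simp [cc_norm]))
    rw [edist_nndist, ENNReal.coe_lt_coe, ← NNReal.coe_lt_coe, coe_nndist] at e1
    have e2 : dist (γ t) (ψ (Wind.circ t)) ≤ r / 2 := h2 t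
    have e3 := dist_triangle_left z (ψ (Wind.circ t)) (γ t)
    rw [← dist_eq_norm]
    linarith
  have hz' : z ∉ range γ := by
    rintro ⟨t, rfl⟩
    have := h3 t
    simp only [sub_self, norm_zero] at this
    linarith
  refine ⟨hz', of_not_not fun hb => ?_⟩
  obtain ⟨x, hx, rfl⟩ := hKs hz
  refine not_null hψ hx ((null_of_unb hc h1 hz' hb).near
    ((hψ.1.comp_continuous cc_cont fun t => by simp [cc_norm]).sub continuous_const)
    (by simp only [cc_cl]) fun t => ?_)
  rw [sub_sub_sub_cancel_right, ← dist_eq_norm, dist_comm]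
  exact (h2 t).trans_lt (h3 t)

end

end Vale.Agent.P153.Wick
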