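import Vale.Agent.P153.Wick.Alg
import Vale.Agent.P153.Wick.Arc
import Vale.Agent.P153.Wick.Bdry
import Vale.Agent.P153.Wick.Bij
import Vale.Agent.P153.Wick.Bump
import Vale.Agent.P153.Wick.Cell
import Vale.Agent.P153.Wick.Conf
import Vale.Agent.P153.Wick.Dl
import Vale.Agent.P153.Wick.Emb
import Vale.Agent.P153.Wick.Final
import Vale.Agent.P153.Wick.Fun
import Vale.Agent.P153.Wick.Gbv
import Vale.Agent.P153.Wick.Ghar
import Vale.Agent.P153.Wick.Gm
import Vale.Agent.P153.Wick.Gmix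
import Vale.Agent.P153.Wick.Gvar
import Vale.Agent.P153.Wick.Hat
import Vale.Agent.P153.Wick.Ibp
import Vale.Agent.P153.Wick.Ld1
import Vale.Agent.P153.Wick.Ld2
import Vale.Agent.P153.Wick.Loc
import Vale.Agent.P153.Wick.Ode
import Vale.Agent.P153.Wick.R
import Vale.Agent.P153.Wick.Seq
import Vale.Agent.P153.Wick.Sm
import Vale.Agent.P153.Wick.Stein
import Vale.Agent.P153.Wick.Wind
import Vale.Agent.P153.Wick.Wt

/-! P153, field part: the theorem on the field from the six lattice inputs. -/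

namespace Vale.Agent.P153.Wick

theorem wt_ok : S_wt := s_wt s_emb s_hat

theorem ld2_ok : S_ld2 := s_ld2 s_emb s_ld1

theorem arc_ok : S_arc := s_arc s_ld1 s_conf

theorem seq_ok : S_seq := s_seq s_ld1 ld2_ok s_conf s_wind arc_ok

theorem bdry_ok : S_bdry := s_bdry s_bump s_fun s_sm

theorem wick_ok : S_wick :=
  s_wick s_bump (s_cell s_fun s_alg) (s_ibp s_fun) bdry_ok (s_stein s_R) s_ode s_Q

theorem gbv_ok (h : L_bv) : G_bv :=
  g_bv s_emb wt_ok s_loc ld2_ok s_wall (s_cs s_emb) s_conf arc_ok seq_ok h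

theorem field_of (h1 : L_mb) (h2 : L_m0) (h3 : L_mix) (h4 : L_har) (h5 : L_bv) (h6 : L_var) :
    Field :=
  field_asm wt_ok s_loc (s_bij ld2_ok) s_conf seq_ok wick_ok (g_mb s_emb wt_ok h1)
    (g_m0 s_emb wt_ok h2) (g_har s_emb wt_ok (s_dl s_emb) s_loc h1 h4)
    (g_mix s_emb wt_ok s_loc h1 h3) (g_var s_emb wt_ok h6) (gbv_ok h5)

end Vale.Agent.P153.Wick
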