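import Vale.Agent.P153.Wick.Main

/-! P153, field part: convergence of the mean. -/

open Set Filter Topology MeasureTheory Metric
open Vale.Agent.P071 (Test lap DD hh g0 Conf)

namespace Vale.Agent.P153.Wick

namespace Mean

open Bdry (mono test_zero Y_zero)

variable {D : Set ℂ} {S : ℕ → Set Cfg} {Y : ℕ → (ℂ → ℝ) → Cfg → ℝ}

theorem abs_le4 {T : Set Cfg} {X : Cfg → ℝ} {a : ℝ} (ha : 0 ≤ a)
    (h : Ex T (fun H => X H ^ 4) ≤ a ^ 4) : |Ex T X| ≤ a := by
  simpa only [mul_one] using Cell.abs_mul4 (Z := fun _ => 1) ha zero_le_one h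
    (Ex_le' (by norm_num) fun _ _ => le_rfl)

theorem ex_sum (h : WI0 D S Y) (n : ℕ) {ι : Type} (s : Finset ι) (f : ι → ℂ → ℝ)
    (hf : ∀ i, Test univ (f i)) : Test univ (fun z => ∑ i ∈ s, f i z) ∧
      Ex (S n) (Y n fun z => ∑ i ∈ s, f i z) = ∑ i ∈ s, Ex (S n) (Y n (f i)) := by
  classical
  induction s using Finset.induction_on with
  | empty => simp [test_zero, Y_zero h, Ex_zero]
  | insert i s hi ih =>
    simp only [Finset.sum_insert hi]
    refine ⟨(hf i).add ih.1, ?_⟩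
    rw [funext (h.add n _ _ (hf i) ih.1), Ex_add, ih.2]

theorem lap0 (h : WI0 D S Y) {f : ℂ → ℝ} (hf : Test D f) :
    Tendsto (fun n => Ex (S n) (Y n (lap f))) atTop (𝓝 0) := by
  obtain ⟨p, k, σ, hB⟩ := s_bump
  obtain ⟨κ, hκ⟩ := s_cell s_fun s_alg D S Y p k σ h hB
  refine (tendsto_iff_ultrafilter _ _ _).2 fun U hU => ?_
  obtain ⟨K, hK⟩ := s_ibp s_fun D S Y p k σ κ h hB hκ U hU
  simpa only [mul_one, Ex_zero, mul_zero, add_zero] using hK f _ hf test_zero _ _ Stein.w_one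

theorem piece (h : WI0 D S Y) {Cs : ℝ} (hCs : 0 < Cs) {z : ℂ} {r : ℂ → ℝ} (hz : 0 < infDist z Dᶜ)
    (hs : ∃ f r' : ℂ → ℝ, Test (ball z (2 * (infDist z Dᶜ / 4))) f ∧
      Test (ball z (2 * (infDist z Dᶜ / 4))) r' ∧ (∀ y, r y = r' y + lap f y) ∧
      ∀ y, |r' y| ≤ Cs / (infDist z Dᶜ / 4) ^ 2 * ∫ y, |r y|) {κ m : ℝ} (hκ : 0 < κ)
    (hb : ∀ (A : ℝ) (r' : ℂ → ℝ), 0 < A → Test (ball z (infDist z Dᶜ / 2)) r' → (∀ y, |r' y| ≤ A) →
      ∀ᶠ n in atTop, |Ex (S n) (Y n r') - m * ∫ y, r' y| ≤ κ * (A * infDist z Dᶜ ^ 2))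
    {δ : ℝ} (hδ : 0 < δ) :
    ∀ᶠ n in atTop, |Ex (S n) (Y n r) - m * ∫ y, r y| ≤ δ + 16 * Cs * κ * ∫ y, |r y| := by
  obtain ⟨f, r', a1, a2, a3, a4⟩ := hs
  rw [show 2 * (infDist z Dᶜ / 4) = infDist z Dᶜ / 2 by ring] at a1 a2
  have hD : ball z (infDist z Dᶜ / 2) ⊆ D :=
    (ball_subset_ball (by linarith)).trans (ball_infDist_subset_compl.trans (compl_compl D).le)
  have hI0 : 0 ≤ ∫ y, |r y| := integral_nonneg fun _ => abs_nonneg _
  set η := δ / (1 + 16 * Cs * κ) with hη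
  have η0 : 0 < η := by positivity
  have e : ∫ y, r y = ∫ y, r' y := by
    rw [funext a3, integral_add a2.integrable a1.lap.integrable, Cell.int_lap a1, add_zero]
  filter_upwards [(lap0 h (mono a1 hD)).abs.eventually_le_const (show |(0 : ℝ)| < η by simpa),
    hb (Cs / (infDist z Dᶜ / 4) ^ 2 * ((∫ y, |r y|) + η)) r' (by positivity) a2
      fun y => (a4 y).trans (by gcongr; linarith)] with n b1 b2
  rw [e, funext a3, funext (h.add n _ _ (mono a2 (subset_univ _)) (mono a1.lap (subset_univ _))),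
    Ex_add, ← funext a3, add_sub_right_comm]
  refine (abs_add_le _ _).trans ((add_le_add b2 b1).trans_eq ?_)
  have : δ = η * (1 + 16 * Cs * κ) := (div_mul_cancel₀ _ (by positivity)).symm
  rw [this]
  field_simp
  ring

theorem int_mul {v r : ℂ → ℝ} (hD : IsOpen D) (hv : ContinuousOn v D) (hr : Test D r) :
    Integrable fun z => v z * r z :=
  (P071.continuous_mul_of_tsupport hD hv hr.continuous hr.2.2).integrable_of_hasCompactSupport
    hr.2.1.mul_left

theorem freeze {v r : ℂ → ℝ} (hD : IsOpen D) (hv : ContinuousOn v D) (hr : Test D r) {m b : ℝ}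
    (h : ∀ z, r z ≠ 0 → |v z - m| ≤ b) :
    |(m * ∫ z, r z) - ∫ z, v z * r z| ≤ b * ∫ z, |r z| := by
  rw [← integral_const_mul, ← integral_const_mul,
    ← integral_sub (hr.integrable.const_mul _) (int_mul hD hv hr), ← Real.norm_eq_abs]
  refine norm_integral_le_of_norm_le (hr.integrable.abs.const_mul _) (.of_forall fun z => ?_)
  by_cases hz : r z = 0
  · simp [hz]
  · rw [← sub_mul, Real.norm_eq_abs, abs_mul, abs_sub_comm]
    exact mul_le_mul_of_nonneg_right (h z hz) (abs_nonneg _)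

theorem bdry {ψ φ : ℂ → ℂ} {c v : ℂ → ℝ} (h : WIn D ψ φ c S Y) (hv : ContinuousOn v D)
    (hv1 : ∀ z ∈ D, |v z| ≤ 1) (hc : ∀ ε τ : ℝ, 0 < ε → 0 < τ → ∃ e : ℝ, 0 < e ∧ ∀ z ∈ D,
      hh (φ z) ≤ e → τ ≤ ‖φ z - 1‖ → τ ≤ ‖φ z + 1‖ → |v z - c (φ z)| ≤ ε) :
    ∃ C : ℝ, 0 < C ∧ ∀ ε τ : ℝ, 0 < ε → 0 < τ → ∃ e : ℝ, 0 < e ∧ ∀ r, Test D r →
      (∀ z, r z ≠ 0 → hh (φ z) ≤ e) → ∀ᶠ n in atTop,
        |Ex (S n) (Y n r) - ∫ z, v z * r z| ≤ ε * (1 + ∫ z, |r z|) + C * ∫ z in Mk D φ τ, |r z| := by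
  obtain ⟨p, k, σ, hB⟩ := s_bump
  obtain ⟨Cs, hCs, hs⟩ := s_sm
  obtain ⟨Cm, hCm, hm⟩ := h.mb
  have hne : Dᶜ.Nonempty := nonempty_compl.2 fun e =>
    NormedSpace.unbounded_univ ℝ ℂ (e ▸ h.bdd)
  have ρ0 : ∀ z, 0 < infDist z Dᶜ ↔ z ∈ D := fun z => by
    rw [← h.op.isClosed_compl.notMem_iff_infDist_pos hne, notMem_compl_iff]
  refine ⟨16 * Cs * (4 * Cm) + 1, by positivity, fun ε τ hε hτ => ?_⟩
  obtain ⟨e₁, e1, hbv⟩ := h.bv _ (Cell.test_zero D) (ε / (32 * Cs)) (τ / 2) (by positivity)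
    (by positivity)
  obtain ⟨e₂, e2, he₂⟩ := hc (ε / 4) (τ / 2) (by positivity) (by positivity)
  refine ⟨min e₁ e₂, by positivity, fun r hr hre => ?_⟩
  obtain ⟨d₁, d1, hd₁⟩ := hr.2.1.isCompact.exists_forall_le' (continuous_infDist_pt Dᶜ).continuousOn
    fun z hz => (ρ0 z).2 (hr.2.2 hz)
  obtain ⟨d₂, d2, hd₂⟩ := Metric.uniformContinuousOn_iff.1
    (hr.2.1.isCompact.uniformContinuousOn_of_continuous (h.conf.hφ.continuousOn.mono hr.2.2))
    (τ / 2) (by positivity)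
  obtain ⟨d₃, d3, hd₃⟩ := Metric.uniformContinuousOn_iff.1
    (hr.2.1.isCompact.uniformContinuousOn_of_continuous (hv.mono hr.2.2)) (ε / 4) (by positivity)
  obtain ⟨t, t0, t1, t2, t3, t4⟩ : ∃ t : ℝ, 0 < t ∧ t ≤ 1 ∧ 16 * t ≤ d₁ ∧ 4 * t ≤ d₂ ∧
      4 * t ≤ d₃ := by
    refine ⟨min (min 1 (d₁ / 16)) (min (d₂ / 4) (d₃ / 4)), by positivity,
      (min_le_left _ _).trans (min_le_left _ _), ?_, ?_, ?_⟩
    · linarith [(min_le_left _ (min (d₂ / 4) (d₃ / 4))).trans (min_le_right 1 (d₁ / 16))]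
    · linarith [(min_le_right (min 1 (d₁ / 16)) _).trans (min_le_left (d₂ / 4) (d₃ / 4))]
    · linarith [(min_le_right (min 1 (d₁ / 16)) _).trans (min_le_right (d₂ / 4) (d₃ / 4))]
  obtain ⟨R, hR⟩ := h.bdd.exists_norm_le
  obtain ⟨J, hJ⟩ := exists_nat_ge (R / t)
  obtain ⟨_, -, hf'⟩ := s_fun p k σ r r hB (mono hr (subset_univ _)) (mono hr (subset_univ _))
  set I := Finset.Icc (-J : ℤ) J ×ˢ Finset.Icc (-J : ℤ) J
  let q : ℤ × ℤ → ℂ → ℝ := fun j z => r z * sc p (t * (⟨j.1, j.2⟩ : ℂ)) t z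
  have q1 : ∀ j, Test (ball (t * (⟨j.1, j.2⟩ : ℂ)) (2 * t)) (q j) := fun j =>
    (hf' _ t t0 t1).1.2.1
  have q0 : ∀ j, Test D (q j) := fun j =>
    ⟨(q1 j).1, (q1 j).2.1, tsupport_mul_subset_left.trans hr.2.2⟩
  have q3 : ∀ z, ∑ j ∈ I, q j z = r z :=
    Ibp.grid hB t0 (fun z hz => hR z (hr.2.2 (subset_tsupport _ hz))) hJ
  have q4 : ∀ μ : Measure ℂ, μ ≤ volume → ∑ j ∈ I, ∫ z, |q j z| ∂μ = ∫ z, |r z| ∂μ := fun μ hμ => by
    rw [← integral_finsetSum _ fun j _ => ((q1 j).integrable.mono_measure hμ).abs]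
    refine integral_congr_ae (.of_forall fun z => ?_)
    have := Ibp.grid (f := fun z => |r z|) hB t0
      (fun z hz => hR z (hr.2.2 (subset_tsupport _ (abs_ne_zero.1 hz)))) hJ z
    simpa only [q, abs_mul, sc, abs_of_nonneg (hB.p_nonneg _)] using this
  have key : ∀ j, ∀ᶠ n in atTop, |Ex (S n) (Y n (q j)) - ∫ z, v z * q j z| ≤ ε / (I.card + 1) +
      (ε * ∫ z, |q j z|) + (16 * Cs * (4 * Cm) + 1) * ∫ z in Mk D φ τ, |q j z| := by
    intro j
    have i1 : 0 ≤ ∫ z, |q j z| := integral_nonneg fun _ => abs_nonneg _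
    have i2 : 0 ≤ ∫ z in Mk D φ τ, |q j z| := integral_nonneg fun _ => abs_nonneg _
    by_cases hq : ∃ z, q j z ≠ 0
    swap
    · push Not at hq
      refine .of_forall fun n => ?_
      rw [funext hq, Y_zero h.toWI0, Ex_zero]
      simp only [mul_zero, integral_zero, sub_zero, abs_zero, add_zero]
      positivity
    obtain ⟨z, hz⟩ := hq
    have a1 : z ∈ tsupport r := subset_tsupport _ (left_ne_zero_of_mul hz)
    have a2 := hre z (left_ne_zero_of_mul hz)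
    have a3 := hd₁ z a1
    have a4 := (ρ0 z).2 (hr.2.2 a1)
    have a5 : ball (t * (⟨j.1, j.2⟩ : ℂ)) (2 * t) ⊆ ball z (4 * t) := ball_subset_ball' (by
      have := mem_ball'.1 ((q1 j).2.2 (subset_tsupport _ hz))
      linarith)
    have a6 := hs z _ _ (show 0 < infDist z Dᶜ / 4 by positivity)
      (mono (q1 j) (a5.trans (ball_subset_ball (by linarith))))
    have a7 : ∀ y, q j y ≠ 0 → y ∈ tsupport r ∧ dist y z < 4 * t := fun y hy =>
      ⟨subset_tsupport _ (left_ne_zero_of_mul hy), a5 ((q1 j).2.2 (subset_tsupport _ hy))⟩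
    have a8 : 0 < ε / (I.card + 1) := by positivity
    by_cases hfar : τ / 2 ≤ ‖φ z - 1‖ ∧ τ / 2 ≤ ‖φ z + 1‖
    · have c1 := freeze (m := c (φ z)) (b := ε / 2) h.op hv (q0 j) fun y hy => by
        have b1 := hd₃ y (a7 y hy).1 z a1 ((a7 y hy).2.trans_le t4)
        have b2 := he₂ z (hr.2.2 a1) (a2.trans (min_le_right _ _)) hfar.1 hfar.2
        rw [Real.dist_eq] at b1
        linarith [abs_sub_le (v y) (v z) (c (φ z))]
      filter_upwards [piece h.toWI0 hCs a4 a6 (κ := ε / (32 * Cs)) (m := c (φ z)) (by positivity)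
        (fun A r' b1 b2 b3 => by
          filter_upwards [hbv z (hr.2.2 a1) (a2.trans (min_le_left _ _)) hfar.1 hfar.2 A r'
            b1 b2 b3] with n hn
          simpa only [mul_one, Ex_sub, Ex_const (h.good n)] using hn (fun _ => 1) (by simp)) a8]
        with n hn
      rw [show 16 * Cs * (ε / (32 * Cs)) = ε / 2 by field_simp; norm_num] at hn
      have := abs_sub_le (Ex (S n) (Y n (q j))) (c (φ z) * ∫ y, q j y) (∫ z, v z * q j z)
      have := mul_nonneg (show 0 ≤ 16 * Cs * (4 * Cm) + 1 by positivity) i2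
      linarith
    · have c1 := freeze (m := 0) (b := 1) h.op hv (q0 j) fun y hy => by
        rw [sub_zero]
        exact hv1 y (hr.2.2 (a7 y hy).1)
      filter_upwards [piece h.toWI0 hCs a4 a6 (κ := 4 * Cm) (m := 0) (by positivity)
        (fun A r' b1 b2 b3 => by
          filter_upwards [hm z (2 * infDist z Dᶜ) A r' (by positivity) b1 (fun hh => by
            obtain ⟨y, hy, hy'⟩ := (infDist_lt_iff hne).1
              (show infDist z Dᶜ < 2 * infDist z Dᶜ by linarith)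
            exact hy (hh (mem_ball'.2 hy'))) (mono b2 (subset_inter
              ((ball_subset_ball (by linarith)).trans
                (ball_infDist_subset_compl.trans (compl_compl D).le))
              (ball_subset_ball (by linarith)))) b3] with n hn
          rw [zero_mul, sub_zero]
          exact (abs_le4 (by positivity) hn).trans_eq (by ring)) a8] with n hn
      rw [setIntegral_eq_integral_of_forall_compl_eq_zero fun y hy => ?_]
      · have := abs_sub_le (Ex (S n) (Y n (q j))) (0 * ∫ y, q j y) (∫ z, v z * q j z)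
        have := mul_nonneg hε.le i1
        linarith
      by_contra hy'
      have b1 : q j y ≠ 0 := fun e => hy' (by rw [e, abs_zero])
      have b3 := hd₂ y (a7 y b1).1 z a1 ((a7 y b1).2.trans_le t3)
      rw [dist_eq_norm] at b3
      have b4 := norm_add_le (φ y - φ z) (φ z - 1)
      have b5 := norm_add_le (φ y - φ z) (φ z + 1)
      rw [sub_add_sub_cancel] at b4
      rw [← add_assoc, sub_add_cancel] at b5
      refine hy ⟨hr.2.2 (a7 y b1).1, ?_⟩
      rcases not_and_or.1 hfar with b | b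
      · exact Or.inl (by linarith)
      · exact Or.inr (by linarith)
  filter_upwards [(Filter.eventually_all_finset I).2 fun j _ => key j] with n hn
  have a1 := (ex_sum h.toWI0 n I q fun j => mono (q1 j) (subset_univ _)).2
  rw [funext q3] at a1
  have a3 : ∫ z, v z * r z = ∑ j ∈ I, ∫ z, v z * q j z := by
    rw [← integral_finsetSum _ fun j _ => int_mul h.op hv (q0 j)]
    simp only [← Finset.mul_sum, q3]
  rw [a1, a3, ← Finset.sum_sub_distrib]
  refine ((Finset.abs_sum_le_sum_abs _ _).trans (Finset.sum_le_sum hn)).trans ?_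
  rw [Finset.sum_add_distrib, Finset.sum_add_distrib, ← Finset.mul_sum, ← Finset.mul_sum,
    q4 _ le_rfl, q4 _ Measure.restrict_le_self, Finset.sum_const, nsmul_eq_mul, mul_add ε, mul_one]
  have a2 : (I.card : ℝ) * (ε / (I.card + 1)) ≤ ε := by
    rw [mul_div_assoc', div_le_iff₀ (by positivity)]
    nlinarith
  linarith

theorem mean {ψ φ : ℂ → ℂ} {c v : ℂ → ℝ} (h : WIn D ψ φ c S Y) (hv : ContDiffOn ℝ 2 v D)
    (hl : ∀ z ∈ D, lap v z = 0)
    (hv1 : ∀ z ∈ D, |v z| ≤ 1) (hc : ∀ ε τ : ℝ, 0 < ε → 0 < τ → ∃ e : ℝ, 0 < e ∧ ∀ z ∈ D,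
      hh (φ z) ≤ e → τ ≤ ‖φ z - 1‖ → τ ≤ ‖φ z + 1‖ → |v z - c (φ z)| ≤ ε) {g : ℂ → ℝ}
    (hg : Test D g) : Tendsto (fun n => Ex (S n) (Y n g)) atTop (𝓝 (∫ z, v z * g z)) := by
  obtain ⟨C, hC, hb⟩ := bdry h hv.continuousOn hv1 hc
  obtain ⟨C', hC', hR⟩ := s_R D ψ φ g h.op h.conf hg
  refine Metric.tendsto_nhds.2 fun ε hε => ?_
  have hτ : 0 < ε / (4 * (C * C')) := by positivity
  have hε' : 0 < ε / (4 * (1 + C')) := by positivity
  obtain ⟨e, he, hb⟩ := hb _ _ hε' hτ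
  obtain ⟨f, r, hf, hr, a1, -, a3, a4, a5⟩ := hR (min e (ε / (4 * (C * C')))) (lt_min he hτ)
  have e1 : r = fun z => lap f z + g z := funext fun z => by rw [a1]; ring
  have e2 : ∀ n, Y n r = fun H => Y n (lap f) H + Y n g H := fun n => funext fun H => by
    rw [e1]; exact h.add n _ _ (Stein.univ' hf.lap) (Stein.univ' hg) H
  have e3 : ∫ z, v z * lap f z = 0 := by
    have g1 := P071.green1 h.op hv hf
    have g2 := P071.green2 h.op (hv.of_le (by norm_num)) hf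
    rw [setIntegral_congr_fun h.op.measurableSet (f := fun z => lap v z * f z) (g := fun _ => 0)
      fun z hz => by simp only [hl z hz, zero_mul], integral_zero, g2, hf.lap.setIntegral_eq] at g1
    linarith
  have e4 : ∫ z, v z * r z = ∫ z, v z * g z := by
    rw [e1]
    simp only [mul_add]
    rw [integral_add (int_mul h.op hv.continuousOn hf.lap) (int_mul h.op hv.continuousOn hg), e3,
      zero_add]
  filter_upwards [hb r hr fun z hz => (a3 z hz).trans (min_le_left _ _),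
    Metric.tendsto_nhds.1 (lap0 h.toWI0 hf) _ (show 0 < ε / 4 by positivity)] with n b1 b2
  rw [e2, Ex_add, e4] at b1
  have b6 : ε / (4 * (1 + C')) * (1 + ∫ z, |r z|) ≤ ε / 4 :=
    (mul_le_mul_of_nonneg_left (add_le_add le_rfl a4) hε'.le).trans_eq (by field_simp)
  have b7 : C * ∫ z in Mk D φ (ε / (4 * (C * C'))), |r z| ≤ ε / 4 :=
    (mul_le_mul_of_nonneg_left (a5 _ hτ (min_le_right _ _)) hC.le).trans_eq (by field_simp)
  rw [Real.dist_0_eq_abs, abs_lt] at b2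
  rw [Real.dist_eq, abs_lt]
  rw [abs_le] at b1
  constructor <;> linarith [b1.1, b1.2, b2.1, b2.2]

end Mean

end Vale.Agent.P153.Wick
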