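import Vale.Agent.P153.Wick.Uni2
import Vale.Agent.P153.Wick.Uni3

/-! P153, field part: mean and variance along arbitrary sequences of free sets. -/

open Set Filter Topology MeasureTheory Metric
open Vale.Agent.P071 (Test lap DD hh g0 Conf)

namespace Vale.Agent.P153.Wick

noncomputable section

/-- The harmonic measure of the upper half circle. -/
def uu (w : ℂ) : ℝ := Complex.arg (Complex.I * (1 + w) / (1 - w)) / Real.pi

/-- The harmonic function with boundary values `cc ε`. -/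
def ue (ε : ℤ) (w : ℂ) : ℝ := if ε = 1 then uu w else 1 - uu w

/-- Convergence of the mean. -/
def UniM : Prop := ∀ D ψ φ F (S : ℕ → Set V) δ (ε : ℤ), Seq D F δ → Conf D ψ φ →
  W_bv D φ (cc ε) (fun n => dob (F n) (S n)) (YY δ) → ∀ g, Test D g →
  Tendsto (fun n => Ex (dob (F n) (S n)) (YY δ n g)) atTop (𝓝 (∫ z, ue ε (φ z) * g z))

/-- The variance with a constant that does not depend on the domain. -/
def UniK : Prop := ∀ ψ L δ (ε : ℤ), IsJordanMap ψ → Approx ψ L δ → (ε = 1 ∨ ε = -1) →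
  ∃ K : ℕ → ℝ, (∃ a b : ℝ, 0 < a ∧ ∀ n, a ≤ K n ∧ K n ≤ b) ∧
    (∀ (m : ℕ → ℕ) D ψ' φ c F (S : ℕ → Set V), Tendsto m atTop atTop → Seq D F (δ ∘ m) →
      Conf D ψ' φ → W_bv D φ c (fun n => dob (F n) (S n)) (YY (δ ∘ m)) → ∀ g, Test D g →
      Tendsto (fun n => cov (dob (F n) (S n)) (YY (δ ∘ m) n g) (YY (δ ∘ m) n g) -
        K (m n) * Qv D φ g) atTop (𝓝 0)) ∧
    ∀ k : ℝ, Tendsto K atTop (𝓝 k) → ∀ f, IsTest ψ f →
      Tendsto (fun n => avg ((L n).Hts ε) fun h => Complex.exp (Complex.I *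
        (((L n).field (δ n) f h - avg ((L n).Hts ε) ((L n).field (δ n) f)) / (2 * √k) : ℝ))) atTop
        (𝓝 (Complex.exp (-(gffVar ψ f / 2 : ℝ))))

namespace Uni

theorem cay_eq {w : ℂ} (hw : w ∈ DD) : Complex.I * (1 + w) / (1 - w) =
    ((‖1 - w‖ ^ 2)⁻¹ : ℝ) * (⟨-2 * w.im, hh w⟩ : ℂ) ∧ 0 < ‖1 - w‖ := by
  have h0 : 1 - w ≠ 0 := fun e => by
    have := P071.mem_DD.1 hw
    rw [← sub_eq_zero.1 e, norm_one] at this
    exact lt_irrefl _ this
  refine ⟨?_, norm_pos_iff.2 h0⟩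
  rw [div_eq_mul_inv, Complex.inv_def, Complex.normSq_eq_norm_sq, ← mul_assoc, mul_comm]
  congr 1
  apply Complex.ext <;> simp [P071.hh_eq] <;> ring

theorem uu_eq {w : ℂ} (hw : w ∈ DD) : uu w = Complex.arg ⟨-2 * w.im, hh w⟩ / Real.pi := by
  rw [uu, (cay_eq hw).1, Complex.arg_real_mul _ (by have := (cay_eq hw).2; positivity)]

theorem uu_mem {w : ℂ} (hw : w ∈ DD) : 0 ≤ uu w ∧ uu w ≤ 1 := by
  rw [uu_eq hw, div_le_one Real.pi_pos]
  exact ⟨div_nonneg (Complex.arg_nonneg_iff.2 (P071.hh_pos hw).le) Real.pi_pos.le,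
    Complex.arg_le_pi _⟩

theorem uu_bd {ε τ : ℝ} (hε : 0 < ε) (hτ : 0 < τ) : ∃ e : ℝ, 0 < e ∧ ∀ w ∈ DD, hh w ≤ e →
    τ ≤ ‖w - 1‖ → τ ≤ ‖w + 1‖ → |uu w - cc 1 w| ≤ ε := by
  obtain ⟨d, hd, h⟩ := Metric.continuousAt_iff.1 (Real.continuous_arcsin.continuousAt (x := 0))
    (ε * Real.pi) (by positivity)
  refine ⟨min (τ ^ 2 / 2) (d * τ ^ 2 / 2), by positivity, fun w hw h1 h2 h3 => ?_⟩
  rw [le_min_iff] at h1
  have p := P071.hh_pos hw
  set ζ : ℂ := ⟨-2 * w.im, hh w⟩ with hζ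
  have n1 : τ ^ 2 ≤ ‖ζ‖ := by
    have e : ‖ζ‖ = ‖w - 1‖ * ‖w + 1‖ := by
      refine (sq_eq_sq₀ (norm_nonneg _) (by positivity)).1 ?_
      simp only [mul_pow, Complex.sq_norm, Complex.normSq_apply, hζ, P071.hh_eq, Complex.sub_re,
        Complex.sub_im, Complex.add_re, Complex.add_im, Complex.one_re, Complex.one_im]
      ring
    rw [e, sq]
    exact mul_le_mul h2 h3 hτ.le (norm_nonneg _)
  have n0 : 0 < ‖ζ‖ := lt_of_lt_of_le (by positivity) n1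
  have k : ∀ t : ℝ, |t| = hh w → |Real.arcsin (t / ‖ζ‖) / Real.pi| ≤ ε := fun t ht => by
    have := h (x := t / ‖ζ‖) (by
      rw [Real.dist_0_eq_abs, abs_div, ht, abs_of_pos n0, div_lt_iff₀ n0]
      nlinarith [mul_le_mul_of_nonneg_left n1 hd.le, mul_pos hd (pow_pos hτ 2)])
    rw [Real.arcsin_zero, Real.dist_0_eq_abs] at this
    rw [abs_div, abs_of_pos Real.pi_pos, div_le_iff₀ Real.pi_pos]
    exact this.le
  rw [uu_eq hw, cc]
  by_cases hi : 0 < w.im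
  · rw [if_pos (by simp [hi]), Complex.arg_of_re_neg_of_im_nonneg (by simpa [hζ]) p.le, add_div,
      div_self Real.pi_pos.ne', add_sub_cancel_right]
    exact k _ (by simp [abs_of_pos p])
  · rw [if_neg (by simp [hi]), Complex.arg_of_re_nonneg (show 0 ≤ -2 * w.im by linarith), sub_zero]
    exact k _ (abs_of_pos p)

theorem ue_bd (ε : ℤ) (w : ℂ) : |ue ε w - cc ε w| = |uu w - cc 1 w| := by
  by_cases h : ε = 1
  · rw [ue, if_pos h, h]
  · rw [ue, if_neg h, abs_sub_comm]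
    by_cases hi : 0 < w.im <;> simp [cc, h, hi, abs_sub_comm]

theorem ue_re {D : Set ℂ} {ψ φ : ℂ → ℂ} (h : Conf D ψ φ) (ε : ℤ) :
    ∃ G : ℂ → ℂ, DifferentiableOn ℂ G D ∧ ∀ z, ue ε (φ z) = (G z).re := by
  have h1 : DifferentiableOn ℂ (fun z => -Complex.I / Real.pi *
      Complex.log (Complex.I * (1 + φ z) / (1 - φ z))) D := by
    refine DifferentiableOn.const_mul (DifferentiableOn.clog ?_ fun z hz => Or.inr ?_) _
    · exact ((h.hφ.const_add 1).const_mul _).div (h.hφ.const_sub 1) fun z hz =>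
        norm_pos_iff.1 (cay_eq (h.mapsφ hz)).2
    · obtain ⟨e, p⟩ := cay_eq (h.mapsφ hz)
      rw [e, Complex.im_ofReal_mul]
      exact (mul_pos (by positivity) (P071.hh_pos (h.mapsφ hz))).ne'
  have h2 : ∀ z, uu (φ z) = (-Complex.I / Real.pi *
      Complex.log (Complex.I * (1 + φ z) / (1 - φ z))).re := fun z => by
    rw [uu, ← Complex.log_im, div_mul_eq_mul_div, Complex.div_ofReal_re]
    simp
  by_cases e : ε = 1
  · exact ⟨_, h1, fun z => by rw [ue, if_pos e, h2]⟩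
  · exact ⟨_, h1.const_sub 1, fun z => by rw [ue, if_neg e, h2, Complex.sub_re, Complex.one_re]⟩

theorem win (h1 : L_mb) (h2 : L_m0) (h3 : L_mix) (h4 : L_har) (h6 : L_var) {D : Set ℂ}
    {ψ φ : ℂ → ℂ} {c : ℂ → ℝ} {F S : ℕ → Set V} {δ : ℕ → ℝ} (hq : Seq D F δ) (hc : Conf D ψ φ)
    (hb : W_bv D φ c (fun n => dob (F n) (S n)) (YY δ)) :
    WIn D ψ φ c (fun n => dob (F n) (S n)) (YY δ) where
  op := hq.op
  bdd := hq.bdd
  ne := hq.ne
  good := fun n => s_loc.1 _ _ (hq.dom n).1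
  add := fun n f g hf hg H => by
    unfold YY
    rw [(wt_ok (δ n) f (hq.pos n) hf).2.2.2.2.2.1 g hg, Final.lin_add]
  smul := fun n t f hf H => by
    unfold YY
    rw [(wt_ok (δ n) f (hq.pos n) hf).2.2.2.2.2.2.1 t, Final.lin_smul]
  mb := g_mb s_emb wt_ok h1 _ _ _ _ hq
  m0 := g_m0 s_emb wt_ok h2 _ _ _ _ hq
  har := g_har s_emb wt_ok (s_dl s_emb) s_loc h1 h4 _ _ _ _ hq
  mix := g_mix s_emb wt_ok s_loc h1 h3 _ _ _ _ hq
  conf := hc
  bv := hb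
  var := g_var s_emb wt_ok h6 _ _ _ _ hq

theorem approx_sub {ψ : ℂ → ℂ} {L : ℕ → LDom} {δ : ℕ → ℝ} (h : Approx ψ L δ) {m : ℕ → ℕ}
    (hm : Tendsto m atTop atTop) : Approx ψ (L ∘ m) (δ ∘ m) :=
  ⟨fun _ => h.1 _, h.2.1.comp hm, h.2.2.1.comp hm, fun e he => hm.eventually (h.2.2.2 e he)⟩

open Final in
/-- The field of a lattice polygon in terms of the tested heights. -/
theorem transfer {ψ : ℂ → ℂ} {L : ℕ → LDom} {δ : ℕ → ℝ} (hψ : IsJordanMap ψ) (hA : Approx ψ L δ)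
    {e : ℕ → Cfg → V → ℤ} (he' : ∀ n H, ∀ x ∈ Fr (L n), e n H x = 2 * H x - 1) {f : ℂ → ℝ}
    (hf : IsTest ψ f) : ∀ᶠ n in atTop, ∀ H,
      (L n).field (δ n) f (e n H) = 2 * YY δ n f H - tot (wt (δ n) f) := by
  obtain ⟨hq, hin⟩ := seq_ok ψ L δ hψ hA
  have hf' : Test univ f := ⟨hf.1, hf.2.1, subset_univ _⟩
  obtain ⟨d₀, hd₀, hth⟩ := hf.2.1.isCompact.exists_cthickening_subset_open hq.op hf.2.2
  filter_upwards [hin _ hf.2.1.isCompact hf.2.2, hq.inn _ (hf.2.1.isCompact.cthickening) hth,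
    hq.lim.eventually (ge_mem_nhds hd₀)] with n h1 h2 h3 H
  obtain ⟨-, -, w3, -, -, -, -, -, -, w10⟩ := wt_ok (δ n) f (hq.pos n) hf'
  rw [w10 _ _ fun z hz => h1 z (subset_tsupport _ hz)]
  refine lin_two fun x hx => he' n H x (h2 x ?_)
  obtain ⟨z, hz, hzx⟩ := w3 x hx
  refine mem_cthickening_of_dist_le _ z _ _ (subset_tsupport _ hz) ?_
  rw [dist_comm, dist_eq_norm]
  exact hzx.le.trans h3

end Uni

open Uni in
theorem uniM (h1 : L_mb) (h2 : L_m0) (h3 : L_mix) (h4 : L_har) (h6 : L_var) : UniM := by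
  intro D ψ φ F S δ ε hq hc hb g hg
  obtain ⟨G, hG, e⟩ := ue_re hc ε
  simp only [e]
  refine Mean.mean (v := fun z => (G z).re) (win h1 h2 h3 h4 h6 hq hc hb)
    (Complex.reCLM.contDiff.comp_contDiffOn ((hG.contDiffOn hq.op).restrict_scalars ℝ))
    (fun z hz => P071.lap_re_holo hq.op hG hz) (fun z hz => ?_) (fun a τ ha hτ => ?_) hg
  · obtain ⟨u0, u1⟩ := uu_mem (hc.mapsφ hz)
    rw [← e, ue, abs_le]
    split_ifs <;> constructor <;> linarith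
  · obtain ⟨d, hd, h⟩ := uu_bd ha hτ
    exact ⟨d, hd, fun z hz b1 b2 b3 => by
      rw [← e, ue_bd]; exact h _ (hc.mapsφ hz) b1 b2 b3⟩

open Uni Final in
theorem uniK (h1 : L_mb) (h2 : L_m0) (h3 : L_mix) (h4 : L_har) (h5 : L_bv) (h6 : L_var) :
    UniK := by
  intro ψ L δ ε hψ hA hε
  obtain ⟨-, -, hconf, -, -, -, hQ⟩ := s_conf ψ hψ
  obtain ⟨κ, hκ⟩ := g_mixK s_emb wt_ok h1 h3
  have hq := fun (m : ℕ → ℕ) (hm : Tendsto m atTop atTop) =>
    (seq_ok ψ _ _ hψ (approx_sub hA hm)).1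
  have hI := fun (m : ℕ → ℕ) (hm : Tendsto m atTop atTop) => win h1 h2 h3 h4 h6 (hq m hm) hconf
    (gbv_ok h5 ψ _ _ ε hψ (approx_sub hA hm) hε)
  have h : WIn _ ψ (inv ψ) (cc ε) (fun n => dob (Fr (L n)) (Sp (L n) ε)) (YY δ) :=
    hI id tendsto_id
  set D := ψ '' ball 0 1
  set φ := inv ψ
  obtain ⟨f₀, v, t₀, n₀, hv, hvar⟩ := h.var
  have hQ0 : 0 < Qv D φ f₀ := by
    obtain ⟨K, hK, -⟩ := two h h (hκ _ _ _ _ (hq id tendsto_id)) (hκ _ _ _ _ (hq id tendsto_id))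
      (Ultrafilter.of atTop) (Ultrafilter.of_le _)
    have h1 := ge_of_tendsto (hK f₀ t₀).1 (hvar.filter_mono (Ultrafilter.of_le _))
    refine lt_of_le_of_ne ((s_Q D ψ φ f₀ h.op h.conf).1 n₀) fun e => ?_
    rw [← e, mul_zero] at h1
    linarith
  obtain ⟨C, hC⟩ := Stein.mom h.toWI0 t₀
  obtain ⟨K, hK1, hK2⟩ : ∃ K : ℕ → ℝ, (∀ n, v / Qv D φ f₀ ≤ K n ∧
      K n ≤ max (v / Qv D φ f₀) ((1 + C) / Qv D φ f₀)) ∧ ∀ᶠ n in atTop,
      cov (dob (Fr (L n)) (Sp (L n) ε)) (YY δ n f₀) (YY δ n f₀) / Qv D φ f₀ = K n := by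
    refine ⟨fun n => max (v / Qv D φ f₀) (min ((1 + C) / Qv D φ f₀)
      (cov (dob (Fr (L n)) (Sp (L n) ε)) (YY δ n f₀) (YY δ n f₀) / Qv D φ f₀)),
      fun n => ⟨le_max_left _ _, max_le_max le_rfl (min_le_left _ _)⟩, ?_⟩
    filter_upwards [hvar, hC] with n a1 a2
    have a3 := (Stein.var_le (h.good n) _).trans (add_le_add le_rfl a2)
    rw [min_eq_right (div_le_div_of_nonneg_right a3 hQ0.le),
      max_eq_right (div_le_div_of_nonneg_right a1 hQ0.le)]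
  have key : ∀ (m : ℕ → ℕ) (U : Filter ℕ) (k : ℝ), Tendsto m atTop atTop → U ≤ atTop →
      Lim D φ (fun n => dob (Fr (L (m n))) (Sp (L (m n)) ε)) (YY (δ ∘ m)) U k →
      Tendsto (fun n => K (m n)) U (𝓝 k) := fun m U k hm hU hl => by
    have a := (hl f₀ t₀).1.div_const (Qv D φ f₀)
    rw [mul_div_cancel_right₀ _ hQ0.ne'] at a
    exact a.congr' ((hm.eventually hK2).filter_mono hU)
  refine ⟨K, ⟨_, _, by positivity, hK1⟩, fun m D' ψ' φ' c F S hm a1 a2 a3 g hg => ?_,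
    fun k hk f hf => ?_⟩
  · refine (tendsto_iff_ultrafilter _ _ _).2 fun U hU => ?_
    obtain ⟨k, b1, b2⟩ := two (hI m hm) (win h1 h2 h3 h4 h6 a1 a2 a3) (hκ _ _ _ _ (hq m hm))
      (hκ _ _ _ _ a1) U hU
    simpa only [sub_self] using (b2 g hg).1.sub ((key m U k hm hU b1).mul_const (Qv D' φ' g))
  · have hk0 : 0 < k := lt_of_lt_of_le (by positivity)
      (ge_of_tendsto' hk fun n => (hK1 n).1)
    choose e he he' using fun n => s_bij ld2_ok (L n) ε hε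
    have hlim : Tendsto (fun n => avg (dob (Fr (L n)) (Sp (L n) ε)) fun H => Complex.exp
        (Complex.I * ((√k)⁻¹ * (YY δ n f H - Ex (dob (Fr (L n)) (Sp (L n) ε)) (YY δ n f)) : ℝ)))
        atTop (𝓝 (Complex.exp (-(Qv D φ f / 2 : ℝ)))) := by
      refine (tendsto_iff_ultrafilter _ _ _).2 fun U hU => ?_
      obtain ⟨k', b1, -⟩ := two h h (hκ _ _ _ _ (hq id tendsto_id))
        (hκ _ _ _ _ (hq id tendsto_id)) U hU
      obtain rfl : k' = k :=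
        tendsto_nhds_unique (key id U k' tendsto_id hU b1) (hk.mono_left hU)
      have b2 := (b1 f hf).2 _ _ (tendsto_const_nhds (x := (√k')⁻¹))
      rwa [inv_pow, Real.sq_sqrt hk0.le, inv_mul_cancel_left₀ hk0.ne'] at b2
    rw [hQ f]
    refine hlim.congr' ?_
    filter_upwards [transfer hψ hA he' hf] with n hfield
    have havg : avg ((L n).Hts ε) ((L n).field (δ n) f) =
        2 * Ex (dob (Fr (L n)) (Sp (L n) ε)) (YY δ n f) - tot (wt (δ n) f) := by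
      rw [avg_bij (he n), ← Ex_mul_left, ← Ex_const (h.good n) (tot _), ← Ex_sub]
      exact avg_congr fun H _ => hfield H
    rw [havg, avg_bij (he n)]
    refine avg_congr fun H _ => ?_
    rw [hfield]
    have : √k ≠ 0 := (Real.sqrt_pos.2 hk0).ne'
    congr 3
    field_simp
    ring

end

end Vale.Agent.P153.Wick
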