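import Vale.Agent.P153.Wick.Stm

/-! P153, field part: probabilistic algebra for one cell. -/

open Set Filter Topology MeasureTheory Metric
open Vale.Agent.P071 (Test lap DD hh g0 Conf)

namespace Vale.Agent.P153.Wick

namespace Alg

theorem amgm (p q r : ℝ) : 4 * (p * q * r) ≤ p ^ 4 + q ^ 4 + r ^ 4 + 1 := by
  nlinarith [sq_nonneg (p ^ 2 - q ^ 2), sq_nonneg (r ^ 2 - 1), sq_nonneg (p * q - r)]

theorem h3 {S : Set Cfg} (hS : Good S) {X Y Z : Cfg → ℝ} {a b c : ℝ} (ha : 0 < a) (hb : 0 < b)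
    (hc : 0 < c) (hX : Ex S (fun H => X H ^ 4) ≤ a ^ 4) (hY : Ex S (fun H => Y H ^ 4) ≤ b ^ 4)
    (hZ : Ex S (fun H => Z H ^ 4) ≤ c ^ 4) :
    Ex S (fun H => |X H| * |Y H| * |Z H|) ≤ a * b * c := by
  have e : ∀ x : ℝ, |x| ^ 4 = x ^ 4 := fun x => Even.pow_abs (by decide) x
  have h : Ex S (fun H => |X H| * |Y H| * |Z H|) ≤ Ex S fun H =>
      a * b * c / 4 * (X H ^ 4 / a ^ 4 + Y H ^ 4 / b ^ 4 + Z H ^ 4 / c ^ 4 + 1) :=
    Ex_mono fun H _ => by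
      have h1 := amgm (|X H| / a) (|Y H| / b) (|Z H| / c)
      simp only [div_pow, e] at h1
      have h2 := mul_le_mul_of_nonneg_left h1 (by positivity : 0 ≤ a * b * c / 4)
      refine le_trans (le_of_eq ?_) h2
      field_simp
  rw [Ex_mul_left, Ex_add, Ex_add, Ex_add, Ex_div, Ex_div, Ex_div, Ex_const hS] at h
  have a1 := (div_le_one (by positivity)).2 hX
  have a2 := (div_le_one (by positivity)).2 hY
  have a3 := (div_le_one (by positivity)).2 hZ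
  have a4 := mul_le_mul_of_nonneg_left (add_le_add_left (add_le_add (add_le_add a1 a2) a3) 1)
    (by positivity : 0 ≤ a * b * c / 4)
  linarith

theorem one4 {S : Set Cfg} (hS : Good S) : Ex S (fun _ => (1 : ℝ) ^ 4) ≤ 1 ^ 4 := (Ex_const hS _).le

theorem h2 {S : Set Cfg} (hS : Good S) {X Y : Cfg → ℝ} {a b : ℝ} (ha : 0 < a) (hb : 0 < b)
    (hX : Ex S (fun H => X H ^ 4) ≤ a ^ 4) (hY : Ex S (fun H => Y H ^ 4) ≤ b ^ 4) :
    Ex S (fun H => |X H| * |Y H|) ≤ a * b := by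
  simpa using h3 hS ha hb one_pos hX hY (one4 hS)

theorem h1 {S : Set Cfg} (hS : Good S) {X : Cfg → ℝ} {a : ℝ} (ha : 0 < a)
    (hX : Ex S (fun H => X H ^ 4) ≤ a ^ 4) : Ex S (fun H => |X H|) ≤ a := by
  simpa using h2 hS ha one_pos hX (one4 hS)

theorem pt {w w₁ : ℝ → ℝ} (hw : W2 w w₁) {u m C D : ℝ} (hu : |u| ≤ C) (hm : |m| ≤ D)
    (v X X₀ B B₀ B' T : ℝ) :
    |X * w T - X * w (T - B) - u * v * (X₀ * B₀ * w₁ (T - B')) + m * (w₁ (T - B') - w₁ T)| ≤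
      2 * (|X| * |B| * |B|) + |X| * |B| * |B'| + |X - u * X₀| * |B| + C * (|X₀| * |B - v * B₀|) +
        D * |B'| := by
  have a1 := hw.tay (T - B) B
  have a2 := hw.lip (T - B') (B' - B)
  have a3 := hw.lip T (-B')
  have a4 := hw.b1 (T - B')
  rw [sub_add_cancel, ← sq_abs B] at a1
  rw [show T - B' + (B' - B) = T - B by ring] at a2
  rw [← sub_eq_add_neg, abs_neg] at a3
  have a5 : |B' - B| ≤ |B'| + |B| := abs_sub _ _
  have e : X * w T - X * w (T - B) - u * v * (X₀ * B₀ * w₁ (T - B')) + m * (w₁ (T - B') - w₁ T) =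
      X * (w T - w (T - B) - B * w₁ (T - B)) + X * B * (w₁ (T - B) - w₁ (T - B')) +
        (X - u * X₀) * B * w₁ (T - B') + u * (X₀ * (B - v * B₀)) * w₁ (T - B') +
        m * (w₁ (T - B') - w₁ T) := by ring
  have b1 : |X * (w T - w (T - B) - B * w₁ (T - B))| ≤ |X| * |B| ^ 2 := by
    rw [abs_mul]
    exact mul_le_mul_of_nonneg_left a1 (abs_nonneg _)
  have b2 : |X * B * (w₁ (T - B) - w₁ (T - B'))| ≤ |X| * |B| * (|B'| + |B|) := by
    rw [abs_mul, abs_mul]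
    exact mul_le_mul_of_nonneg_left (a2.trans a5) (by positivity)
  have b3 : |(X - u * X₀) * B * w₁ (T - B')| ≤ |X - u * X₀| * |B| := by
    rw [abs_mul, abs_mul]
    exact mul_le_of_le_one_right (by positivity) a4
  have b4 : |u * (X₀ * (B - v * B₀)) * w₁ (T - B')| ≤ C * (|X₀| * |B - v * B₀|) := by
    rw [abs_mul, abs_mul, abs_mul]
    exact (mul_le_of_le_one_right (by positivity) a4).trans
      (mul_le_mul_of_nonneg_right hu (by positivity))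
  have b5 : |m * (w₁ (T - B') - w₁ T)| ≤ D * |B'| := by
    rw [abs_mul]
    exact mul_le_mul hm a3 (abs_nonneg _) ((abs_nonneg _).trans hm)
  rw [e]
  rw [abs_le] at b1 b2 b3 b4 b5 ⊢
  constructor <;> nlinarith [b1.1, b1.2, b2.1, b2.2, b3.1, b3.2, b4.1, b4.2, b5.1, b5.2]

end Alg

theorem s_alg : S_alg := by
  intro S X X₀ B B₀ B' T w w₁ u v κ C η ρ e₁ e₂ hS hw hC hη hη1 hρ hu hv hκ m1 m2 m3 m4 m5 m6 k1 k2
  have hC0 : 0 < C := by linarith
  have huv : |u * v| ≤ C ^ 2 := by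
    rw [abs_mul, sq]
    exact mul_le_mul hu hv (abs_nonneg _) hC0.le
  have hm : |u * v * κ| ≤ C ^ 2 * (C * η ^ 2) := by
    rw [abs_mul]
    exact mul_le_mul huv hκ (abs_nonneg _) (by positivity)
  have d := (abs_Ex_le S _).trans (Ex_mono fun H (_ : H ∈ S) =>
    Alg.pt hw hu hm v (X H) (X₀ H) (B H) (B₀ H) (B' H) (T H))
  rw [Ex_add, Ex_sub, Ex_sub, Ex_mul_left, Ex_mul_left, Ex_sub, Ex_add, Ex_add, Ex_add, Ex_add,
    Ex_mul_left, Ex_mul_left, Ex_mul_left] at d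
  have c1 := Alg.h3 hS hC0 (by positivity) (by positivity) m1 m4 m4
  have c2 := Alg.h3 hS hC0 (by positivity) (by positivity) m1 m4 m6
  have c3 := Alg.h2 hS (by positivity) (by positivity) m3 m4
  have c4 := mul_le_mul_of_nonneg_left (Alg.h2 hS hC0 (by positivity) m2 m5) hC0.le
  have c5 := mul_le_mul_of_nonneg_left (Alg.h1 hS (by positivity) m6)
    (by positivity : 0 ≤ C ^ 2 * (C * η ^ 2))
  have c6 : |u * v * (Ex S (fun H => X₀ H * B₀ H * w₁ (T H - B' H)) -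
      κ * Ex S fun H => w₁ (T H - B' H))| ≤ C ^ 2 * e₂ := by
    rw [abs_mul]
    exact mul_le_mul huv k2 (abs_nonneg _) (by positivity)
  have p3 : C ^ 3 ≤ C ^ 4 := pow_le_pow_right₀ hC (by norm_num)
  have p2 : C ^ 2 ≤ C ^ 4 := pow_le_pow_right₀ hC (by norm_num)
  have q : η ^ 4 ≤ η ^ 3 := pow_le_pow_of_le_one hη.le hη1 (by norm_num)
  have r1 : C ^ 3 * η ^ 4 ≤ C ^ 4 * η ^ 3 := mul_le_mul p3 q (by positivity) (by positivity)
  have r2 : C ^ 3 * (η ^ 2 * ρ ^ 2) ≤ C ^ 4 * (η ^ 2 * ρ ^ 2) :=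
    mul_le_mul_of_nonneg_right p3 (by positivity)
  have r3 : C ^ 2 * η ^ 3 ≤ C ^ 4 * η ^ 3 := mul_le_mul_of_nonneg_right p2 (by positivity)
  have r4 : C ^ 3 * η ^ 3 ≤ C ^ 4 * η ^ 3 := mul_le_mul_of_nonneg_right p3 (by positivity)
  have r5 : 0 ≤ C ^ 4 * η ^ 3 := by positivity
  have r6 : 0 ≤ C ^ 4 * (η ^ 2 * ρ ^ 2) := by positivity
  rw [abs_le] at d c6 k1 ⊢
  constructor <;> linarith [d.1, d.2, c6.1, c6.2, k1.1, k1.2]

end Vale.Agent.P153.Wick
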