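import Vale.Agent.P153.Wick.Stm

/-! P153, field part: mixing in the continuum layer. -/

open Set Filter Topology MeasureTheory Metric
open Vale.Agent.P071 (Test lap DD hh g0 Conf)

namespace Vale.Agent.P153.Wick

noncomputable section

namespace Gmix

theorem lin_add (a b : V →₀ ℝ) (H : Cfg) : lin (a + b) H = lin a H + lin b H :=
  Finsupp.sum_add_index' (fun _ => zero_mul _) fun _ _ _ => add_mul _ _ _

theorem lin_smul (t : ℝ) (a : V →₀ ℝ) (H : Cfg) : lin (t • a) H = t * lin a H := by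
  rw [lin, Finsupp.sum_smul_index' fun _ => zero_mul _, lin, Finsupp.mul_sum]
  simp only [smul_eq_mul, mul_assoc]

theorem tot_smul (t : ℝ) (a : V →₀ ℝ) : tot (t • a) = t * tot a := by
  rw [tot, Finsupp.sum_smul_index' fun _ => rfl, tot, Finsupp.mul_sum]
  rfl

theorem lin_congr {a : V →₀ ℝ} {H H' : Cfg} (h : ∀ y, a y ≠ 0 → H y = H' y) :
    lin a H = lin a H' :=
  Finsupp.sum_congr fun y hy => by rw [h y (Finsupp.mem_support_iff.1 hy)]

theorem test_tr {U : Set ℂ} {a : ℂ → ℝ} (h : Test U a) (w : ℂ) : Test univ fun z => a (z - w) :=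
  ⟨h.1.comp (contDiff_id.sub contDiff_const), h.2.1.comp_homeomorph (Homeomorph.subRight w),
    subset_univ _⟩

theorem ex_sq {S : Set Cfg} {X : Cfg → ℝ} {α : ℝ} (hα : 0 ≤ α)
    (h : Ex S (fun H => X H ^ 4) ≤ α ^ 4) : √(Ex S fun H => X H ^ 2) ≤ α := by
  rw [Real.sqrt_le_left hα]
  have h1 := Ex_sq_le S fun H => X H ^ 2
  simp only [← pow_mul] at h1
  refine abs_le_of_sq_le_sq' ?_ (sq_nonneg α) |>.2
  rw [← pow_mul]
  exact h1.trans h

theorem ex_cs {S : Set Cfg} {X Z G : Cfg → ℝ} {α β : ℝ} (hα : 0 ≤ α) (hβ : 0 ≤ β)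
    (h : Ex S (fun H => X H ^ 4) ≤ α ^ 4) (h' : Ex S (fun H => Z H ^ 4) ≤ β ^ 4)
    (hG : ∀ H, |G H| ≤ 1) : |Ex S fun H => X H * Z H * G H| ≤ α * β := by
  simp only [mul_assoc]
  refine (abs_Ex_mul_le S X _).trans (mul_le_mul (ex_sq hα h) (le_trans (Real.sqrt_le_sqrt
    (Ex_mono fun H _ => ?_)) (ex_sq hβ h')) (Real.sqrt_nonneg _) hα)
  rw [mul_pow]
  exact mul_le_of_le_one_right (sq_nonneg _) ((sq_le_one_iff_abs_le_one _).2 (hG H))

theorem norm_emb {d : ℝ} (hd : 0 < d) (y : V) : ‖(d : ℂ) * emb y‖ = d * ‖emb y‖ := by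
  rw [norm_mul, Complex.norm_real, Real.norm_of_nonneg hd.le]

theorem le_nrm (he : S_emb) {d : ℝ} (hd : 0 < d) (y v : V) :
    ‖(d : ℂ) * emb y - d * emb v‖ ≤ d * nrm (y - v) := by
  rw [← mul_sub, ← he.2.1, norm_emb hd]
  exact mul_le_mul_of_nonneg_left (he.2.2.1 _).1 hd.le

theorem nrm_le (he : S_emb) {d : ℝ} (hd : 0 < d) (y v : V) :
    d * nrm (y - v) ≤ 6 / 5 * ‖(d : ℂ) * emb y - d * emb v‖ := by
  rw [← mul_sub, ← he.2.1, norm_emb hd, mul_left_comm]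
  exact mul_le_mul_of_nonneg_left (he.2.2.1 _).2 hd.le

theorem ceil_bd {d r : ℝ} (hd : 0 < d) (hr : d ≤ r / 2) :
    1 ≤ ⌈2 * r / d⌉₊ ∧ 2 * r ≤ d * ⌈2 * r / d⌉₊ ∧ d * ⌈2 * r / d⌉₊ ≤ 3 * r := by
  have h0 : 0 < 2 * r / d := div_pos (by linarith) hd
  have h1 := Nat.le_ceil (2 * r / d)
  have h2 := Nat.ceil_lt_add_one h0.le
  rw [div_le_iff₀' hd] at h1
  rw [div_add_one hd.ne', lt_div_iff₀' hd] at h2
  exact ⟨Nat.ceil_pos.2 h0, h1, by linarith⟩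

theorem b1 (he : S_emb) (hw : S_wt) {d r A : ℝ} {f : ℂ → ℝ} (hd : 0 < d) (hr : d ≤ r / 2)
    (hf : Test univ f) (hs : ∀ z, f z ≠ 0 → ‖z‖ ≤ r) (hA : 0 < A) (hb : ∀ z, |f z| ≤ A) :
    B1 ((4 * A * d ^ 2)⁻¹ • wt d f) 0 ⌈2 * r / d⌉₊ := by
  obtain ⟨-, -, h3, h4, -⟩ := hw d f hd hf
  have hp : 0 < 4 * A * d ^ 2 := by positivity
  refine ⟨fun y => ?_, fun y hy => ?_⟩
  · rw [Finsupp.smul_apply, smul_eq_mul, abs_mul, abs_of_pos (inv_pos.2 hp),
      inv_mul_le_iff₀ hp, mul_one]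
    exact h4 A hb y
  · obtain ⟨z, hz, hz'⟩ := h3 y (right_ne_zero_of_mul hy)
    have h5 := mul_le_mul_of_nonneg_left (he.2.2.1 y).2 hd.le
    have h6 := norm_le_norm_add_norm_sub z ((d : ℂ) * emb y)
    rw [norm_emb hd] at h6
    rw [mem_hex, sub_zero, ← Nat.cast_le (α := ℝ), ← mul_le_mul_iff_right₀ hd]
    linarith [hs z hz, (ceil_bd hd hr).2.1]

theorem mom (he : S_emb) (hw : S_wt) (Hb : L_mb) : ∃ C : ℝ, 0 < C ∧ ∀ (F S : Set V) (d r A : ℝ)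
    (f : ℂ → ℝ), Dom F → 0 < d → d ≤ r / 2 → (∀ y ∈ F, ‖(d : ℂ) * emb y‖ ≤ r) → Test univ f →
    (∀ z, f z ≠ 0 → ‖z‖ ≤ r) → 0 < A → (∀ z, |f z| ≤ A) →
    Ex (dob F S) (fun H => lin (wt d f) H ^ 4) ≤ (C * r ^ 2 * A) ^ 4 := by
  obtain ⟨C, hC⟩ := Hb
  refine ⟨36 * (|C| + 1), by positivity, fun F S d r A f hF hd hr hy hf hs hA hb => ?_⟩
  obtain ⟨n1, n2, n3⟩ := ceil_bd hd hr
  have h1 := hC F S 0 _ _ hF n1 (fun h => ?_) (b1 he hw hd hr hf hs hA hb)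
  · have hp : 0 < 4 * A * d ^ 2 := by positivity
    simp only [lin_smul, mul_pow, Ex_mul_left] at h1
    rw [inv_pow, inv_mul_le_iff₀ (by positivity)] at h1
    have h2 : C ≤ (|C| + 1) ^ 4 :=
      (le_abs_self C).trans ((le_add_of_nonneg_right zero_le_one).trans
        (le_self_pow₀ (le_add_of_nonneg_left (abs_nonneg C)) (by norm_num)))
    have h3 : (d * ⌈2 * r / d⌉₊) ^ 8 ≤ (3 * r) ^ 8 := pow_le_pow_left₀ (by positivity) n3 8
    calc _ ≤ _ := h1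
      _ = (4 * A) ^ 4 * (C * (d * ⌈2 * r / d⌉₊) ^ 8) := by ring
      _ ≤ (4 * A) ^ 4 * ((|C| + 1) ^ 4 * (3 * r) ^ 8) := by
        refine mul_le_mul_of_nonneg_left ?_ (by positivity)
        exact (mul_le_mul_of_nonneg_right h2 (by positivity)).trans
          (mul_le_mul_of_nonneg_left h3 (by positivity))
      _ = _ := by ring
  · have e : nrm ((⌈2 * r / d⌉₊ : ℤ), 0) = ⌈2 * r / d⌉₊ := by simp [nrm]
    have h2 := hy _ (h (show _ ∈ hex 0 _ by rw [mem_hex, sub_zero, e]))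
    have h3 := mul_le_mul_of_nonneg_left (he.2.2.1 ((⌈2 * r / d⌉₊ : ℤ), 0)).2 hd.le
    rw [norm_emb hd] at h2
    rw [e] at h3
    linarith

/-- Replacing the centre by a nearby point. -/
theorem repl (hw : S_wt) {S : Set Cfg} {d Q A B t : ℝ} {a a' b b' : ℂ → ℝ} {G : Cfg → ℝ}
    {P : (ℂ → ℝ) → Prop} (hd : 0 < d) (hQ : 0 < Q) (hA : 0 < A) (hB : 0 < B) (ht : 0 < t)
    (hm : ∀ (A : ℝ) f, Test univ f → P f → 0 < A → (∀ z, |f z| ≤ A) →
      Ex S (fun H => lin (wt d f) H ^ 4) ≤ (Q * A) ^ 4)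
    (ha : Test univ a) (ha' : Test univ a') (hb : Test univ b) (hb' : Test univ b')
    (p1 : P fun z => a z - a' z) (p2 : P fun z => b z - b' z) (p3 : P a') (p4 : P b)
    (b1 : ∀ z, |a z - a' z| ≤ A * t) (b2 : ∀ z, |b z - b' z| ≤ B * t) (b3 : ∀ z, |a' z| ≤ A)
    (b4 : ∀ z, |b z| ≤ B) (hG : ∀ H, |G H| ≤ 1) :
    |Ex S (fun H => lin (wt d a) H * lin (wt d b) H * G H) -
      Ex S fun H => lin (wt d a') H * lin (wt d b') H * G H| ≤ 2 * Q ^ 2 * t * A * B := by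
  have e : ∀ {f f' : ℂ → ℝ}, Test univ f → Test univ f' → ∀ H,
      lin (wt d fun z => f z - f' z) H = lin (wt d f) H - lin (wt d f') H := fun hf hf' H => by
    have := (hw d _ hd (hf.sub hf')).2.2.2.2.2.1 _ hf'
    simp only [sub_add_cancel] at this
    rw [eq_sub_iff_add_eq, ← lin_add, ← this]
  have h1 := ex_cs (by positivity) (by positivity) (hm _ _ (ha.sub ha') p1 (by positivity) b1)
    (hm _ _ hb p4 hB b4) hG
  have h2 := ex_cs (by positivity) (by positivity) (hm _ _ ha' p3 hA b3)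
    (hm _ _ (hb.sub hb') p2 (by positivity) b2) hG
  simp only [e ha ha', e hb hb', sub_mul, mul_sub, Ex_sub] at h1 h2
  have h3 := abs_sub_le (Ex S fun H => lin (wt d a) H * lin (wt d b) H * G H)
    (Ex S fun H => lin (wt d a') H * lin (wt d b) H * G H)
    (Ex S fun H => lin (wt d a') H * lin (wt d b') H * G H)
  linarith

theorem near (he : S_emb) {d : ℝ} (hd : 0 < d) (x : ℂ) : ∃ v, ‖x - d * emb v‖ ≤ d := by
  obtain ⟨v, hv⟩ := he.2.2.2.1 (x / d)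
  refine ⟨v, ?_⟩
  have h0 : (d : ℂ) ≠ 0 := Complex.ofReal_ne_zero.2 hd.ne'
  rw [show x - d * emb v = d * (x / d - emb v) by field_simp, norm_mul, Complex.norm_real,
    Real.norm_of_nonneg hd.le]
  exact mul_le_of_le_one_right hd.le (by linarith)

theorem unif {U : Set ℂ} {a : ℂ → ℝ} (ha : Test U a) {e : ℝ} (he : 0 < e) :
    ∃ d₁ > 0, ∀ x w : ℂ, ‖x - w‖ < d₁ → ∀ z, |a (z - x) - a (z - w)| ≤ e := by
  obtain ⟨d₁, h1, h2⟩ := Metric.uniformContinuous_iff.1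
    (ha.2.1.uniformContinuous_of_continuous ha.continuous) e he
  refine ⟨d₁, h1, fun x w h z => (h2 ?_).le⟩
  rwa [dist_sub_left, dist_eq_norm]

end Gmix

open Gmix in
theorem g_mix (he : S_emb) (hw : S_wt) (hl : S_loc) (Hb : L_mb) (H : L_mix) : G_mix := by
  have _ := hl
  intro D F δ S hs
  obtain ⟨κ, hκ⟩ := H
  obtain ⟨C, hC, hm⟩ := mom he hw Hb
  refine ⟨fun a b A B n => (4 * A * δ n ^ 2) * (4 * B * δ n ^ 2) *
    κ ((4 * A * δ n ^ 2)⁻¹ • wt (δ n) a) ((4 * B * δ n ^ 2)⁻¹ • wt (δ n) b),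
    fun K hK hKD ε hε => ?_⟩
  obtain ⟨d₀, hd₀, hth⟩ := hK.exists_cthickening_subset_open hs.op hKD
  obtain ⟨R₀, hR₀⟩ := hs.out
  obtain ⟨R₁, hR₁, hR₁'⟩ := hK.isBounded.exists_pos_norm_le
  obtain ⟨L, hL⟩ := exists_nat_ge (5 * (R₀ + R₁ + d₀) / d₀)
  rw [div_le_iff₀ hd₀] at hL
  obtain ⟨M, hM⟩ := hκ L (ε / 2592) (by positivity)
  refine ⟨1 / (6 * M + 6), d₀ / 4, by positivity, by positivity,
    fun η ρ A B a b g hη hηρ hρ hA hB ha hb ia ib ba bb x hx hg => ?_⟩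
  rw [one_div, inv_mul_eq_div, le_div_iff₀ (by positivity)] at hηρ
  have hMη : 0 ≤ M * η := by positivity
  obtain ⟨r, hr, r1, r2⟩ : ∃ r, 0 < r ∧ R₀ ≤ r ∧ R₁ + 2 * η ≤ r :=
    ⟨|R₀| + R₁ + 2 * η, by positivity, by linarith [le_abs_self R₀], by linarith [abs_nonneg R₀]⟩
  obtain ⟨t, ht, ht'⟩ : ∃ t, 0 < t ∧ 2 * (C * r ^ 2) ^ 2 * t = ε / 2 * η ^ 4 :=
    ⟨ε / 2 * η ^ 4 / (2 * (C * r ^ 2) ^ 2), by positivity, by field_simp⟩
  obtain ⟨d₁, hd₁, u₁⟩ := unif ha (mul_pos hA ht)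
  obtain ⟨d₂, hd₂, u₂⟩ := unif hb (mul_pos hB ht)
  filter_upwards [hR₀, hs.inn _ hK.cthickening hth, hs.lim.eventually_le_const (half_pos hη),
    hs.lim.eventually_lt_const hd₁, hs.lim.eventually_lt_const hd₂] with n o1 o2 o3 o4 o5 Γ hΓ
  have hd := hs.pos n
  unfold YY
  generalize δ n = d at *
  obtain ⟨v, hv⟩ := near he hd x
  obtain ⟨n1, n2, n3⟩ := ceil_bd hd o3
  have sa : ∀ {a : ℂ → ℝ}, Test (ball 0 η) a → ∀ z, a z ≠ 0 → ‖z‖ ≤ η := fun ha z hz =>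
    (mem_ball_zero_iff.1 (not_not.1 fun h => hz (ha.eq_zero h))).le
  have su : ∀ {U : Set ℂ} {a : ℂ → ℝ}, Test U a → Test univ a := fun ha =>
    ⟨ha.1, ha.2.1, subset_univ _⟩
  have f1 : d * ⌊d₀ / 2 / d⌋₊ ≤ d₀ / 2 := by
    rw [← le_div_iff₀' hd]
    exact Nat.floor_le (by positivity)
  have f2 : d₀ / 4 ≤ d * ⌊d₀ / 2 / d⌋₊ := by
    have := Nat.lt_floor_add_one (d₀ / 2 / d)
    rw [div_lt_iff₀' hd] at this
    linarith
  have f3 : d * (M * ⌈2 * η / d⌉₊ : ℕ) ≤ 3 * (M * η) := by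
    have := mul_le_mul_of_nonneg_left n3 (Nat.cast_nonneg M)
    push_cast
    linarith
  have hx1 := hR₁' x hx
  have key := hM (F n) (S n) v _ ⌊d₀ / 2 / d⌋₊ _ _ (fun H => Γ (lin (wt d g) H)) (hs.dom n) n1
    (by
      rw [← Nat.cast_le (α := ℝ), ← mul_le_mul_iff_right₀ hd]
      linarith)
    (fun y hy => o2 y (mem_cthickening_of_dist_le _ x _ _ hx (by
      have h1 := le_nrm he hd y v
      have h2 := mul_le_mul_of_nonneg_left (Nat.cast_le (α := ℝ).2 (mem_hex.1 hy)) hd.le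
      have h3 := dist_triangle_right ((d : ℂ) * emb y) x (d * emb v)
      simp only [dist_eq_norm] at h3 ⊢
      linarith)))
    (fun y hy => by
      have h1 := nrm_le he hd y v
      have h2 := norm_sub_le ((d : ℂ) * emb y) (d * emb v)
      have h3 := norm_le_norm_add_norm_sub x ((d : ℂ) * emb v)
      have h4 := mul_le_mul_of_nonneg_left f2 (Nat.cast_nonneg L)
      have h5 := norm_nonneg ((d : ℂ) * emb y)
      rw [mem_hex, ← Nat.cast_le (α := ℝ), ← mul_le_mul_iff_right₀ hd]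
      push_cast
      linarith [o1 y hy])
    (b1 he hw hd o3 (su ha) (sa ha) hA ba) (b1 he hw hd o3 (su hb) (sa hb) hB bb)
    (by rw [tot_smul, (hw d a hd (su ha)).2.1, ia, mul_zero])
    (by rw [tot_smul, (hw d b hd (su hb)).2.1, ib, mul_zero])
    ⟨fun H H' h => congrArg Γ (lin_congr fun y hy => h y fun hy' => by
      obtain ⟨z, hz, hz'⟩ := (hw d g hd (su hg)).2.2.1 y hy
      refine hz (hg.eq_zero (not_not.2 ?_))
      have h1 := le_nrm he hd y v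
      have h2 := mul_le_mul_of_nonneg_left (Nat.cast_le (α := ℝ).2 (mem_hex.1 hy')) hd.le
      have h3 := dist_triangle4_right z x ((d : ℂ) * emb y) (d * emb v)
      simp only [dist_eq_norm, mem_closedBall] at h3 ⊢
      linarith), fun H => hΓ _⟩
  have s1 : ∀ {a : ℂ → ℝ}, Test (ball 0 η) a → ∀ w : ℂ, ‖x - w‖ ≤ d → ∀ z, a (z - w) ≠ 0 →
      ‖z‖ ≤ r := fun ha w h z hz => by
    have h1 := sa ha _ hz
    have h2 := norm_le_norm_add_norm_sub' z w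
    have h3 := norm_le_norm_add_norm_sub x w
    linarith
  have x0 : ‖x - x‖ ≤ d := by simpa using hd.le
  have s2 : ∀ {a : ℂ → ℝ}, Test (ball 0 η) a → ∀ z, a (z - x) - a (z - d * emb v) ≠ 0 →
      ‖z‖ ≤ r := fun {a} ha z hz => by
    by_cases h : a (z - x) = 0
    · exact s1 ha _ hv z fun h' => hz (by rw [h, h', sub_zero])
    · exact s1 ha _ x0 z h
  have rp := repl hw (S := dob (F n) (S n)) (P := fun f => ∀ z, f z ≠ 0 → ‖z‖ ≤ r)
    (G := fun H => Γ (lin (wt d g) H)) hd (by positivity : 0 < C * r ^ 2) hA hB ht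
    (fun A f hf hp => hm (F n) (S n) d r A f (hs.dom n) hd (by linarith)
      (fun y hy => (o1 y hy).trans r1) hf hp)
    (test_tr ha x) (test_tr ha (d * emb v)) (test_tr hb x) (test_tr hb (d * emb v))
    (s2 ha) (s2 hb) (s1 ha _ hv) (s1 hb _ x0) (u₁ _ _ (hv.trans_lt o4)) (u₂ _ _ (hv.trans_lt o5))
    (fun z => ba _) (fun z => bb _) fun H => hΓ _
  simp only [(hw d a hd (su ha)).2.2.2.2.2.2.2.1, (hw d b hd (su hb)).2.2.2.2.2.2.2.1] at rp
  have pa : 0 < 4 * A * d ^ 2 := by positivity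
  have pb : 0 < 4 * B * d ^ 2 := by positivity
  have k2 := mul_le_mul_of_nonneg_left key (mul_pos pa pb).le
  rw [← abs_of_pos (mul_pos pa pb), ← abs_mul, abs_of_pos (mul_pos pa pb), mul_sub,
    ← Ex_mul_left, ← mul_assoc _ (κ _ _), Ex_congr (g := fun H => lin (wt d a) (H ∘ tr v) *
      lin (wt d b) (H ∘ tr v) * Γ (lin (wt d g) H)) fun H _ => by
        simp only [lin_smul]
        field_simp] at k2
  have k3 : 4 * A * d ^ 2 * (4 * B * d ^ 2) * (ε / 2592 * (⌈2 * η / d⌉₊ : ℝ) ^ 4) ≤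
      ε / 2 * η ^ 4 * A * B := by
    have h1 : (d * ⌈2 * η / d⌉₊) ^ 4 ≤ (3 * η) ^ 4 := pow_le_pow_left₀ (by positivity) n3 4
    calc _ = ε / 162 * A * B * (d * ⌈2 * η / d⌉₊) ^ 4 := by ring
      _ ≤ ε / 162 * A * B * (3 * η) ^ 4 := mul_le_mul_of_nonneg_left h1 (by positivity)
      _ = _ := by ring
  rw [ht'] at rp
  refine (abs_sub_le _ _ _).trans ((add_le_add rp (k2.trans k3)).trans_eq ?_)
  ring

end

end Vale.Agent.P153.Wick
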