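import Vale.Agent.P153.Wick.Gmix

/-! P153, field part: mixing with a value that depends on the mesh only. -/

open Set Filter Topology MeasureTheory Metric
open Vale.Agent.P071 (Test lap DD hh g0 Conf)

namespace Vale.Agent.P153.Wick

noncomputable section

/-- The mixing property with a given value. -/
def MixK (D : Set ℂ) (S : ℕ → Set Cfg) (Y : ℕ → (ℂ → ℝ) → Cfg → ℝ)
    (κ : (ℂ → ℝ) → (ℂ → ℝ) → ℝ → ℝ → ℕ → ℝ) : Prop :=
  ∀ K, IsCompact K → K ⊆ D → ∀ ε : ℝ, 0 < ε →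
  ∃ θ ρ₀ : ℝ, 0 < θ ∧ 0 < ρ₀ ∧ ∀ (η ρ A B : ℝ) (a b g : ℂ → ℝ), 0 < η → η ≤ θ * ρ → ρ ≤ ρ₀ →
  0 < A → 0 < B → Test (ball 0 η) a → Test (ball 0 η) b → ∫ z, a z = 0 → ∫ z, b z = 0 →
  (∀ y, |a y| ≤ A) → (∀ y, |b y| ≤ B) → ∀ x ∈ K, Test (closedBall x ρ)ᶜ g →
  ∀ᶠ n in atTop, ∀ Γ : ℝ → ℝ, (∀ t, |Γ t| ≤ 1) →
    |Ex (S n) (fun H => Y n (fun z => a (z - x)) H * Y n (fun z => b (z - x)) H * Γ (Y n g H)) -
      κ a b A B n * Ex (S n) fun H => Γ (Y n g H)| ≤ ε * (A * η ^ 2) * (B * η ^ 2)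

open Gmix in
theorem g_mixK (he : S_emb) (hw : S_wt) (Hb : L_mb) (H : L_mix) :
    ∃ κ : (ℂ → ℝ) → (ℂ → ℝ) → ℝ → ℝ → ℝ → ℝ, ∀ D F δ (S : ℕ → Set V), Seq D F δ →
      MixK D (fun n => dob (F n) (S n)) (YY δ) fun a b A B n => κ a b A B (δ n) := by
  obtain ⟨κ, hκ⟩ := H
  obtain ⟨C, hC, hm⟩ := mom he hw Hb
  refine ⟨fun a b A B d => (4 * A * d ^ 2) * (4 * B * d ^ 2) *
    κ ((4 * A * d ^ 2)⁻¹ • wt d a) ((4 * B * d ^ 2)⁻¹ • wt d b),
    fun D F δ S hs K hK hKD ε hε => ?_⟩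
  obtain ⟨d₀, hd₀, hth⟩ := hK.exists_cthickening_subset_open hs.op hKD
  obtain ⟨R₀, hR₀⟩ := hs.out
  obtain ⟨R₁, hR₁, hR₁'⟩ := hK.isBounded.exists_pos_norm_le
  obtain ⟨L, hL⟩ := exists_nat_ge (5 * (R₀ + R₁ + d₀) / d₀)
  rw [div_le_iff₀ hd₀] at hL
  obtain ⟨M, hM⟩ := hκ L (ε / 2592) (by positivity)
  refine ⟨1 / (6 * M + 6), d₀ / 4, by positivity, by positivity,
    fun η ρ A B a b g hη hηρ hρ hA hB ha hb ia ib ba bb x hx hg => ?_⟩
  rw [one_div, inv_mul_eq_div, le_div_iff₀ (by positivity)] at hηρ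
  have hMη : 0 ≤ M * η := by positivity
  obtain ⟨r, hr, r1, r2⟩ : ∃ r, 0 < r ∧ R₀ ≤ r ∧ R₁ + 2 * η ≤ r :=
    ⟨|R₀| + R₁ + 2 * η, by positivity, by linarith [le_abs_self R₀], by linarith [abs_nonneg R₀]⟩
  obtain ⟨t, ht, ht'⟩ : ∃ t, 0 < t ∧ 2 * (C * r ^ 2) ^ 2 * t = ε / 2 * η ^ 4 :=
    ⟨ε / 2 * η ^ 4 / (2 * (C * r ^ 2) ^ 2), by positivity, by field_simp⟩
  obtain ⟨d₁, hd₁, u₁⟩ := unif ha (mul_pos hA ht)
  obtain ⟨d₂, hd₂, u₂⟩ := unif hb (mul_pos hB ht)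
  filter_upwards [hR₀, hs.inn _ hK.cthickening hth, hs.lim.eventually_le_const (half_pos hη),
    hs.lim.eventually_lt_const hd₁, hs.lim.eventually_lt_const hd₂] with n o1 o2 o3 o4 o5 Γ hΓ
  have hd := hs.pos n
  unfold YY
  generalize δ n = d at *
  obtain ⟨v, hv⟩ := near he hd x
  obtain ⟨n1, n2, n3⟩ := ceil_bd hd o3
  have sa : ∀ {a : ℂ → ℝ}, Test (ball 0 η) a → ∀ z, a z ≠ 0 → ‖z‖ ≤ η := fun ha z hz =>
    (mem_ball_zero_iff.1 (not_not.1 fun h => hz (ha.eq_zero h))).le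
  have su : ∀ {U : Set ℂ} {a : ℂ → ℝ}, Test U a → Test univ a := fun ha =>
    ⟨ha.1, ha.2.1, subset_univ _⟩
  have f1 : d * ⌊d₀ / 2 / d⌋₊ ≤ d₀ / 2 := by
    rw [← le_div_iff₀' hd]
    exact Nat.floor_le (by positivity)
  have f2 : d₀ / 4 ≤ d * ⌊d₀ / 2 / d⌋₊ := by
    have := Nat.lt_floor_add_one (d₀ / 2 / d)
    rw [div_lt_iff₀' hd] at this
    linarith
  have f3 : d * (M * ⌈2 * η / d⌉₊ : ℕ) ≤ 3 * (M * η) := by
    have := mul_le_mul_of_nonneg_left n3 (Nat.cast_nonneg M)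
    push_cast
    linarith
  have hx1 := hR₁' x hx
  have key := hM (F n) (S n) v _ ⌊d₀ / 2 / d⌋₊ _ _ (fun H => Γ (lin (wt d g) H)) (hs.dom n) n1
    (by
      rw [← Nat.cast_le (α := ℝ), ← mul_le_mul_iff_right₀ hd]
      linarith)
    (fun y hy => o2 y (mem_cthickening_of_dist_le _ x _ _ hx (by
      have h1 := le_nrm he hd y v
      have h2 := mul_le_mul_of_nonneg_left (Nat.cast_le (α := ℝ).2 (mem_hex.1 hy)) hd.le
      have h3 := dist_triangle_right ((d : ℂ) * emb y) x (d * emb v)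
      simp only [dist_eq_norm] at h3 ⊢
      linarith)))
    (fun y hy => by
      have h1 := nrm_le he hd y v
      have h2 := norm_sub_le ((d : ℂ) * emb y) (d * emb v)
      have h3 := norm_le_norm_add_norm_sub x ((d : ℂ) * emb v)
      have h4 := mul_le_mul_of_nonneg_left f2 (Nat.cast_nonneg L)
      have h5 := norm_nonneg ((d : ℂ) * emb y)
      rw [mem_hex, ← Nat.cast_le (α := ℝ), ← mul_le_mul_iff_right₀ hd]
      push_cast
      linarith [o1 y hy])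
    (b1 he hw hd o3 (su ha) (sa ha) hA ba) (b1 he hw hd o3 (su hb) (sa hb) hB bb)
    (by rw [tot_smul, (hw d a hd (su ha)).2.1, ia, mul_zero])
    (by rw [tot_smul, (hw d b hd (su hb)).2.1, ib, mul_zero])
    ⟨fun H H' h => congrArg Γ (lin_congr fun y hy => h y fun hy' => by
      obtain ⟨z, hz, hz'⟩ := (hw d g hd (su hg)).2.2.1 y hy
      refine hz (hg.eq_zero (not_not.2 ?_))
      have h1 := le_nrm he hd y v
      have h2 := mul_le_mul_of_nonneg_left (Nat.cast_le (α := ℝ).2 (mem_hex.1 hy')) hd.le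
      have h3 := dist_triangle4_right z x ((d : ℂ) * emb y) (d * emb v)
      simp only [dist_eq_norm, mem_closedBall] at h3 ⊢
      linarith), fun H => hΓ _⟩
  have s1 : ∀ {a : ℂ → ℝ}, Test (ball 0 η) a → ∀ w : ℂ, ‖x - w‖ ≤ d → ∀ z, a (z - w) ≠ 0 →
      ‖z‖ ≤ r := fun ha w h z hz => by
    have h1 := sa ha _ hz
    have h2 := norm_le_norm_add_norm_sub' z w
    have h3 := norm_le_norm_add_norm_sub x w
    linarith
  have x0 : ‖x - x‖ ≤ d := by simpa using hd.le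
  have s2 : ∀ {a : ℂ → ℝ}, Test (ball 0 η) a → ∀ z, a (z - x) - a (z - d * emb v) ≠ 0 →
      ‖z‖ ≤ r := fun {a} ha z hz => by
    by_cases h : a (z - x) = 0
    · exact s1 ha _ hv z fun h' => hz (by rw [h, h', sub_zero])
    · exact s1 ha _ x0 z h
  have rp := repl hw (S := dob (F n) (S n)) (P := fun f => ∀ z, f z ≠ 0 → ‖z‖ ≤ r)
    (G := fun H => Γ (lin (wt d g) H)) hd (by positivity : 0 < C * r ^ 2) hA hB ht
    (fun A f hf hp => hm (F n) (S n) d r A f (hs.dom n) hd (by linarith)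
      (fun y hy => (o1 y hy).trans r1) hf hp)
    (test_tr ha x) (test_tr ha (d * emb v)) (test_tr hb x) (test_tr hb (d * emb v))
    (s2 ha) (s2 hb) (s1 ha _ hv) (s1 hb _ x0) (u₁ _ _ (hv.trans_lt o4)) (u₂ _ _ (hv.trans_lt o5))
    (fun z => ba _) (fun z => bb _) fun H => hΓ _
  simp only [(hw d a hd (su ha)).2.2.2.2.2.2.2.1, (hw d b hd (su hb)).2.2.2.2.2.2.2.1] at rp
  have pa : 0 < 4 * A * d ^ 2 := by positivity
  have pb : 0 < 4 * B * d ^ 2 := by positivity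
  have k2 := mul_le_mul_of_nonneg_left key (mul_pos pa pb).le
  rw [← abs_of_pos (mul_pos pa pb), ← abs_mul, abs_of_pos (mul_pos pa pb), mul_sub,
    ← Ex_mul_left, ← mul_assoc _ (κ _ _), Ex_congr (g := fun H => lin (wt d a) (H ∘ tr v) *
      lin (wt d b) (H ∘ tr v) * Γ (lin (wt d g) H)) fun H _ => by
        simp only [lin_smul]
        field_simp] at k2
  have k3 : 4 * A * d ^ 2 * (4 * B * d ^ 2) * (ε / 2592 * (⌈2 * η / d⌉₊ : ℝ) ^ 4) ≤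
      ε / 2 * η ^ 4 * A * B := by
    have h1 : (d * ⌈2 * η / d⌉₊) ^ 4 ≤ (3 * η) ^ 4 := pow_le_pow_left₀ (by positivity) n3 4
    calc _ = ε / 162 * A * B * (d * ⌈2 * η / d⌉₊) ^ 4 := by ring
      _ ≤ ε / 162 * A * B * (3 * η) ^ 4 := mul_le_mul_of_nonneg_left h1 (by positivity)
      _ = _ := by ring
  rw [ht'] at rp
  refine (abs_sub_le _ _ _).trans ((add_le_add rp (k2.trans k3)).trans_eq ?_)
  ring

end

end Vale.Agent.P153.Wick
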