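import Vale.Agent.P153.Wick.Uni1
import Vale.Agent.P153.Wick.Main

/-! P153, field part: two sequences with the same mixing value have the same constant. -/

open Set Filter Topology MeasureTheory Metric
open Vale.Agent.P071 (Test lap DD hh g0 Conf)

namespace Vale.Agent.P153.Wick

namespace Uni

open Cell in
theorem mixP' {p k σ : ℂ → ℝ} (hB : Bumps p k σ) {lam : ℝ} (hlam : 1 ≤ lam)
    (kap : (ℂ → ℝ) → (ℂ → ℝ) → ℝ → ℝ → ℕ → ℝ) :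
    ∃ κ, ∀ D S Y, MixK D S Y kap → MixP D S Y p (qq k σ) lam κ := by
  obtain ⟨C₀, hC₀, h0⟩ := s_fun p k σ _ _ hB (test_zero _) (test_zero _)
  refine ⟨fun η n => kap (lap (sc p 0 η)) (sc (qq k σ) 0 (lam * (2 * η))) (C₀ / η ^ 2) C₀ n,
    fun D S Y mix => ?_⟩
  intro K hK hKD ε hε
  obtain ⟨θ, ρ₀, hθ, hρ₀, h⟩ := mix K hK hKD (ε / (C₀ ^ 2 * (6 * lam) ^ 4)) (by positivity)
  refine ⟨θ, ρ₀, hθ, hρ₀, fun η ρ g hη h1 h2 h3 x hx hg => ?_⟩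
  have hs : 0 < lam * (2 * η) := by positivity
  obtain ⟨⟨a1, -, -, a4, -⟩, -⟩ := h0 0 η hη (by nlinarith)
  obtain ⟨-, -, b2, -, -, b5, -, b7, -⟩ := h0 0 _ hs (by nlinarith)
  obtain ⟨⟨-, -, a3, -⟩, -⟩ := h0 x η hη (by nlinarith)
  have := h (3 * (lam * (2 * η))) ρ (C₀ / η ^ 2) C₀ (lap (sc p 0 η)) _ g (by positivity)
    (by linarith) h3 (by positivity) hC₀ (mono a1.lap (ball_subset_ball (by nlinarith))) b2
    (int_lap a1) b5 a4 (fun y => b7 _) x hx hg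
  rw [sc_shift, ← funext a3] at this
  filter_upwards [this] with n hn Γ hΓ
  refine (hn Γ hΓ).trans (le_of_eq ?_)
  field_simp
  ring

open Ibp in
theorem ibp' {p k σ : ℂ → ℝ} (hb : Bumps p k σ) {κ : ℝ → ℕ → ℝ} {C η₀ : ℝ} (hη₀ : 0 < η₀)
    (hC : ∀ η, 0 < η → η ≤ η₀ → ∀ᶠ n in atTop, |κ η n| ≤ C * η ^ 2) (U : Ultrafilter ℕ)
    (hU : (U : Filter ℕ) ≤ atTop) :
    ∃ K, ∀ D S Y, WI0 D S Y → Cell D S Y p κ → IBP D S Y U K := by
  have hf := s_fun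
  have hI := hb.p_int
  set I := ∫ z, p z
  have hη : ∀ m : ℕ, 0 < η₀ / (m + 1) := fun m => by positivity
  have hB : ∀ m : ℕ, ∀ᶠ n in U, |κ (η₀ / (m + 1)) n / ((η₀ / (m + 1)) ^ 2 * I)| ≤ C / I := by
    intro m
    filter_upwards [hU (hC _ (hη m) (div_le_self hη₀.le (by simp)))] with n hn
    have h1 := hη m
    rw [abs_div, abs_of_pos (mul_pos (pow_pos h1 2) hI), ← div_div]
    exact div_le_div_of_nonneg_right ((div_le_iff₀ (pow_pos h1 2)).2 hn) hI.le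
  choose l hl hl' using fun m => ulim U _ _ (hB m)
  obtain ⟨K, -, hK⟩ := ulim U l _ (Eventually.of_forall hl)
  refine ⟨-K, fun D S Y h hc f g tf tg w w₁ hw => Metric.tendsto_nhds.2 fun ε hε => ?_⟩
  obtain ⟨M, hM, h1⟩ := main hf h hb hc tf tg
  have hB0 : 0 ≤ C / I := (abs_nonneg _).trans (hl 0)
  set a := ∫ z, f z * g z
  obtain ⟨e, he, he'⟩ : ∃ e : ℝ, 0 < e ∧ e * (M + M * I * (C / I) + 2 * |a| + 1) = ε :=
    ⟨_, by positivity, div_mul_cancel₀ ε (by positivity)⟩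
  obtain ⟨η₁, hη₁, h2⟩ := h1 e he
  have h3 : ∀ᶠ m : ℕ in U, η₀ / (m + 1) ≤ η₁ :=
    hU ((tendsto_const_div_atTop_nhds_zero_nat η₀).comp (tendsto_add_atTop_nat 1) |>.eventually
      (eventually_le_nhds hη₁) |>.mono fun m hm => by simpa using hm)
  obtain ⟨m, h4, h5⟩ := (h3.and (Metric.tendsto_nhds.1 hK e he)).exists
  obtain ⟨s, h6, h7⟩ := h2 _ (hη m) h4
  filter_upwards [hU (h7 w w₁ hw), hB m, Metric.tendsto_nhds.1 (hl' m) e he] with n h8 h9 h10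
  have h11 : |Ex (S n) fun H => w₁ (Y n g H)| ≤ 1 := abs_Ex_le_of zero_le_one fun H _ => hw.b1 _
  have h12 := mul_pos (pow_pos (hη m) 2) hI
  obtain ⟨t, ht⟩ : ∃ t, κ (η₀ / (m + 1)) n = t * ((η₀ / (m + 1)) ^ 2 * I) :=
    ⟨_, (div_mul_cancel₀ _ h12.ne').symm⟩
  rw [ht, mul_div_cancel_right₀ _ h12.ne'] at h9 h10
  rw [ht] at h8
  generalize (η₀ / (m + 1)) ^ 2 * I = q at h6 h8
  generalize Ex (S n) (fun H => Y n (lap f) H * w (Y n g H)) = A at h8 ⊢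
  generalize Ex (S n) (fun H => w₁ (Y n g H)) = E at h8 h11 ⊢
  rw [Real.dist_eq] at h5 h10
  have h13 : |t - K| ≤ 2 * e := by
    have := abs_sub_le t (l m) K
    linarith
  have h14 : |(a - s * q) * t * E| ≤ e * M * I * (C / I) * 1 := by
    rw [abs_mul, abs_mul]
    gcongr
  have h15 : |a * (t - K) * E| ≤ |a| * (2 * e) * 1 := by
    rw [abs_mul, abs_mul]
    gcongr
  rw [Real.dist_eq, sub_zero, show A + -K * a * E =
    A - s * (t * q) * E - (a - s * q) * t * E + a * (t - K) * E by ring]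
  have h16 := abs_add_le (A - s * (t * q) * E - (a - s * q) * t * E) (a * (t - K) * E)
  have h17 := abs_sub (A - s * (t * q) * E) ((a - s * q) * t * E)
  nlinarith

theorem harL_mono {D : Set ℂ} {S : ℕ → Set Cfg} {Y : ℕ → (ℂ → ℝ) → Cfg → ℝ} {a b : ℝ}
    (h : Cell.HarL D S Y a) (hab : a ≤ b) : Cell.HarL D S Y b := fun x η f g hη hD hf hg =>
  have e : closedBall x (a * η) ⊆ closedBall x (b * η) :=
    closedBall_subset_closedBall (mul_le_mul_of_nonneg_right hab hη.le)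
  h x η f g hη (e.trans hD) hf (Cell.mono hg (compl_subset_compl.2 e))

/-- The conclusions along an ultrafilter. -/
def Lim (D : Set ℂ) (φ : ℂ → ℂ) (S : ℕ → Set Cfg) (Y : ℕ → (ℂ → ℝ) → Cfg → ℝ) (U : Filter ℕ)
    (K : ℝ) : Prop :=
  ∀ f, Test D f → Tendsto (fun n => cov (S n) (Y n f) (Y n f)) U (𝓝 (K * Qv D φ f)) ∧
    ∀ (t : ℕ → ℝ) (t₀ : ℝ), Tendsto t U (𝓝 t₀) →
      Tendsto (fun n => avg (S n) fun H => Complex.exp (Complex.I *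
        (t n * (Y n f H - Ex (S n) (Y n f)) : ℝ))) U
        (𝓝 (Complex.exp (-(t₀ ^ 2 * (K * Qv D φ f) / 2 : ℝ))))

theorem lim_of {D : Set ℂ} {ψ φ : ℂ → ℂ} {c : ℂ → ℝ} {S : ℕ → Set Cfg}
    {Y : ℕ → (ℂ → ℝ) → Cfg → ℝ} (h : WIn D ψ φ c S Y) {U : Ultrafilter ℕ}
    (hU : (U : Filter ℕ) ≤ atTop) {K : ℝ} (hK : IBP D S Y U K) : Lim D φ S Y U K := by
  have h1 := s_stein s_R D ψ φ c S Y U K h hK (bdry_ok D ψ φ c S Y U K h hU hK)
  intro f hf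
  obtain ⟨C, hC⟩ := Stein.mom h.toWI0 hf
  refine s_ode S (fun n => Y n f) U _ C h.good (hC.filter_mono hU) fun t w w₁ hw => ?_
  have h2 := h1 _ (hf.const_mul t) w w₁ hw
  have h3 : ∀ n, Y n (fun z => t * f z) = fun H => t * Y n f H := fun n =>
    funext (h.smul n t f (Stein.univ' hf))
  simp only [h3, (s_Q D ψ φ f h.op h.conf).2 t, mul_left_comm K] at h2
  exact h2

theorem two {D D' : Set ℂ} {ψ φ ψ' φ' : ℂ → ℂ} {c c' : ℂ → ℝ} {S S' : ℕ → Set Cfg}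
    {Y Y' : ℕ → (ℂ → ℝ) → Cfg → ℝ} {kap : (ℂ → ℝ) → (ℂ → ℝ) → ℝ → ℝ → ℕ → ℝ}
    (h : WIn D ψ φ c S Y) (h' : WIn D' ψ' φ' c' S' Y') (hm : MixK D S Y kap)
    (hm' : MixK D' S' Y' kap) (U : Ultrafilter ℕ) (hU : (U : Filter ℕ) ≤ atTop) :
    ∃ K, Lim D φ S Y U K ∧ Lim D' φ' S' Y' U K := by
  obtain ⟨p, k, σ, hB⟩ := s_bump
  obtain ⟨l, hl, har⟩ := h.har
  obtain ⟨l', -, har'⟩ := h'.har
  have hL : 1 ≤ max l l' := hl.trans (le_max_left _ _)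
  obtain ⟨κ, hκ⟩ := mixP' hB hL kap
  have c1 := Cell.main s_fun s_alg h.toWI0 hB hL (harL_mono har (le_max_left _ _)) (hκ _ _ _ hm)
  have c2 := Cell.main s_fun s_alg h'.toWI0 hB hL (harL_mono har' (le_max_right _ _))
    (hκ _ _ _ hm')
  obtain ⟨C, η₀, hη₀, hC⟩ := c1.bd
  obtain ⟨K, hK⟩ := ibp' hB hη₀ hC U hU
  exact ⟨K, lim_of h hU (hK _ _ _ h.toWI0 c1), lim_of h' hU (hK _ _ _ h'.toWI0 c2)⟩

end Uni

end Vale.Agent.P153.Wick
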